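import Vale.Agent.P167.N.NET.Rect

/-!
# P167, nets for `q < 1`: tubes

`turn_*`: a tube `T` which crosses a rectangle `R` from one side to the opposite side and leaves it
there is extended to the two other sides of `R`. `VRS`: crossings of rectangles, the worst
configuration outside. `arch`, `ell`, `zed`: corridors of two and three rectangles.
-/

set_option autoImplicit false
set_option linter.unusedSectionVars false

namespace Vale.Agent.P167.N.NET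

open Finset Vale.Agent.P167 Vale.Agent.P167.FK Vale.Agent.P167.H816 Vale.Agent.P167.H262
  Vale.Agent.P167.H632 Vale.Agent.P167.H871 Vale.Agent.P167.H192.TA
open Vale.Agent.P145.FB (PStep PConn)
open Vale.Agent.P153.Topo (Rect mem_rect)
open Relation (ReflTransGen)

variable {Q : ℝ} {D T : Finset Pt} {η : Cfg} {e : Bool} {a b c d : ℤ} {A B : Set Pt}

/-! ### Sides of a rectangle -/

theorem nx_left (hab : a < b) (hcd : c < d) {y : Pt} (h1 : y.1 = a) (h2 : c ≤ y.2) (h3 : y.2 ≤ d)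
    (hp : (y.1 + y.2) % 2 = pr e) : Nx e ↑(Rsq a b c d) (Vs (!e) a c d) y := by
  have hne := pr_not e
  have hpe := pr_or e
  by_cases h : y.2 < d
  · refine ⟨(a, y.2), by rw [mem_coe, mem_Rsq]; dsimp only; omega, by unfold Cor; dsimp only; omega, (a, y.2 + 1), ?_, by unfold Cor; dsimp only; omega⟩
    refine ⟨rfl, ?_, ?_, ?_⟩ <;> dsimp only <;> omega
  · refine ⟨(a, y.2 - 1), by rw [mem_coe, mem_Rsq]; dsimp only; omega, by unfold Cor; dsimp only; omega, (a, y.2 - 1), ?_,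
      by unfold Cor; dsimp only; omega⟩
    refine ⟨rfl, ?_, ?_, ?_⟩ <;> dsimp only <;> omega

theorem nx_right (hab : a < b) (hcd : c < d) {y : Pt} (h1 : y.1 = b) (h2 : c ≤ y.2) (h3 : y.2 ≤ d)
    (hp : (y.1 + y.2) % 2 = pr e) : Nx e ↑(Rsq a b c d) (Vs (!e) b c d) y := by
  have hne := pr_not e
  have hpe := pr_or e
  by_cases h : y.2 < d
  · refine ⟨(b - 1, y.2), by rw [mem_coe, mem_Rsq]; dsimp only; omega, by unfold Cor; dsimp only; omega, (b, y.2 + 1), ?_,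
      by unfold Cor; dsimp only; omega⟩
    refine ⟨rfl, ?_, ?_, ?_⟩ <;> dsimp only <;> omega
  · refine ⟨(b - 1, y.2 - 1), by rw [mem_coe, mem_Rsq]; dsimp only; omega, by unfold Cor; dsimp only; omega, (b, y.2 - 1), ?_,
      by unfold Cor; dsimp only; omega⟩
    refine ⟨rfl, ?_, ?_, ?_⟩ <;> dsimp only <;> omega

theorem nx_bot (hab : a < b) (hcd : c < d) {y : Pt} (h1 : y.2 = c) (h2 : a ≤ y.1) (h3 : y.1 ≤ b)
    (hp : (y.1 + y.2) % 2 = pr e) : Nx e ↑(Rsq a b c d) (Hs (!e) c a b) y := by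
  have hne := pr_not e
  have hpe := pr_or e
  by_cases h : y.1 < b
  · refine ⟨(y.1, c), by rw [mem_coe, mem_Rsq]; dsimp only; omega, by unfold Cor; dsimp only; omega, (y.1 + 1, c), ?_, by unfold Cor; dsimp only; omega⟩
    refine ⟨rfl, ?_, ?_, ?_⟩ <;> dsimp only <;> omega
  · refine ⟨(y.1 - 1, c), by rw [mem_coe, mem_Rsq]; dsimp only; omega, by unfold Cor; dsimp only; omega, (y.1 - 1, c), ?_,
      by unfold Cor; dsimp only; omega⟩
    refine ⟨rfl, ?_, ?_, ?_⟩ <;> dsimp only <;> omega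

theorem nx_top (hab : a < b) (hcd : c < d) {y : Pt} (h1 : y.2 = d) (h2 : a ≤ y.1) (h3 : y.1 ≤ b)
    (hp : (y.1 + y.2) % 2 = pr e) : Nx e ↑(Rsq a b c d) (Hs (!e) d a b) y := by
  have hne := pr_not e
  have hpe := pr_or e
  by_cases h : y.1 < b
  · refine ⟨(y.1, d - 1), by rw [mem_coe, mem_Rsq]; dsimp only; omega, by unfold Cor; dsimp only; omega, (y.1 + 1, d), ?_,
      by unfold Cor; dsimp only; omega⟩
    refine ⟨rfl, ?_, ?_, ?_⟩ <;> dsimp only <;> omega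
  · refine ⟨(y.1 - 1, d - 1), by rw [mem_coe, mem_Rsq]; dsimp only; omega, by unfold Cor; dsimp only; omega, (y.1 - 1, d), ?_,
      by unfold Cor; dsimp only; omega⟩
    refine ⟨rfl, ?_, ?_, ?_⟩ <;> dsimp only <;> omega

/-- The sites on a line below of which there are no squares of `T` are boundary sites, etc. -/
theorem bd_of {x : Pt} {v : Pt} (hv : v ∉ T) (h : Cor e v x) : x ∈ Bd e T := ⟨v, hv, h⟩

theorem bd_bot (hT : ∀ t ∈ T, c ≤ t.2) : Hs e c a b ⊆ Bd e T := by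
  rintro y ⟨h1, h2, h3, h4⟩
  refine bd_of (v := (y.1, c - 1)) (fun h => ?_) (by unfold Cor; dsimp only; omega)
  have := hT _ h
  dsimp only at this
  omega

theorem bd_top (hT : ∀ t ∈ T, t.2 < d) : Hs e d a b ⊆ Bd e T := by
  rintro y ⟨h1, h2, h3, h4⟩
  refine bd_of (v := (y.1, d)) (fun h => ?_) (by unfold Cor; dsimp only; omega)
  have := hT _ h
  dsimp only at this
  omega

theorem bd_left (hT : ∀ t ∈ T, a ≤ t.1) : Vs e a c d ⊆ Bd e T := by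
  rintro y ⟨h1, h2, h3, h4⟩
  refine bd_of (v := (a - 1, y.2)) (fun h => ?_) (by unfold Cor; dsimp only; omega)
  have := hT _ h
  dsimp only at this
  omega

theorem bd_right (hT : ∀ t ∈ T, t.1 < b) : Vs e b c d ⊆ Bd e T := by
  rintro y ⟨h1, h2, h3, h4⟩
  refine bd_of (v := (b, y.2)) (fun h => ?_) (by unfold Cor; dsimp only; omega)
  have := hT _ h
  dsimp only at this
  omega

theorem vc_rect {y : Pt} (h : y ∈ Vc e ↑(Rsq a b c d)) :
    a ≤ y.1 ∧ y.1 ≤ b ∧ c ≤ y.2 ∧ y.2 ≤ d ∧ (y.1 + y.2) % 2 = pr e := by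
  obtain ⟨v, hv, h1, h2, h3⟩ := h
  rw [mem_coe, mem_Rsq] at hv
  refine ⟨?_, ?_, ?_, ?_, h3⟩ <;> omega

/-! ### Turns -/

theorem turn {G : Finset Pt} {A₁ A₃ S₂ S₄ : Set Pt} (hQ : 0 < Q) (hQ1 : Q ≤ 1)
    (H : Quad e ↑G A₁ A₃ S₂ S₄) (hG : Fan e ↑G) (h1 : A₁ ⊆ Bd e G) (h3 : A₃ ⊆ Bd e G)
    (hA : A ⊆ Bd e T) (hAG : Beg e ↑G S₂ A) (hTG : Exi e ↑G S₄ ↑T) (hB : B ⊆ Bd e T)
    (hBG : ∀ z ∈ B, z ∈ Vc e ↑G → Nx e ↑G S₄ z) :
    VT Q e T A B * VT Q e G A₁ A₃ ≤ VT Q e (G ∪ T) A₁ B ∧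
      VT Q e T A B * VT Q e G A₁ A₃ ≤ VT Q e (G ∪ T) A₃ B := by
  refine ⟨VT_glue hQ hQ1 H hG h1 h3 hA hAG hTG hB hBG, ?_⟩
  have h := VT_glue hQ hQ1 H.swap13 hG h3 h1 hA hAG hTG hB hBG
  rwa [VT_comm hQ e G] at h

/-- `T` starts on the right side of the rectangle and leaves it on the left side. -/
theorem turn_VL (hQ : 0 < Q) (hQ1 : Q ≤ 1) (hab : a < b) (hcd : c < d)
    (hT : ∀ t ∈ T, t ∉ Rsq a b c d → t.1 < a) (hAT : A ⊆ Bd e T) (hBT : B ⊆ Bd e T)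
    (hA : A ⊆ Vs e b c d) (hB : ∀ z ∈ B, z.1 ≤ a) :
    VT Q e T A B * VT Q e (Rsq a b c d) (Hs e c a b) (Hs e d a b) ≤
        VT Q e (Rsq a b c d ∪ T) (Hs e c a b) B ∧
      VT Q e T A B * VT Q e (Rsq a b c d) (Hs e c a b) (Hs e d a b) ≤
        VT Q e (Rsq a b c d ∪ T) (Hs e d a b) B := by
  refine turn hQ hQ1 (quad_V e hab.le hcd.le).swap24 (fan_rect _ _ _ _ _)
    (bd_bot fun t ht => (mem_Rsq.1 ht).2.2.1) (bd_top fun t ht => (mem_Rsq.1 ht).2.2.2) hAT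
    (fun y hy => ?_) (fun t ht ht' y hy hyR => ?_) hBT (fun z hz hzR => ?_)
  · obtain ⟨y1, y2, y3, y4⟩ := hA hy
    exact nx_right hab hcd y1 y2 y3 y4
  · obtain ⟨r1, r2, r3, r4, r5⟩ := vc_rect hyR
    have := hT t ht ht'
    obtain ⟨c1, c2, c3⟩ := hy
    exact nx_left hab hcd (by omega) r3 r4 r5
  · obtain ⟨r1, r2, r3, r4, r5⟩ := vc_rect hzR
    exact nx_left hab hcd (by have := hB z hz; omega) r3 r4 r5

/-- `T` starts on the left side of the rectangle and leaves it on the right side. -/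
theorem turn_VR (hQ : 0 < Q) (hQ1 : Q ≤ 1) (hab : a < b) (hcd : c < d)
    (hT : ∀ t ∈ T, t ∉ Rsq a b c d → b ≤ t.1) (hAT : A ⊆ Bd e T) (hBT : B ⊆ Bd e T)
    (hA : A ⊆ Vs e a c d) (hB : ∀ z ∈ B, b ≤ z.1) :
    VT Q e T A B * VT Q e (Rsq a b c d) (Hs e c a b) (Hs e d a b) ≤
        VT Q e (Rsq a b c d ∪ T) (Hs e c a b) B ∧
      VT Q e T A B * VT Q e (Rsq a b c d) (Hs e c a b) (Hs e d a b) ≤
        VT Q e (Rsq a b c d ∪ T) (Hs e d a b) B := by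
  refine turn hQ hQ1 (quad_V e hab.le hcd.le) (fan_rect _ _ _ _ _)
    (bd_bot fun t ht => (mem_Rsq.1 ht).2.2.1) (bd_top fun t ht => (mem_Rsq.1 ht).2.2.2) hAT
    (fun y hy => ?_) (fun t ht ht' y hy hyR => ?_) hBT (fun z hz hzR => ?_)
  · obtain ⟨y1, y2, y3, y4⟩ := hA hy
    exact nx_left hab hcd y1 y2 y3 y4
  · obtain ⟨r1, r2, r3, r4, r5⟩ := vc_rect hyR
    have := hT t ht ht'
    obtain ⟨c1, c2, c3⟩ := hy
    exact nx_right hab hcd (by omega) r3 r4 r5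
  · obtain ⟨r1, r2, r3, r4, r5⟩ := vc_rect hzR
    exact nx_right hab hcd (by have := hB z hz; omega) r3 r4 r5

/-- `T` starts on the top side of the rectangle and leaves it on the bottom side. -/
theorem turn_HB (hQ : 0 < Q) (hQ1 : Q ≤ 1) (hab : a < b) (hcd : c < d)
    (hT : ∀ t ∈ T, t ∉ Rsq a b c d → t.2 < c) (hAT : A ⊆ Bd e T) (hBT : B ⊆ Bd e T)
    (hA : A ⊆ Hs e d a b) (hB : ∀ z ∈ B, z.2 ≤ c) :
    VT Q e T A B * VT Q e (Rsq a b c d) (Vs e a c d) (Vs e b c d) ≤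
        VT Q e (Rsq a b c d ∪ T) (Vs e a c d) B ∧
      VT Q e T A B * VT Q e (Rsq a b c d) (Vs e a c d) (Vs e b c d) ≤
        VT Q e (Rsq a b c d ∪ T) (Vs e b c d) B := by
  refine turn hQ hQ1 (quad_H e hab.le hcd.le).swap24 (fan_rect _ _ _ _ _)
    (bd_left fun t ht => (mem_Rsq.1 ht).1) (bd_right fun t ht => (mem_Rsq.1 ht).2.1) hAT
    (fun y hy => ?_) (fun t ht ht' y hy hyR => ?_) hBT (fun z hz hzR => ?_)
  · obtain ⟨y1, y2, y3, y4⟩ := hA hy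
    exact nx_top hab hcd y1 y2 y3 y4
  · obtain ⟨r1, r2, r3, r4, r5⟩ := vc_rect hyR
    have := hT t ht ht'
    obtain ⟨c1, c2, c3⟩ := hy
    exact nx_bot hab hcd (by omega) r1 r2 r5
  · obtain ⟨r1, r2, r3, r4, r5⟩ := vc_rect hzR
    exact nx_bot hab hcd (by have := hB z hz; omega) r1 r2 r5

/-- `T` starts on the bottom side of the rectangle and leaves it on the top side. -/
theorem turn_HT (hQ : 0 < Q) (hQ1 : Q ≤ 1) (hab : a < b) (hcd : c < d)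
    (hT : ∀ t ∈ T, t ∉ Rsq a b c d → d ≤ t.2) (hAT : A ⊆ Bd e T) (hBT : B ⊆ Bd e T)
    (hA : A ⊆ Hs e c a b) (hB : ∀ z ∈ B, d ≤ z.2) :
    VT Q e T A B * VT Q e (Rsq a b c d) (Vs e a c d) (Vs e b c d) ≤
        VT Q e (Rsq a b c d ∪ T) (Vs e a c d) B ∧
      VT Q e T A B * VT Q e (Rsq a b c d) (Vs e a c d) (Vs e b c d) ≤
        VT Q e (Rsq a b c d ∪ T) (Vs e b c d) B := by
  refine turn hQ hQ1 (quad_H e hab.le hcd.le) (fan_rect _ _ _ _ _)
    (bd_left fun t ht => (mem_Rsq.1 ht).1) (bd_right fun t ht => (mem_Rsq.1 ht).2.1) hAT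
    (fun y hy => ?_) (fun t ht ht' y hy hyR => ?_) hBT (fun z hz hzR => ?_)
  · obtain ⟨y1, y2, y3, y4⟩ := hA hy
    exact nx_bot hab hcd y1 y2 y3 y4
  · obtain ⟨r1, r2, r3, r4, r5⟩ := vc_rect hyR
    have := hT t ht ht'
    obtain ⟨c1, c2, c3⟩ := hy
    exact nx_top hab hcd (by omega) r1 r2 r5
  · obtain ⟨r1, r2, r3, r4, r5⟩ := vc_rect hzR
    exact nx_top hab hcd (by have := hB z hz; omega) r1 r2 r5

end Vale.Agent.P167.N.NET
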