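import Vale.Agent.P167.N.NET.Tube
import Vale.Agent.P167.H816.Vr

/-!
# P167, nets for `q < 1`: crossings of rectangles, the worst configuration outside

`VRS`: all rectangles of bounded aspect ratio, both colours, both directions; `vrs_of : VR → VRS`.
`tube_*`: tubes with two or three legs.
-/

set_option autoImplicit false
set_option linter.unusedSectionVars false

namespace Vale.Agent.P167.N.NET

open Finset Vale.Agent.P167 Vale.Agent.P167.FK Vale.Agent.P167.H816 Vale.Agent.P167.H262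
  Vale.Agent.P167.H632 Vale.Agent.P167.H871 Vale.Agent.P167.H192.TA
open Vale.Agent.P145.FB (PStep PConn)
open Relation (ReflTransGen)

variable {Q : ℝ} {D T : Finset Pt} {η : Cfg} {e : Bool} {a b c d : ℤ} {A B : Set Pt}

/-- The end points of a path are corners. -/
theorem pw_ends {F : Set Pt} {u v : Pt} (hu : (u.1 + u.2) % 2 = pr e) (h : Pw F u v) :
    u = v ∨ (u ∈ Vc e F ∧ v ∈ Vc e F) := by
  have hv : (v.1 + v.2) % 2 = pr e := by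
    have := Pw.parity h
    omega
  rcases ReflTransGen.cases_head h with h1 | ⟨w, h1, -⟩
  · exact Or.inl h1
  rcases ReflTransGen.cases_tail h with h2 | ⟨w', -, h2⟩
  · exact Or.inl h2.symm
  refine Or.inr ⟨?_, ?_⟩
  · exact ⟨_, h1.2.2, (cor_of_step h1 hu).1⟩
  · have hw' : (w'.1 + w'.2) % 2 = pr e := by
      obtain ⟨k1, k2, -⟩ := h2
      omega
    exact ⟨_, h2.2.2, (cor_of_step h2 hw').2.1⟩

theorem Bd_true (T : Finset Pt) : Bd true T = Pb T := by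
  ext x
  constructor
  · rintro ⟨v, hv, h⟩
    exact ⟨v, hv, cor_iff.1 h⟩
  · rintro ⟨v, hv, h⟩
    exact ⟨v, hv, cor_iff.2 h⟩

theorem Bd_false (T : Finset Pt) : Bd false T = Db T := by
  ext x
  constructor
  · rintro ⟨v, hv, h⟩
    exact ⟨v, hv, cor_iff.1 h⟩
  · rintro ⟨v, hv, h⟩
    exact ⟨v, hv, cor_iff.2 h⟩

theorem VT_true (Q : ℝ) (A B : Set Pt) :
    VT Q true T A B = mm pa pb (fun _ => Q) (Q ^ 2) T (Pb T) A B := by
  rw [VT, VG, mm, Bd_true]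
  rfl

theorem VT_false (Q : ℝ) (A B : Set Pt) :
    VT Q false T A B = mm da db (fun _ => Q) (Q ^ 2) T (Db T) A B := by
  rw [VT, VG, mm, Bd_false]
  rfl

/-- Only the corners of the squares of `T` matter. -/
theorem VT_mono' (hQ : 0 < Q) {A' B' : Set Pt} (hp : ∀ u ∈ A, (u.1 + u.2) % 2 = pr e)
    (hd : ∀ u ∈ A, u ∉ B) (hA : ∀ u ∈ A, u ∈ Vc e ↑T → u ∈ A') (hB : ∀ u ∈ B, u ∈ Vc e ↑T → u ∈ B') :
    VT Q e T A B ≤ VT Q e T A' B' := by
  refine GP_mono _ _ _ (fun _ => hQ.le) (pow_pos hQ 2) fun S hS h h' => h ?_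
  intro u hu v hv k
  rw [← con_cc (η := eta0) hS (hp u hu)] at k
  rcases pw_ends (hp u hu) k with h1 | ⟨⟨s, hs, h1⟩, s', hs', h2⟩
  · exact hd u hu (h1 ▸ hv)
  · exact h' u (hA u hu ⟨s, hs.2, h1⟩) v (hB v hv ⟨s', hs'.2, h2⟩)
      ((con_cc (η := eta0) hS (hp u hu)).1 k)

theorem cH_le (hQ : 0 < Q) (hab : a < b) :
    cH Q a b c d ≤ VT Q true (Rsq a b c d) (Vs true a c d) (Vs true b c d) := by
  rw [cH, rect_mm hQ (fun s hs => hs.1), ← VT_true]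
  refine VT_mono' hQ (fun u hu => ?_) (fun u hu hu' => ?_) (fun u hu hu' => ?_) (fun u hu hu' => ?_)
  · have := hu.1
    rw [Int.even_iff] at this
    exact this
  · have h1 := hu.2
    have h2 := hu'.2
    omega
  · obtain ⟨r1, r2, r3, r4, r5⟩ := vc_rect hu'
    have h1 := hu.2
    exact ⟨by omega, r3, r4, r5⟩
  · obtain ⟨r1, r2, r3, r4, r5⟩ := vc_rect hu'
    have h1 := hu.2
    exact ⟨by omega, r3, r4, r5⟩

theorem cV_le (hQ : 0 < Q) (hcd : c < d) :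
    cV Q a b c d ≤ VT Q true (Rsq a b c d) (Hs true c a b) (Hs true d a b) := by
  rw [cV, rect_mm hQ (fun s hs => hs.1), ← VT_true]
  refine VT_mono' hQ (fun u hu => ?_) (fun u hu hu' => ?_) (fun u hu hu' => ?_) (fun u hu hu' => ?_)
  · have := hu.1
    rw [Int.even_iff] at this
    exact this
  · have h1 := hu.2
    have h2 := hu'.2
    omega
  · obtain ⟨r1, r2, r3, r4, r5⟩ := vc_rect hu'
    have h1 := hu.2
    exact ⟨by omega, r1, r2, r5⟩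
  · obtain ⟨r1, r2, r3, r4, r5⟩ := vc_rect hu'
    have h1 := hu.2
    exact ⟨by omega, r1, r2, r5⟩

theorem dH_le (hQ : 0 < Q) (hab : a < b) :
    dH Q a b c d ≤ VT Q false (Rsq a b c d) (Vs false a c d) (Vs false b c d) := by
  rw [dH, rect_mm_dual hQ (fun s hs => hs.1), ← VT_false]
  refine VT_mono' hQ (fun u hu => ?_) (fun u hu hu' => ?_) (fun u hu hu' => ?_) (fun u hu hu' => ?_)
  · have := hu.1
    rw [Int.odd_iff] at this
    exact this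
  · have h1 := hu.2
    have h2 := hu'.2
    omega
  · obtain ⟨r1, r2, r3, r4, r5⟩ := vc_rect hu'
    have h1 := hu.2
    exact ⟨by omega, r3, r4, r5⟩
  · obtain ⟨r1, r2, r3, r4, r5⟩ := vc_rect hu'
    have h1 := hu.2
    exact ⟨by omega, r3, r4, r5⟩

theorem dV_le (hQ : 0 < Q) (hcd : c < d) :
    dV Q a b c d ≤ VT Q false (Rsq a b c d) (Hs false c a b) (Hs false d a b) := by
  rw [dV, rect_mm_dual hQ (fun s hs => hs.1), ← VT_false]
  refine VT_mono' hQ (fun u hu => ?_) (fun u hu hu' => ?_) (fun u hu hu' => ?_) (fun u hu hu' => ?_)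
  · have := hu.1
    rw [Int.odd_iff] at this
    exact this
  · have h1 := hu.2
    have h2 := hu'.2
    omega
  · obtain ⟨r1, r2, r3, r4, r5⟩ := vc_rect hu'
    have h1 := hu.2
    exact ⟨by omega, r1, r2, r5⟩
  · obtain ⟨r1, r2, r3, r4, r5⟩ := vc_rect hu'
    have h1 := hu.2
    exact ⟨by omega, r1, r2, r5⟩

/-! ### Rectangles -/

/-- Lower bounds for the crossings of all rectangles, both colours, the boundary sites being
identified. -/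
def VRS (Q : ℝ) : Prop := ∀ M : ℕ, ∃ κ : ℝ, 0 < κ ∧ κ ≤ 1 ∧
  ∀ (e : Bool) (a b c d : ℤ), a < b → c < d →
    (b - a ≤ M * (d - c) → κ ≤ VT Q e (Rsq a b c d) (Vs e a c d) (Vs e b c d)) ∧
    (d - c ≤ M * (b - a) → κ ≤ VT Q e (Rsq a b c d) (Hs e c a b) (Hs e d a b))

theorem vrs_of (hQ : 0 < Q) (hQ1 : Q ≤ 1) (h : VR Q) : VRS Q := by
  intro M
  obtain ⟨κ, hκ, hκ1, h1, h2⟩ := h.ge hQ hQ1 M
  refine ⟨κ, hκ, hκ1, fun e a b c d hab hcd => ⟨fun hM => ?_, fun hM => ?_⟩⟩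
  · obtain ⟨k1, k2⟩ := h1 a b c d hcd hM
    cases e
    · exact k2.trans (dH_le hQ hab)
    · exact k1.trans (cH_le hQ hab)
  · obtain ⟨k1, k2⟩ := h2 a b c d hab hM
    cases e
    · exact k2.trans (dV_le hQ hcd)
    · exact k1.trans (cV_le hQ hcd)

/-! ### Corridors -/

variable {a' b' c₁ c₂ h d₂ : ℤ}

/-- A leg and a bar: from the bottom of the leg (on the left) to the right end of the bar. -/
theorem ell_R (hQ : 0 < Q) (hQ1 : Q ≤ 1) (e : Bool) (ha : a < a') (hb : a' ≤ b) (hc : c₁ ≤ h)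
    (hh : h < d) :
    VT Q e (Rsq a b h d) (Vs e a h d) (Vs e b h d) *
        VT Q e (Rsq a a' c₁ d) (Hs e c₁ a a') (Hs e d a a') ≤
      VT Q e (Rsq a a' c₁ d ∪ Rsq a b h d) (Hs e c₁ a a') (Vs e b h d) := by
  refine (turn_VR hQ hQ1 ha (hc.trans_lt hh) (fun t ht ht' => ?_)
    (bd_left fun t ht => (mem_Rsq.1 ht).1) (bd_right fun t ht => (mem_Rsq.1 ht).2.1)
    (fun y hy => ⟨hy.1, hc.trans hy.2.1, hy.2.2⟩) (fun z hz => ?_)).1
  · rw [mem_Rsq] at *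
    omega
  · have := hz.1
    omega

/-- A leg and a bar: from the bottom of the leg (on the right) to the left end of the bar. -/
theorem ell_L (hQ : 0 < Q) (hQ1 : Q ≤ 1) (e : Bool) (ha : a ≤ b') (hb : b' < b) (hc : c₂ ≤ h)
    (hh : h < d) :
    VT Q e (Rsq a b h d) (Vs e b h d) (Vs e a h d) *
        VT Q e (Rsq b' b c₂ d) (Hs e c₂ b' b) (Hs e d b' b) ≤
      VT Q e (Rsq b' b c₂ d ∪ Rsq a b h d) (Hs e c₂ b' b) (Vs e a h d) := by
  refine (turn_VL hQ hQ1 hb (hc.trans_lt hh) (fun t ht ht' => ?_)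
    (bd_right fun t ht => (mem_Rsq.1 ht).2.1) (bd_left fun t ht => (mem_Rsq.1 ht).1)
    (fun y hy => ⟨hy.1, hc.trans hy.2.1, hy.2.2⟩) (fun z hz => ?_)).1
  · rw [mem_Rsq] at *
    omega
  · have := hz.1
    omega

/-- Two legs and a bar. -/
noncomputable def arch (a a' b' b c₁ c₂ h d : ℤ) : Finset Pt := Rsq a a' c₁ d ∪ (Rsq a b h d ∪ Rsq b' b c₂ d)

/-- A leg on the left (downwards), a bar, a leg on the right (upwards). -/
noncomputable def zedR (a a' b' b c₁ h d d₂ : ℤ) : Finset Pt := Rsq a a' c₁ d ∪ (Rsq a b h d ∪ Rsq b' b h d₂)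

/-- A leg on the right (downwards), a bar, a leg on the left (upwards). -/
noncomputable def zedL (a a' b' b c₂ h d d₂ : ℤ) : Finset Pt := Rsq b' b c₂ d ∪ (Rsq a b h d ∪ Rsq a a' h d₂)

theorem mem_arch {v : Pt} : v ∈ arch a a' b' b c₁ c₂ h d ↔
    (a ≤ v.1 ∧ v.1 < a' ∧ c₁ ≤ v.2 ∧ v.2 < d) ∨ (a ≤ v.1 ∧ v.1 < b ∧ h ≤ v.2 ∧ v.2 < d) ∨
      (b' ≤ v.1 ∧ v.1 < b ∧ c₂ ≤ v.2 ∧ v.2 < d) := by
  simp only [arch, mem_union, mem_Rsq]

theorem mem_zedR {v : Pt} : v ∈ zedR a a' b' b c₁ h d d₂ ↔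
    (a ≤ v.1 ∧ v.1 < a' ∧ c₁ ≤ v.2 ∧ v.2 < d) ∨ (a ≤ v.1 ∧ v.1 < b ∧ h ≤ v.2 ∧ v.2 < d) ∨
      (b' ≤ v.1 ∧ v.1 < b ∧ h ≤ v.2 ∧ v.2 < d₂) := by
  simp only [zedR, mem_union, mem_Rsq]

theorem mem_zedL {v : Pt} : v ∈ zedL a a' b' b c₂ h d d₂ ↔
    (b' ≤ v.1 ∧ v.1 < b ∧ c₂ ≤ v.2 ∧ v.2 < d) ∨ (a ≤ v.1 ∧ v.1 < b ∧ h ≤ v.2 ∧ v.2 < d) ∨
      (a ≤ v.1 ∧ v.1 < a' ∧ h ≤ v.2 ∧ v.2 < d₂) := by
  simp only [zedL, mem_union, mem_Rsq]

/-- **Corridors with two legs**: the constant depends on the aspect ratios only. -/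
theorem VT_arch (hQ : 0 < Q) (hQ1 : Q ≤ 1) (hV : VRS Q) (M : ℕ) : ∃ κ : ℝ, 0 < κ ∧ κ ≤ 1 ∧
    ∀ (e : Bool) (a a' b' b c₁ c₂ h d : ℤ), a < a' → a' ≤ b' → b' < b → c₁ ≤ h → c₂ ≤ h → h < d →
      d - c₁ ≤ M * (a' - a) → d - c₂ ≤ M * (b - b') → b - a ≤ M * (d - h) →
      κ ≤ VT Q e (arch a a' b' b c₁ c₂ h d) (Hs e c₁ a a') (Hs e c₂ b' b) ∧
        κ ≤ VT Q e (arch a a' b' b c₁ c₂ h d) (Hs e c₂ b' b) (Hs e c₁ a a') := by
  obtain ⟨κ, hκ, hκ1, hV⟩ := hV M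
  refine ⟨κ ^ 3, pow_pos hκ 3, pow_le_one₀ hκ.le hκ1, fun e a a' b' b c₁ c₂ h d h1 h2 h3 h4 h5 h6 m1
    m2 m3 => ?_⟩
  have k1 := (hV e a a' c₁ d h1 (by omega)).2 m1
  have k2 := (hV e b' b c₂ d h3 (by omega)).2 m2
  have k3 := (hV e a b h d (by omega) h6).1 m3
  have t1 := (turn_HB (e := e) (T := Rsq b' b c₂ d) (A := Hs e d b' b) (B := Hs e c₂ b' b) hQ hQ1
    (show a < b by omega) h6 (fun t ht ht' => by rw [mem_Rsq] at *; omega)
    (bd_top fun t ht => (mem_Rsq.1 ht).2.2.2) (bd_bot fun t ht => (mem_Rsq.1 ht).2.2.1)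
    (fun y hy => ⟨hy.1, by have := hy.2.1; omega, hy.2.2⟩) (fun z hz => by have := hz.1; omega)).1
  have t2 := (turn_VR (e := e) (T := Rsq a b h d ∪ Rsq b' b c₂ d) (A := Vs e a h d)
    (B := Hs e c₂ b' b) hQ hQ1 h1 (show c₁ < d by omega)
    (fun t ht ht' => by rw [mem_union, mem_Rsq, mem_Rsq] at ht; rw [mem_Rsq] at ht'; omega)
    (bd_left fun t ht => by rw [mem_union, mem_Rsq, mem_Rsq] at ht; omega)
    (fun x hx => ?_)
    (fun y hy => ⟨hy.1, by have := hy.2.1; omega, hy.2.2⟩)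
    (fun z hz => by have := hz.2.1; omega)).1
  · rw [VT_comm hQ e (Rsq b' b c₂ d)] at t1
    have e1 : κ ^ 3 = κ * κ * κ := by ring
    have n1 := VT_nonneg hQ e (Rsq b' b c₂ d) (Hs e c₂ b' b) (Hs e d b' b)
    have e2 : κ ^ 3 ≤ VT Q e (arch a a' b' b c₁ c₂ h d) (Hs e c₁ a a') (Hs e c₂ b' b) := by
      rw [e1]
      refine le_trans ?_ t2
      refine mul_le_mul ?_ k1 hκ.le (VT_nonneg hQ _ _ _ _)
      refine le_trans ?_ t1
      exact mul_le_mul k2 k3 hκ.le n1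
    exact ⟨e2, by rwa [VT_comm hQ]⟩
  · obtain ⟨x1, x2, x3, x4⟩ := hx
    refine bd_of (v := (x.1, c₂ - 1)) (fun hv => ?_) (by unfold Cor; dsimp only; omega)
    rw [mem_union, mem_Rsq, mem_Rsq] at hv
    dsimp only at hv
    omega

/-- **Corridors with a leg down on the left and a leg up on the right.** -/
theorem VT_zedR (hQ : 0 < Q) (hQ1 : Q ≤ 1) (hV : VRS Q) (M : ℕ) : ∃ κ : ℝ, 0 < κ ∧ κ ≤ 1 ∧
    ∀ (e : Bool) (a a' b' b c₁ h d d₂ : ℤ), a < a' → a' ≤ b' → b' < b → c₁ ≤ h → h < d → d ≤ d₂ →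
      d - c₁ ≤ M * (a' - a) → d₂ - h ≤ M * (b - b') → b - a ≤ M * (d - h) →
      κ ≤ VT Q e (zedR a a' b' b c₁ h d d₂) (Hs e c₁ a a') (Hs e d₂ b' b) ∧
        κ ≤ VT Q e (zedR a a' b' b c₁ h d d₂) (Hs e d₂ b' b) (Hs e c₁ a a') := by
  obtain ⟨κ, hκ, hκ1, hV⟩ := hV M
  refine ⟨κ ^ 3, pow_pos hκ 3, pow_le_one₀ hκ.le hκ1, fun e a a' b' b c₁ h d d₂ h1 h2 h3 h4 h5 h6 m1
    m2 m3 => ?_⟩
  have k1 := (hV e a a' c₁ d h1 (by omega)).2 m1
  have k2 := (hV e b' b h d₂ h3 (by omega)).2 m2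
  have k3 := (hV e a b h d (by omega) h5).1 m3
  have t1 := (turn_HT (e := e) (T := Rsq b' b h d₂) (A := Hs e h b' b) (B := Hs e d₂ b' b) hQ hQ1
    (show a < b by omega) h5 (fun t ht ht' => by rw [mem_Rsq] at *; omega)
    (bd_bot fun t ht => (mem_Rsq.1 ht).2.2.1) (bd_top fun t ht => (mem_Rsq.1 ht).2.2.2)
    (fun y hy => ⟨hy.1, by have := hy.2.1; omega, hy.2.2⟩) (fun z hz => by have := hz.1; omega)).1
  have t2 := (turn_VR (e := e) (T := Rsq a b h d ∪ Rsq b' b h d₂) (A := Vs e a h d)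
    (B := Hs e d₂ b' b) hQ hQ1 h1 (show c₁ < d by omega)
    (fun t ht ht' => by rw [mem_union, mem_Rsq, mem_Rsq] at ht; rw [mem_Rsq] at ht'; omega)
    (bd_left fun t ht => by rw [mem_union, mem_Rsq, mem_Rsq] at ht; omega)
    (fun x hx => ?_)
    (fun y hy => ⟨hy.1, by have := hy.2.1; omega, hy.2.2⟩)
    (fun z hz => by have := hz.2.1; omega)).1
  · have e1 : κ ^ 3 = κ * κ * κ := by ring
    have n1 := VT_nonneg hQ e (Rsq b' b h d₂) (Hs e h b' b) (Hs e d₂ b' b)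
    have e2 : κ ^ 3 ≤ VT Q e (zedR a a' b' b c₁ h d d₂) (Hs e c₁ a a') (Hs e d₂ b' b) := by
      rw [e1]
      refine le_trans ?_ t2
      refine mul_le_mul ?_ k1 hκ.le (VT_nonneg hQ _ _ _ _)
      refine le_trans ?_ t1
      exact mul_le_mul k2 k3 hκ.le n1
    exact ⟨e2, by rwa [VT_comm hQ]⟩
  · obtain ⟨x1, x2, x3, x4⟩ := hx
    refine bd_of (v := (x.1, d₂)) (fun hv => ?_) (by unfold Cor; dsimp only; omega)
    rw [mem_union, mem_Rsq, mem_Rsq] at hv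
    dsimp only at hv
    omega

/-- **Corridors with a leg down on the right and a leg up on the left.** -/
theorem VT_zedL (hQ : 0 < Q) (hQ1 : Q ≤ 1) (hV : VRS Q) (M : ℕ) : ∃ κ : ℝ, 0 < κ ∧ κ ≤ 1 ∧
    ∀ (e : Bool) (a a' b' b c₂ h d d₂ : ℤ), a < a' → a' ≤ b' → b' < b → c₂ ≤ h → h < d → d ≤ d₂ →
      d - c₂ ≤ M * (b - b') → d₂ - h ≤ M * (a' - a) → b - a ≤ M * (d - h) →
      κ ≤ VT Q e (zedL a a' b' b c₂ h d d₂) (Hs e c₂ b' b) (Hs e d₂ a a') ∧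
        κ ≤ VT Q e (zedL a a' b' b c₂ h d d₂) (Hs e d₂ a a') (Hs e c₂ b' b) := by
  obtain ⟨κ, hκ, hκ1, hV⟩ := hV M
  refine ⟨κ ^ 3, pow_pos hκ 3, pow_le_one₀ hκ.le hκ1, fun e a a' b' b c₂ h d d₂ h1 h2 h3 h4 h5 h6 m1
    m2 m3 => ?_⟩
  have k1 := (hV e b' b c₂ d h3 (by omega)).2 m1
  have k2 := (hV e a a' h d₂ h1 (by omega)).2 m2
  have k3 := (hV e a b h d (by omega) h5).1 m3
  have t1 := (turn_HT (e := e) (T := Rsq a a' h d₂) (A := Hs e h a a') (B := Hs e d₂ a a') hQ hQ1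
    (show a < b by omega) h5 (fun t ht ht' => by rw [mem_Rsq] at *; omega)
    (bd_bot fun t ht => (mem_Rsq.1 ht).2.2.1) (bd_top fun t ht => (mem_Rsq.1 ht).2.2.2)
    (fun y hy => ⟨hy.1, hy.2.1, by have := hy.2.2.1; omega, hy.2.2.2⟩)
    (fun z hz => by have := hz.1; omega)).2
  have t2 := (turn_VL (e := e) (T := Rsq a b h d ∪ Rsq a a' h d₂) (A := Vs e b h d)
    (B := Hs e d₂ a a') hQ hQ1 h3 (show c₂ < d by omega)
    (fun t ht ht' => by rw [mem_union, mem_Rsq, mem_Rsq] at ht; rw [mem_Rsq] at ht'; omega)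
    (bd_right fun t ht => by rw [mem_union, mem_Rsq, mem_Rsq] at ht; omega)
    (fun x hx => ?_)
    (fun y hy => ⟨hy.1, by have := hy.2.1; omega, hy.2.2⟩)
    (fun z hz => by have := hz.2.2.1; omega)).1
  · have e1 : κ ^ 3 = κ * κ * κ := by ring
    have n1 := VT_nonneg hQ e (Rsq a a' h d₂) (Hs e h a a') (Hs e d₂ a a')
    have e2 : κ ^ 3 ≤ VT Q e (zedL a a' b' b c₂ h d d₂) (Hs e c₂ b' b) (Hs e d₂ a a') := by
      rw [e1]
      refine le_trans ?_ t2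
      refine mul_le_mul ?_ k1 hκ.le (VT_nonneg hQ _ _ _ _)
      refine le_trans ?_ t1
      exact mul_le_mul k2 k3 hκ.le n1
    exact ⟨e2, by rwa [VT_comm hQ]⟩
  · obtain ⟨x1, x2, x3, x4⟩ := hx
    refine bd_of (v := (x.1, d₂)) (fun hv => ?_) (by unfold Cor; dsimp only; omega)
    rw [mem_union, mem_Rsq, mem_Rsq] at hv
    dsimp only at hv
    omega

/-- **Corridors with one leg.** -/
theorem VT_ell (hQ : 0 < Q) (hQ1 : Q ≤ 1) (hV : VRS Q) (M : ℕ) : ∃ κ : ℝ, 0 < κ ∧ κ ≤ 1 ∧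
    (∀ (e : Bool) (a a' b c₁ h d : ℤ), a < a' → a' ≤ b → c₁ ≤ h → h < d →
      d - c₁ ≤ M * (a' - a) → b - a ≤ M * (d - h) →
      κ ≤ VT Q e (Rsq a a' c₁ d ∪ Rsq a b h d) (Hs e c₁ a a') (Vs e b h d)) ∧
    (∀ (e : Bool) (a b' b c₂ h d : ℤ), a ≤ b' → b' < b → c₂ ≤ h → h < d →
      d - c₂ ≤ M * (b - b') → b - a ≤ M * (d - h) →
      κ ≤ VT Q e (Rsq b' b c₂ d ∪ Rsq a b h d) (Hs e c₂ b' b) (Vs e a h d)) ∧
    (∀ (e : Bool) (a a' b h d d₂ : ℤ), a < a' → a' ≤ b → h < d → d ≤ d₂ →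
      d₂ - h ≤ M * (a' - a) → b - a ≤ M * (d - h) →
      κ ≤ VT Q e (Rsq a a' h d₂ ∪ Rsq a b h d) (Hs e d₂ a a') (Vs e b h d)) ∧
    (∀ (e : Bool) (a b' b h d d₂ : ℤ), a ≤ b' → b' < b → h < d → d ≤ d₂ →
      d₂ - h ≤ M * (b - b') → b - a ≤ M * (d - h) →
      κ ≤ VT Q e (Rsq b' b h d₂ ∪ Rsq a b h d) (Hs e d₂ b' b) (Vs e a h d)) := by
  obtain ⟨κ, hκ, hκ1, hV⟩ := hV M
  refine ⟨κ ^ 2, pow_pos hκ 2, pow_le_one₀ hκ.le hκ1, fun e a a' b c₁ h d h1 h2 h3 h4 m1 m2 => ?_,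
    fun e a b' b c₂ h d h1 h2 h3 h4 m1 m2 => ?_, fun e a a' b h d d₂ h1 h2 h3 h4 m1 m2 => ?_,
    fun e a b' b h d d₂ h1 h2 h3 h4 m1 m2 => ?_⟩
  · have k1 := (hV e a a' c₁ d h1 (by omega)).2 m1
    have k2 := (hV e a b h d (by omega) h4).1 m2
    refine le_trans ?_ (ell_R hQ hQ1 e h1 h2 h3 h4)
    rw [sq]
    exact mul_le_mul k2 k1 hκ.le (VT_nonneg hQ _ _ _ _)
  · have k1 := (hV e b' b c₂ d h2 (by omega)).2 m1
    have k2 := (hV e a b h d (by omega) h4).1 m2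
    refine le_trans ?_ (ell_L hQ hQ1 e h1 h2 h3 h4)
    rw [sq, VT_comm hQ e (Rsq a b h d)]
    exact mul_le_mul k2 k1 hκ.le (VT_nonneg hQ _ _ _ _)
  · have k1 := (hV e a a' h d₂ h1 (by omega)).2 m1
    have k2 := (hV e a b h d (by omega) h3).1 m2
    refine le_trans ?_ (turn_VR (e := e) (T := Rsq a b h d) (A := Vs e a h d) (B := Vs e b h d) hQ hQ1
      h1 (show h < d₂ by omega) (fun t ht ht' => by rw [mem_Rsq] at *; omega)
      (bd_left fun t ht => (mem_Rsq.1 ht).1) (bd_right fun t ht => (mem_Rsq.1 ht).2.1)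
      (fun y hy => ⟨hy.1, hy.2.1, by have := hy.2.2.1; omega, hy.2.2.2⟩)
      (fun z hz => by have := hz.1; omega)).2
    rw [sq]
    exact mul_le_mul k2 k1 hκ.le (VT_nonneg hQ _ _ _ _)
  · have k1 := (hV e b' b h d₂ h2 (by omega)).2 m1
    have k2 := (hV e a b h d (by omega) h3).1 m2
    refine le_trans ?_ (turn_VL (e := e) (T := Rsq a b h d) (A := Vs e b h d) (B := Vs e a h d) hQ hQ1
      h2 (show h < d₂ by omega) (fun t ht ht' => by rw [mem_Rsq] at *; omega)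
      (bd_right fun t ht => (mem_Rsq.1 ht).2.1) (bd_left fun t ht => (mem_Rsq.1 ht).1)
      (fun y hy => ⟨hy.1, hy.2.1, by have := hy.2.2.1; omega, hy.2.2.2⟩)
      (fun z hz => by have := hz.1; omega)).2
    rw [sq, VT_comm hQ e (Rsq a b h d)]
    exact mul_le_mul k2 k1 hκ.le (VT_nonneg hQ _ _ _ _)

end Vale.Agent.P167.N.NET
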