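import Vale.Agent.P167.N.NET.Piv
import Vale.Agent.P167.H531.Med2
import Vale.Agent.P167.H531.Map

/-!
# P167, nets for `q < 1`: the duality for lattice polygons

`quad_poly`: a lattice polygon with four arcs satisfies `Quad`, `fan_poly`: `Fan` for the squares
enclosed by a polygon.
-/

set_option autoImplicit false

namespace Vale.Agent.P167.N.NET

open Vale.Agent.P145.FB Vale.Agent.P167 Vale.Agent.P167.H871 Vale.Agent.P167.H632
  Vale.Agent.P167.H192.TA Vale.Agent.P167.H531
open Vale.Agent.P167.E6 (IsPolygon Encloses dir face)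
open Relation (ReflTransGen)

variable {n : ℕ} {q : ZMod n → ℤ × ℤ} {D : Finset (ℤ × ℤ)} {e : Bool}

theorem stM_iff {c : ℤ} {F : Set Pt} {x y : Pt} (hx : (x.1 + x.2) % 2 = c) :
    (∃ i ∈ F, StM c i x y) ↔ PStep F x y := by
  constructor
  · rintro ⟨i, hi, h1, h2, h3, -⟩
    exact ⟨h2, h3, h1 ▸ hi⟩
  · rintro ⟨h2, h3, h4⟩
    exact ⟨_, h4, rfl, h2, h3, hx⟩

theorem cn_iff {F : Set Pt} {x y : Pt} (hx : (x.1 + x.2) % 2 = pr e) :
    Cn (StM (pr e)) F x y ↔ Pw F x y := by
  constructor
  · intro h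
    induction h with
    | refl => exact ReflTransGen.refl
    | @tail y z _ hyz ih =>
      have hy : (y.1 + y.2) % 2 = pr e := by rw [← hx]; exact (Pw.parity ih).symm
      exact ih.tail ((stM_iff hy).1 hyz)
  · intro h
    induction h with
    | refl => exact ReflTransGen.refl
    | @tail y z hy hyz ih =>
      have hy : (y.1 + y.2) % 2 = pr e := by rw [← hx]; exact (Pw.parity hy).symm
      exact ih.tail ((stM_iff hy).2 hyz)

/-- The sites of the colour `e` of an arc. -/
def arcQ (e : Bool) (q : ZMod n → ℤ × ℤ) (i j : ℕ) : Set Pt := arcM q (pr e) i j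

theorem arcQ_par {i j : ℕ} : ∀ u ∈ arcQ e q i j, (u.1 + u.2) % 2 = pr e := by
  rintro u ⟨k, -, -, -, h⟩
  exact h

theorem cr_iff {F : Set Pt} {i j k l : ℕ} : Cr (StM (pr e)) F (arcQ e q i j) (arcQ e q k l) ↔
    ∃ u ∈ arcQ e q i j, ∃ v ∈ arcQ e q k l, Pw F u v := by
  constructor
  · rintro ⟨u, hu, v, hv, h⟩
    exact ⟨u, hu, v, hv, (cn_iff (arcQ_par u hu)).1 h⟩
  · rintro ⟨u, hu, v, hv, h⟩
    exact ⟨u, hu, v, hv, (cn_iff (arcQ_par u hu)).2 h⟩

theorem arcQ_rot (e : Bool) (q : ZMod n → ℤ × ℤ) (c i j : ℕ) :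
    arcQ e (fun t => q (t + (c : ZMod n))) i j = arcQ e q (i + c) (j + c) := by
  ext x
  constructor
  · rintro ⟨k, h1, h2, h3, h4⟩
    exact ⟨k + c, by omega, by omega, by rw [h3]; simp, h4⟩
  · rintro ⟨k, h1, h2, h3, h4⟩
    refine ⟨k - c, by omega, by omega, ?_, h4⟩
    rw [h3]
    simp only
    congr 1
    rw [← Nat.cast_add, Nat.sub_add_cancel (by omega)]

theorem arcQ_per (e : Bool) (q : ZMod n → ℤ × ℤ) (i j : ℕ) :
    arcQ e q (i + n) (j + n) = arcQ e q i j := by
  ext x
  constructor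
  · rintro ⟨k, h1, h2, h3, h4⟩
    refine ⟨k - n, by omega, by omega, ?_, h4⟩
    rw [h3]
    congr 1
    obtain ⟨m, rfl⟩ : ∃ m, k = m + n := ⟨k - n, by omega⟩
    simp
  · rintro ⟨k, h1, h2, h3, h4⟩
    exact ⟨k + n, by omega, by omega, by rw [h3]; simp, h4⟩

/-- **A lattice polygon with four arcs.** -/
theorem quad_poly (hq : IsPolygon q) (hD : Encloses q D) (e : Bool) {i j k l : ℕ} (hij : i ≤ j)
    (hjk : j ≤ k) (hkl : k ≤ l) (hl : l ≤ i + n) :
    Quad e ↑D (arcQ e q i j) (arcQ e q k l) (arcQ (!e) q j k) (arcQ (!e) q l (i + n)) where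
  p1 := arcQ_par
  p3 := arcQ_par
  p2 := arcQ_par
  p4 := arcQ_par
  iff ω := by
    cases e
    · -- start at `j`
      have H := isQuad_med (isPolygon_rot hq (j : ZMod n)) (encloses_rot hD (j : ZMod n))
        (a := k - j) (b := l - j) (c := i + n - j) (by omega) (by omega) (by omega)
      have r1 : ∀ s t, arcM (fun i => q (i + (j : ZMod n))) 0 s t = arcQ true q (s + j) (t + j) :=
        fun s t => arcQ_rot true q j s t
      have r2 : ∀ s t, arcM (fun i => q (i + (j : ZMod n))) 1 s t = arcQ false q (s + j) (t + j) :=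
        fun s t => arcQ_rot false q j s t
      rw [r1, r1, r2, r2] at H
      rw [show 0 + j = j by omega, show k - j + j = k by omega, show l - j + j = l by omega,
        show i + n - j + j = i + n by omega, show n + j = j + n by omega, arcQ_per] at H
      have g1 := H.dich (op ω)
      have g2 := H.excl (op ω)
      have c1 : ∀ F : Set Pt, ∀ s t u v : ℕ, Cr (StM 0) F (arcQ true q s t) (arcQ true q u v) ↔
        ∃ x ∈ arcQ true q s t, ∃ y ∈ arcQ true q u v, Pw F x y := fun F s t u v => cr_iff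
      have c2 : ∀ F : Set Pt, ∀ s t u v : ℕ, Cr (StM 1) F (arcQ false q s t) (arcQ false q u v) ↔
        ∃ x ∈ arcQ false q s t, ∃ y ∈ arcQ false q u v, Pw F x y := fun F s t u v => cr_iff
      rw [c1, c2] at g1
      rw [c1, c2] at g2
      have e1 : (op ω)ᶜ = cs false ω := by rw [← cs_true, cs_compl]; rfl
      rw [e1] at g1 g2
      simp only [Bool.not_false]
      constructor
      · rintro ⟨u, hu, v, hv, h⟩ h'
        exact g2 h' ⟨v, hv, u, hu, h.symm⟩
      · intro h
        rcases g1 with g1 | ⟨u, hu, v, hv, g1⟩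
        · exact absurd g1 h
        · exact ⟨v, hv, u, hu, g1.symm⟩
    · have H := isQuad_med (isPolygon_rot hq (i : ZMod n)) (encloses_rot hD (i : ZMod n))
        (a := j - i) (b := k - i) (c := l - i) (by omega) (by omega) (by omega)
      have r1 : ∀ s t, arcM (fun m => q (m + (i : ZMod n))) 0 s t = arcQ true q (s + i) (t + i) :=
        fun s t => arcQ_rot true q i s t
      have r2 : ∀ s t, arcM (fun m => q (m + (i : ZMod n))) 1 s t = arcQ false q (s + i) (t + i) :=
        fun s t => arcQ_rot false q i s t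
      rw [r1, r1, r2, r2] at H
      rw [show 0 + i = i by omega, show k - i + i = k by omega, show l - i + i = l by omega,
        show j - i + i = j by omega, show n + i = i + n by omega] at H
      have g1 := H.dich (op ω)
      have g2 := H.excl (op ω)
      have c1 : ∀ F : Set Pt, ∀ s t u v : ℕ, Cr (StM 0) F (arcQ true q s t) (arcQ true q u v) ↔
        ∃ x ∈ arcQ true q s t, ∃ y ∈ arcQ true q u v, Pw F x y := fun F s t u v => cr_iff
      have c2 : ∀ F : Set Pt, ∀ s t u v : ℕ, Cr (StM 1) F (arcQ false q s t) (arcQ false q u v) ↔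
        ∃ x ∈ arcQ false q s t, ∃ y ∈ arcQ false q u v, Pw F x y := fun F s t u v => cr_iff
      rw [c1, c2] at g1
      rw [c1, c2] at g2
      have e1 : (op ω)ᶜ = cs false ω := by rw [← cs_true, cs_compl]; rfl
      rw [e1] at g1 g2
      simp only [Bool.not_true]
      constructor
      · intro h
        exact g2 h
      · intro h
        rcases g1 with g1 | g1
        · exact g1
        · exact absurd g1 h

/-- The squares enclosed by a polygon. -/
theorem fan_poly (hq : IsPolygon q) (hD : Encloses q D) (e : Bool) : Fan e (D : Set Pt) := by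
  have key : ∀ (x : ℤ × ℤ) (r s : Fin 4), dir r ≠ dir s → face x r ∈ D → face x (r - 1) ∉ D →
      face x s ∈ D → face x (s - 1) ∈ D := by
    intro x r s hrs h1 h2 h3
    by_contra h4
    obtain ⟨i, g1, g2⟩ := (hD x r).2 ⟨h1, h2⟩
    obtain ⟨j, g3, g4⟩ := (hD x s).2 ⟨h3, h4⟩
    have : i = j := hq.2.1 (g1.trans g3.symm)
    rw [this, g4] at g2
    exact hrs (add_left_cancel g2).symm
  have f0 : ∀ m k : ℤ, face (m + 1, k + 1) 0 = (m + 1, k + 1) := by intro m k; simp [face]
  have f1 : ∀ m k : ℤ, face (m + 1, k + 1) 1 = (m, k + 1) := by intro m k; simp [face]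
  have f2 : ∀ m k : ℤ, face (m + 1, k + 1) 2 = (m, k) := by intro m k; simp [face]
  have f3 : ∀ m k : ℤ, face (m + 1, k + 1) 3 = (m + 1, k) := by intro m k; simp [face]
  refine fan_of ?_ ?_
  · intro m k h1 h2
    rw [Finset.mem_coe] at h1 h2
    by_contra h
    push Not at h
    rw [Finset.mem_coe, Finset.mem_coe] at h
    have := key (m + 1, k + 1) 0 2 (by simp [dir]) (by rw [f0]; exact h2)
      (by rw [show (0 - 1 : Fin 4) = 3 from rfl, f3]; exact h.1) (by rw [f2]; exact h1)
    rw [show (2 - 1 : Fin 4) = 1 from rfl, f1] at this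
    exact h.2 this
  · intro m k h1 h2
    rw [Finset.mem_coe] at h1 h2
    by_contra h
    push Not at h
    rw [Finset.mem_coe, Finset.mem_coe] at h
    have := key (m + 1, k + 1) 1 3 (by simp [dir]) (by rw [f1]; exact h1)
      (by rw [show (1 - 1 : Fin 4) = 0 from rfl, f0]; exact h.2) (by rw [f3]; exact h2)
    rw [show (3 - 1 : Fin 4) = 2 from rfl, f2] at this
    exact h.1 this

end Vale.Agent.P167.N.NET
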