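import Vale.Agent.P167.N.NET.Vrs
import Vale.Agent.P167.H366.Step2

/-!
# P167, nets for `q < 1`: the lower bounds of the crossings of rectangles
-/

set_option autoImplicit false

namespace Vale.Agent.P167.N.NET

/-- Crossings of rectangles, both colours, the boundary sites being identified. -/
theorem vrs {Q : ℝ} (hQ : 0 < Q) (hQ1 : Q < 1) : VRS Q :=
  vrs_of hQ hQ1.le (Vale.Agent.P167.H366.vr hQ hQ1)

end Vale.Agent.P167.N.NET
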