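import Vale.Agent.P167.N.NET.HalfB
import Vale.Agent.P167.H192.Q.Arm2

/-!
# P167, nets for `q < 1`: half circuits given an arm

`ins_F`: given an arm of the colour `e` of the half annulus `(r, R)`, the colour `!e` crosses the
sub-annulus `(m, M)` with a probability at most `C (m/M)^α`.
-/

set_option autoImplicit false
set_option linter.unusedSectionVars false

namespace Vale.Agent.P167.N.NET

open Finset Vale.Agent.P167 Vale.Agent.P167.FK Vale.Agent.P167.FKA Vale.Agent.P167.H816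
  Vale.Agent.P167.H262 Vale.Agent.P167.H632 Vale.Agent.P167.H871 Vale.Agent.P167.H192.TA
open Vale.Agent.P167.H192.Q (Xc_restrict)
open Relation (ReflTransGen)

variable {Q : ℝ} {D T : Finset Pt} {η : Cfg} {e : Bool} {b : Pt} {r r' s s' m m' R R' x y x' y' : ℤ}
  {F : Cfg → ℝ} {A B : Set Pt}

theorem ind_Xc {T : Finset Pt} (hr : 1 ≤ r) (hR : r < R) (h : Disjoint (dF b r R) T) :
    Ind T ((Xc e b r R).indicator 1) := by
  rw [Xc_eq hr hR]
  exact ind_Jn h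

theorem ind_univ {T : Finset Pt} : Ind T ((Set.univ : Set Cfg).indicator 1) := by
  intro ω ω' _
  simp

theorem Xc_self (hr : 1 ≤ r) : Xc e b r r = Set.univ := by
  ext ω
  simp only [Set.mem_univ, iff_true]
  have hp := pr_or e
  by_cases h : (b.1 + r + b.2) % 2 = pr e
  · refine ⟨(b.1 + r, b.2), (b.1 + r, b.2), ?_, h, ?_, ReflTransGen.refl, ?_⟩
    · simp only [sr, Set.mem_ofPred_eq]; omega
    · rw [nm_le]; simp only [Prod.fst_sub, Prod.snd_sub]; omega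
    · rw [le_nm]; simp only [Prod.fst_sub, Prod.snd_sub]; omega
  · refine ⟨(b.1 + r, b.2 + 1), (b.1 + r, b.2 + 1), ?_, by dsimp only; omega, ?_,
      ReflTransGen.refl, ?_⟩
    · simp only [sr, Set.mem_ofPred_eq]; omega
    · rw [nm_le]; simp only [Prod.fst_sub, Prod.snd_sub]; omega
    · rw [le_nm]; simp only [Prod.fst_sub, Prod.snd_sub]; omega

/-- The outer piece of an arm. -/
theorem piece_o (hQ : 0 < Q) (hQ1 : Q ≤ 1) (hV : VRS Q) : ∃ κ : ℝ, 0 < κ ∧ κ ≤ 1 ∧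
    ∀ (e : Bool) (b : Pt) (r s R : ℤ), 1 ≤ r → r ≤ s → s ≤ R → ∃ Y : Set Cfg, Xc e b r R ⊆ Y ∧
      Ind (dF b r s) (Y.indicator 1) ∧ ∀ (D : Finset Pt) (η : Cfg) (F : Cfg → ℝ), Good η →
      dF b r R ⊆ D → (∀ ω, 0 ≤ F ω) → Ind (dF b r R) F →
      κ * Ex Q D η (fun ω => F ω * (Xc e b r s ∩ Y).indicator 1 ω) ≤
        Ex Q D η (fun ω => F ω * (Xc e b r R).indicator 1 ω) := by
  obtain ⟨κ, h1, h1', H⟩ := glue_F hQ hQ1 hV 2
  refine ⟨κ, h1, h1', fun e b r s R hr hrs hsR => ?_⟩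
  rcases hsR.eq_or_lt with h | hlt
  · refine ⟨Set.univ, Set.subset_univ _, ind_univ, fun D η F hη hD hF0 hF => ?_⟩
    rw [h, Set.inter_univ]
    exact mul_le_of_le_one_left (Ex_nn hQ fun ω => mul_nonneg (hF0 _) (ind_nn _ _)) h1'
  · refine ⟨Xc e b (s + 1) R, Xc_restrict (by omega) (by omega) le_rfl, ?_,
      fun D η F hη hD hF0 hF => H e b r s (s + 1) R D η F hr hrs (by omega) (by omega)
        (by push_cast; omega) hη hD hF0 hF⟩
    rcases (show s + 1 ≤ R by omega).eq_or_lt with h | h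
    · rw [← h, Xc_self (by omega)]
      exact ind_univ
    · exact ind_Xc (by omega) h (dF_disj (by omega)).symm

/-- The inner piece of an arm. -/
theorem piece_i (hQ : 0 < Q) (hQ1 : Q ≤ 1) (hV : VRS Q) : ∃ κ : ℝ, 0 < κ ∧ κ ≤ 1 ∧
    ∀ (e : Bool) (b : Pt) (r s R : ℤ), 1 ≤ r → r ≤ s → s ≤ R → ∃ Y : Set Cfg, Xc e b r R ⊆ Y ∧
      Ind (dF b s R) (Y.indicator 1) ∧ ∀ (D : Finset Pt) (η : Cfg) (F : Cfg → ℝ), Good η →
      dF b r R ⊆ D → (∀ ω, 0 ≤ F ω) → Ind (dF b r R) F →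
      κ * Ex Q D η (fun ω => F ω * (Xc e b s R ∩ Y).indicator 1 ω) ≤
        Ex Q D η (fun ω => F ω * (Xc e b r R).indicator 1 ω) := by
  obtain ⟨κ, h1, h1', H⟩ := glue_F hQ hQ1 hV 2
  refine ⟨κ, h1, h1', fun e b r s R hr hrs hsR => ?_⟩
  rcases hrs.eq_or_lt with h | hlt
  · refine ⟨Set.univ, Set.subset_univ _, ind_univ, fun D η F hη hD hF0 hF => ?_⟩
    rw [← h, Set.inter_univ]
    exact mul_le_of_le_one_left (Ex_nn hQ fun ω => mul_nonneg (hF0 _) (ind_nn _ _)) h1'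
  · refine ⟨Xc e b r (s - 1), Xc_restrict le_rfl (by omega) (by omega), ?_,
      fun D η F hη hD hF0 hF => ?_⟩
    · rcases (show r ≤ s - 1 by omega).eq_or_lt with h | h
      · rw [← h, Xc_self hr]
        exact ind_univ
      · exact ind_Xc hr h (dF_disj (by omega))
    · rw [Set.inter_comm]
      exact H e b r (s - 1) s R D η F hr (by omega) (by omega) hsR (by push_cast; omega) hη hD hF0 hF

/-- **Half circuits given an arm.** -/
theorem ins_F (hQ : 0 < Q) (hQ1 : Q ≤ 1) (hV : VRS Q) : ∃ α C : ℝ, 0 < α ∧ 1 ≤ C ∧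
    ∀ (e : Bool) (b : Pt) (r m m' R : ℤ) (D : Finset Pt) (η : Cfg) (F : Cfg → ℝ), 1 ≤ r → r ≤ m →
      m ≤ m' → m' ≤ R → Good η → dF b r R ⊆ D → (∀ ω, 0 ≤ F ω) → Ind (dF b r R) F →
      Ex Q D η (fun ω => F ω * (Xc e b r R ∩ Xc (!e) b m m').indicator 1 ω) ≤
        C * ((m : ℝ) / m') ^ α * Ex Q D η (fun ω => F ω * (Xc e b r R).indicator 1 ω) := by
  obtain ⟨α, C, hα, hC, H0⟩ := both_F hQ hQ1 hV
  obtain ⟨κ₁, h1, h1', H1⟩ := piece_o hQ hQ1 hV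
  obtain ⟨κ₂, h2, h2', H2⟩ := piece_i hQ hQ1 hV
  have hC' : 1 ≤ C * (κ₁ * κ₂)⁻¹ := by
    have : 1 ≤ (κ₁ * κ₂)⁻¹ := (one_le_inv₀ (by positivity)).2 (mul_le_one₀ h1' h2.le h2')
    exact one_le_mul_of_one_le_of_one_le hC this
  refine ⟨α, C * (κ₁ * κ₂)⁻¹, hα, hC', fun e b r m m' R D η F hr hrm hmm hmR hη hD hF0 hF => ?_⟩
  obtain ⟨Yo, y1, y2, y3⟩ := H1 e b m m' R (by omega) hmm hmR
  obtain ⟨Yi, z1, z2, z3⟩ := H2 e b r m R hr hrm (by omega)
  have hDm : dF b m R ⊆ dF b r R := dF_sub hrm le_rfl (by omega)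
  have hDmm : dF b m m' ⊆ dF b m R := dF_sub le_rfl hmR (by omega)
  obtain ⟨G, hG⟩ : ∃ G : Cfg → ℝ, G = fun ω => F ω * Yi.indicator 1 ω := ⟨_, rfl⟩
  have hG0 : ∀ ω, 0 ≤ G ω := fun ω => by rw [hG]; exact mul_nonneg (hF0 _) (ind_nn _ _)
  have hGi : Ind (dF b m R) G := by
    rw [hG]
    exact Ind.mul' (Ind.sub' hF hDm) z2
  have q0 := H0 e b m m' D η (fun ω => G ω * Yo.indicator 1 ω) (by omega) hmm hη
    ((hDmm.trans hDm).trans hD) (fun ω => mul_nonneg (hG0 _) (ind_nn _ _))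
    (Ind.mul' (Ind.sub' hGi hDmm) y2)
  have q1 := y3 D η G hη (hDm.trans hD) hG0 hGi
  have q2 := z3 D η F hη hD hF0 hF
  have e1 : Ex Q D η (fun ω => F ω * (Xc e b r R ∩ Xc (!e) b m m').indicator 1 ω) ≤
      Ex Q D η (fun ω => G ω * Yo.indicator 1 ω *
        (Xc e b m m' ∩ Xc (!e) b m m').indicator 1 ω) := by
    refine Ex_mono hQ fun S _ => ?_
    obtain ⟨ω, hω⟩ : ∃ ω, ω = cf D η S := ⟨_, rfl⟩
    rw [← hω]
    by_cases h : ω ∈ Xc e b r R ∩ Xc (!e) b m m'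
    · have g1 : ω ∈ Yi := z1 h.1
      have g2 : ω ∈ Xc e b m R := Xc_restrict hrm (by omega) le_rfl h.1
      have g3 : ω ∈ Yo := y1 g2
      have g4 : ω ∈ Xc e b m m' := Xc_restrict le_rfl hmm hmR g2
      rw [Set.indicator_of_mem h, hG]
      simp only
      rw [Set.indicator_of_mem g1, Set.indicator_of_mem g3, Set.indicator_of_mem
        (show ω ∈ Xc e b m m' ∩ Xc (!e) b m m' from ⟨g4, h.2⟩)]
      simp
    · rw [Set.indicator_of_notMem h, mul_zero]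
      exact mul_nonneg (mul_nonneg (hG0 _) (ind_nn _ _)) (ind_nn _ _)
  have e2 : Ex Q D η (fun ω => G ω * Yo.indicator 1 ω * (Xc e b m m').indicator 1 ω) =
      Ex Q D η (fun ω => G ω * (Xc e b m m' ∩ Yo).indicator 1 ω) := by
    refine congrArg (Ex Q D η) (funext fun ω => ?_)
    rw [ind_inter]
    ring
  have e3 : Ex Q D η (fun ω => G ω * (Xc e b m R).indicator 1 ω) =
      Ex Q D η (fun ω => F ω * (Xc e b m R ∩ Yi).indicator 1 ω) := by
    refine congrArg (Ex Q D η) (funext fun ω => ?_)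
    rw [ind_inter, hG]
    ring
  rw [e2] at q0
  rw [e3] at q1
  have hx : (0 : ℝ) ≤ ((m : ℝ) / m') ^ α := by
    have : (0 : ℝ) ≤ (m : ℝ) / m' := div_nonneg (by exact_mod_cast (by omega : 0 ≤ m))
      (by exact_mod_cast (by omega : 0 ≤ m'))
    positivity
  have e4 : κ₁ * κ₂ * Ex Q D η (fun ω => G ω * (Xc e b m m' ∩ Yo).indicator 1 ω) ≤
      Ex Q D η (fun ω => F ω * (Xc e b r R).indicator 1 ω) := by
    calc κ₁ * κ₂ * Ex Q D η (fun ω => G ω * (Xc e b m m' ∩ Yo).indicator 1 ω)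
        = κ₂ * (κ₁ * Ex Q D η (fun ω => G ω * (Xc e b m m' ∩ Yo).indicator 1 ω)) := by ring
      _ ≤ κ₂ * Ex Q D η (fun ω => F ω * (Xc e b m R ∩ Yi).indicator 1 ω) :=
          mul_le_mul_of_nonneg_left q1 h2.le
      _ ≤ _ := q2
  have e5 : Ex Q D η (fun ω => G ω * (Xc e b m m' ∩ Yo).indicator 1 ω) ≤
      (κ₁ * κ₂)⁻¹ * Ex Q D η (fun ω => F ω * (Xc e b r R).indicator 1 ω) := by
    rw [inv_mul_eq_div, le_div_iff₀ (by positivity), mul_comm]
    exact e4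
  calc _ ≤ _ := e1
    _ ≤ C * ((m : ℝ) / m') ^ α * Ex Q D η (fun ω => G ω * (Xc e b m m' ∩ Yo).indicator 1 ω) := q0
    _ ≤ C * ((m : ℝ) / m') ^ α * ((κ₁ * κ₂)⁻¹ *
        Ex Q D η (fun ω => F ω * (Xc e b r R).indicator 1 ω)) :=
        mul_le_mul_of_nonneg_left e5 (mul_nonneg (by linarith) hx)
    _ = _ := by ring

end Vale.Agent.P167.N.NET
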