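import Vale.Agent.P167.H192.TA.Geo
import Vale.Agent.P167.H632.Prob
import Vale.Agent.P167.H558.Stop

/-!
# P167, nets for `q < 1`: the pivotal lemma

`e : Bool` is a colour. `Jn e G A B`: `A` and `B` are joined by squares of `G` of the colour `e`.
`Quad`: abstract planar duality of a set of squares `G` with four boundary arcs. `Rv c G S ω`: the
squares of `G` which touch the cluster of colour `c` of `S` (a stopping set). `pivot`: a site of the
colour `e` on the boundary of the revealed squares which is reached from the fourth arc is joined to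
the first and to the third arc.
-/

set_option autoImplicit false

namespace Vale.Agent.P167.N.NET

open Vale.Agent.P145.FB Vale.Agent.P167 Vale.Agent.P167.H871 Vale.Agent.P167.H632
  Vale.Agent.P167.H192.TA
open Relation (ReflTransGen)
open Vale.Agent.P167.H558 (StopSet Past)

/-! ### Corners -/

/-- `x` is a corner of the colour `c` of the square `v`. -/
def Cor (c : Bool) (v x : Pt) : Prop :=
  (x.1 = v.1 ∨ x.1 = v.1 + 1) ∧ (x.2 = v.2 ∨ x.2 = v.2 + 1) ∧ (x.1 + x.2) % 2 = pr c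


/-- The corners of the colour `c` of the squares of `K`. -/
def Vc (c : Bool) (K : Set Pt) : Set Pt := {x | ∃ v ∈ K, Cor c v x}

theorem Vc.mono {c : Bool} {K K' : Set Pt} (h : K ⊆ K') : Vc c K ⊆ Vc c K' := by
  rintro x ⟨v, hv, hx⟩
  exact ⟨v, h hv, hx⟩

theorem cor_of_step {F : Set Pt} {c : Bool} {x y : Pt} (h : PStep F x y)
    (hx : (x.1 + x.2) % 2 = pr c) :
    Cor c (min x.1 y.1, min x.2 y.2) x ∧ Cor c (min x.1 y.1, min x.2 y.2) y ∧
      ∀ z, Cor c (min x.1 y.1, min x.2 y.2) z → z = x ∨ z = y := by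
  obtain ⟨h1, h2, -⟩ := h
  refine ⟨?_, ?_, ?_⟩
  · simp only [Cor]; omega
  · simp only [Cor]; omega
  · rintro ⟨z1, z2⟩ hz
    obtain ⟨x1, x2⟩ := x
    obtain ⟨y1, y2⟩ := y
    simp only [Cor, Prod.mk.injEq] at *
    omega

theorem step_of_cor {F : Set Pt} {c : Bool} {v x y : Pt} (hv : v ∈ F) (hx : Cor c v x)
    (hy : Cor c v y) (hne : x ≠ y) : PStep F x y := by
  have h : (min x.1 y.1, min x.2 y.2) = v ∧ (y.1 = x.1 + 1 ∨ y.1 = x.1 - 1) ∧
      (y.2 = x.2 + 1 ∨ y.2 = x.2 - 1) := by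
    obtain ⟨x1, x2⟩ := x
    obtain ⟨y1, y2⟩ := y
    obtain ⟨v1, v2⟩ := v
    simp only [Cor, Prod.mk.injEq, ne_eq] at *
    omega
  exact ⟨h.2.1, h.2.2, by rw [h.1]; exact hv⟩

theorem pw_of_cor {F : Set Pt} {c : Bool} {v x y : Pt} (hv : v ∈ F) (hx : Cor c v x)
    (hy : Cor c v y) : Pw F x y := by
  by_cases h : x = y
  · rw [h]
  · exact ReflTransGen.single (step_of_cor hv hx hy h)

theorem exists_cor (c : Bool) (v : Pt) : ∃ x, Cor c v x := by
  rcases Int.emod_two_eq (v.1 + v.2 + pr c) with h | h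
  · exact ⟨v, Or.inl rfl, Or.inl rfl, by rcases pr_or c with e | e <;> rw [e] at h ⊢ <;> omega⟩
  · exact ⟨(v.1 + 1, v.2), Or.inr rfl, Or.inl rfl, by
      rcases pr_or c with e | e <;> rw [e] at h ⊢ <;> dsimp only <;> omega⟩

/-! ### Connections -/

/-- `A` and `B` are joined by squares of `G` of the colour `e`. -/
def Jn (e : Bool) (G A B : Set Pt) : Set Cfg :=
  {ω | ∃ u ∈ A, ∃ v ∈ B, Pw (cs e ω ∩ G) u v}

theorem Jn.mono {e : Bool} {G G' A A' B B' : Set Pt} (hG : G ⊆ G') (hA : A ⊆ A') (hB : B ⊆ B') :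
    Jn e G A B ⊆ Jn e G' A' B' := by
  rintro ω ⟨u, hu, v, hv, h⟩
  exact ⟨u, hA hu, v, hB hv, h.mono (Set.inter_subset_inter_right _ hG)⟩

theorem Jn.symm {e : Bool} {G A B : Set Pt} : Jn e G A B = Jn e G B A := by
  ext ω
  constructor
  · rintro ⟨u, hu, v, hv, h⟩
    exact ⟨v, hv, u, hu, h.symm⟩
  · rintro ⟨u, hu, v, hv, h⟩
    exact ⟨v, hv, u, hu, h.symm⟩

theorem inc_Jn (e : Bool) (G A B : Set Pt) : IncC e (Jn e G A B) := by
  rintro ω ω' h ⟨u, hu, v, hv, h1⟩
  refine ⟨u, hu, v, hv, h1.mono ?_⟩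
  rintro s ⟨hs1, hs2⟩
  exact ⟨h s hs1, hs2⟩

/-- The cluster of colour `c` of `S` in `G`. -/
def Cl (c : Bool) (G S : Set Pt) (ω : Cfg) : Set Pt := {x | ∃ s ∈ S, Pw (cs c ω ∩ G) s x}

theorem Cl_seed {c : Bool} {G S : Set Pt} {ω : Cfg} : S ⊆ Cl c G S ω := by
  intro s hs
  exact ⟨s, hs, ReflTransGen.refl⟩

/-- The squares of `G` which touch the cluster. -/
def Rs (c : Bool) (G S : Set Pt) (ω : Cfg) : Set Pt := {v | v ∈ G ∧ ∃ x ∈ Cl c G S ω, Cor c v x}

theorem Rs_sub {c : Bool} {G S : Set Pt} {ω : Cfg} : Rs c G S ω ⊆ G := fun _ h => h.1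

/-- The path from the seeds to a point of the cluster uses revealed squares. -/
theorem cl_path {c : Bool} {G S : Set Pt} {ω : Cfg} (hS : ∀ s ∈ S, (s.1 + s.2) % 2 = pr c)
    {s x : Pt} (hs : s ∈ S) (h : Pw (cs c ω ∩ G) s x) : Pw (cs c ω ∩ Rs c G S ω) s x := by
  induction h with
  | refl => exact ReflTransGen.refl
  | @tail y z hy hyz ih =>
    have hp : (y.1 + y.2) % 2 = pr c := by rw [← hS s hs]; exact (Pw.parity hy).symm
    exact ih.tail ⟨hyz.1, hyz.2.1, hyz.2.2.1, hyz.2.2.2, y, ⟨s, hs, hy⟩, (cor_of_step hyz hp).1⟩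

/-- The cluster is determined by the revealed squares. -/
theorem Cl_congr {c : Bool} {G S : Set Pt} {ω ω' : Cfg} (hS : ∀ s ∈ S, (s.1 + s.2) % 2 = pr c)
    (h : ∀ v ∈ Rs c G S ω, ω' v = ω v) : Cl c G S ω' = Cl c G S ω := by
  ext x
  constructor
  · rintro ⟨s, hs, hx⟩
    induction hx with
    | refl => exact ⟨s, hs, ReflTransGen.refl⟩
    | @tail y z hy hyz ih =>
      obtain ⟨s', hs', ih⟩ := ih
      have hp : (y.1 + y.2) % 2 = pr c := by rw [← hS s hs]; exact (Pw.parity hy).symm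
      have hR : (min y.1 z.1, min y.2 z.2) ∈ Rs c G S ω :=
        ⟨hyz.2.2.2, y, ⟨s', hs', ih⟩, (cor_of_step hyz hp).1⟩
      refine ⟨s', hs', ih.tail ⟨hyz.1, hyz.2.1, ?_, hyz.2.2.2⟩⟩
      have := hyz.2.2.1
      simp only [cs, Set.mem_ofPred_eq] at this ⊢
      rw [← h _ hR]
      exact this
  · rintro ⟨s, hs, hx⟩
    have h1 := cl_path hS hs hx
    refine ⟨s, hs, h1.mono ?_⟩
    rintro v hv
    refine ⟨?_, hv.2.1⟩
    have := hv.1
    simp only [cs, Set.mem_ofPred_eq] at this ⊢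
    rw [h _ hv.2]
    exact this

theorem Rs_congr {c : Bool} {G S : Set Pt} {ω ω' : Cfg} (hS : ∀ s ∈ S, (s.1 + s.2) % 2 = pr c)
    (h : ∀ v ∈ Rs c G S ω, ω' v = ω v) : Rs c G S ω' = Rs c G S ω := by
  unfold Rs
  rw [Cl_congr hS h]

open Classical in
/-- The revealed squares, as a finite set. -/
noncomputable def Rv (c : Bool) (G : Finset Pt) (S : Set Pt) (ω : Cfg) : Finset Pt :=
  G.filter fun v => v ∈ Rs c G S ω

theorem mem_Rv {c : Bool} {G : Finset Pt} {S : Set Pt} {ω : Cfg} {v : Pt} :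
    v ∈ Rv c G S ω ↔ v ∈ Rs c G S ω := by
  classical
  unfold Rv
  rw [Finset.mem_filter]
  exact ⟨fun h => h.2, fun h => ⟨Finset.mem_coe.1 h.1, h⟩⟩

theorem coe_Rv {c : Bool} {G : Finset Pt} {S : Set Pt} {ω : Cfg} :
    (Rv c G S ω : Set Pt) = Rs c G S ω := by
  ext v
  rw [Finset.mem_coe, mem_Rv]

theorem Rv_sub {c : Bool} {G : Finset Pt} {S : Set Pt} {ω : Cfg} : Rv c G S ω ⊆ G :=
  fun _ h => (mem_Rv.1 h).1

/-- The revealed squares are a stopping set. -/
theorem stop_Rv {c : Bool} {G : Finset Pt} {S : Set Pt} (hS : ∀ s ∈ S, (s.1 + s.2) % 2 = pr c) :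
    StopSet (Rv c G S) := by
  intro ω ω' h
  apply Finset.coe_injective
  rw [coe_Rv, coe_Rv]
  exact Rs_congr hS fun v hv => h v (mem_Rv.2 hv)

/-! ### Duality -/

/-- Planar duality in `G`: the arcs `A₁`, `A₃` are joined by the colour `e` if and only if the arcs
`S₂`, `S₄` are not joined by the other colour. -/
structure Quad (e : Bool) (G A₁ A₃ S₂ S₄ : Set Pt) : Prop where
  /-- the first arc consists of sites of colour `e` -/
  p1 : ∀ u ∈ A₁, (u.1 + u.2) % 2 = pr e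
  /-- the third arc consists of sites of colour `e` -/
  p3 : ∀ u ∈ A₃, (u.1 + u.2) % 2 = pr e
  /-- the second arc consists of sites of the other colour -/
  p2 : ∀ s ∈ S₂, (s.1 + s.2) % 2 = pr (!e)
  /-- the fourth arc consists of sites of the other colour -/
  p4 : ∀ s ∈ S₄, (s.1 + s.2) % 2 = pr (!e)
  /-- duality -/
  iff : ∀ ω : Cfg, ω ∈ Jn e G A₁ A₃ ↔ ω ∉ Jn (!e) G S₂ S₄

theorem Quad.swap24 {e : Bool} {G A₁ A₃ S₂ S₄ : Set Pt} (H : Quad e G A₁ A₃ S₂ S₄) :
    Quad e G A₁ A₃ S₄ S₂ :=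
  ⟨H.p1, H.p3, H.p4, H.p2, fun ω => by rw [Jn.symm (A := S₄)]; exact H.iff ω⟩

theorem Quad.swap13 {e : Bool} {G A₁ A₃ S₂ S₄ : Set Pt} (H : Quad e G A₁ A₃ S₂ S₄) :
    Quad e G A₃ A₁ S₂ S₄ :=
  ⟨H.p3, H.p1, H.p2, H.p4, fun ω => by rw [Jn.symm (A := A₃)]; exact H.iff ω⟩

/-- The quad of the other colour. -/
theorem Quad.other {e : Bool} {G A₁ A₃ S₂ S₄ : Set Pt} (H : Quad e G A₁ A₃ S₂ S₄) :
    Quad (!e) G S₂ S₄ A₁ A₃ := by
  refine ⟨H.p2, H.p4, ?_, ?_, fun ω => ?_⟩
  · rw [Bool.not_not]; exact H.p1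
  · rw [Bool.not_not]; exact H.p3
  · rw [Bool.not_not, H.iff ω, not_not]

/-- The squares of `G` around a site of the colour `e` are connected. -/
def Fan (e : Bool) (G : Set Pt) : Prop := ∀ x v v' y y' : Pt, v ∈ G → v' ∈ G → Cor e v x →
  Cor e v' x → Cor (!e) v y → Cor (!e) v' y' → Pw (G ∩ {s | Cor e s x}) y y'

/-- A condition for `Fan`. -/
theorem fan_of {e : Bool} {G : Set Pt}
    (h1 : ∀ m n : ℤ, (m, n) ∈ G → (m + 1, n + 1) ∈ G → (m + 1, n) ∈ G ∨ (m, n + 1) ∈ G)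
    (h2 : ∀ m n : ℤ, (m, n + 1) ∈ G → (m + 1, n) ∈ G → (m, n) ∈ G ∨ (m + 1, n + 1) ∈ G) :
    Fan e G := by
  -- two squares with a common side
  have adj : ∀ x v v' z y y' : Pt, v ∈ G → v' ∈ G → Cor e v x → Cor e v' x → Cor (!e) v y →
      Cor (!e) v' y' → Cor (!e) v z → Cor (!e) v' z → Pw (G ∩ {s | Cor e s x}) y y' := by
    intro x v v' z y y' hv hv' hx hx' hy hy' hz hz'
    exact (pw_of_cor (F := G ∩ {s | Cor e s x}) ⟨hv, hx⟩ hy hz).trans
      (pw_of_cor (F := G ∩ {s | Cor e s x}) ⟨hv', hx'⟩ hz' hy')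
  have key : ∀ x v v' y y' : Pt, v ∈ G → v' ∈ G → Cor e v x → Cor e v' x → Cor (!e) v y →
      Cor (!e) v' y' → v.1 ≤ v'.1 → Pw (G ∩ {s | Cor e s x}) y y' := by
    rintro ⟨a, b⟩ ⟨m, n⟩ ⟨m', n'⟩ y y' hv hv' hx hx' hy hy' hle
    have hx0 := hx
    have hx1 := hx'
    simp only [Cor] at hx0 hx1
    dsimp only at hx0 hx1 hle
    have hne : pr (!e) = 1 - pr e := pr_not e
    have hpe := pr_or e
    by_cases c1 : m = m' ∧ n = n'
    · obtain ⟨rfl, rfl⟩ := c1
      exact pw_of_cor (F := G ∩ {s | Cor e s (a, b)}) ⟨hv, hx⟩ hy hy'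
    by_cases c2 : m = m' ∨ n = n'
    · -- a common side
      rcases c2 with rfl | rfl
      · rcases Int.lt_or_gt_of_ne (fun h : n = n' => c1 ⟨rfl, h⟩) with h | h
        · have e1 : b = n' := by omega
          by_cases ha : a = m
          · exact adj _ _ _ (m + 1, b) _ _ hv hv' hx hx' hy hy' (by unfold Cor; dsimp only; omega)
              (by unfold Cor; dsimp only; omega)
          · exact adj _ _ _ (m, b) _ _ hv hv' hx hx' hy hy' (by unfold Cor; dsimp only; omega)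
              (by unfold Cor; dsimp only; omega)
        · have e1 : b = n := by omega
          by_cases ha : a = m
          · exact adj _ _ _ (m + 1, b) _ _ hv hv' hx hx' hy hy' (by unfold Cor; dsimp only; omega)
              (by unfold Cor; dsimp only; omega)
          · exact adj _ _ _ (m, b) _ _ hv hv' hx hx' hy hy' (by unfold Cor; dsimp only; omega)
              (by unfold Cor; dsimp only; omega)
      · have e1 : a = m' := by omega
        by_cases hb : b = n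
        · exact adj _ _ _ (a, n + 1) _ _ hv hv' hx hx' hy hy' (by unfold Cor; dsimp only; omega)
            (by unfold Cor; dsimp only; omega)
        · exact adj _ _ _ (a, n) _ _ hv hv' hx hx' hy hy' (by unfold Cor; dsimp only; omega)
            (by unfold Cor; dsimp only; omega)
    · push Not at c2
      have e1 : m' = m + 1 := by omega
      have e2 : a = m + 1 := by omega
      subst e1
      subst e2
      rcases Int.lt_or_gt_of_ne c2.2 with h | h
      · have e3 : n' = n + 1 := by omega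
        have e4 : b = n + 1 := by omega
        subst e3
        subst e4
        rcases h1 m n hv hv' with h | h
        · have g1 := adj (m + 1, n + 1) (m, n) (m + 1, n) (m + 1, n) y (m + 1, n) hv h hx
            (by unfold Cor; dsimp only; omega) hy (by unfold Cor; dsimp only; omega) (by unfold Cor; dsimp only; omega)
            (by unfold Cor; dsimp only; omega)
          have g2 := adj (m + 1, n + 1) (m + 1, n) (m + 1, n + 1) (m + 2, n + 1) (m + 1, n) y' h hv'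
            (by unfold Cor; dsimp only; omega) hx' (by unfold Cor; dsimp only; omega) hy'
            (by unfold Cor; dsimp only; omega) (by unfold Cor; dsimp only; omega)
          exact g1.trans g2
        · have g1 := adj (m + 1, n + 1) (m, n) (m, n + 1) (m, n + 1) y (m, n + 1) hv h hx
            (by unfold Cor; dsimp only; omega) hy (by unfold Cor; dsimp only; omega) (by unfold Cor; dsimp only; omega)
            (by unfold Cor; dsimp only; omega)
          have g2 := adj (m + 1, n + 1) (m, n + 1) (m + 1, n + 1) (m + 1, n + 2) (m, n + 1) y' h hv'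
            (by unfold Cor; dsimp only; omega) hx' (by unfold Cor; dsimp only; omega) hy'
            (by unfold Cor; dsimp only; omega) (by unfold Cor; dsimp only; omega)
          exact g1.trans g2
      · have e3 : n = n' + 1 := by omega
        subst e3
        have e4 : b = n' + 1 := by omega
        subst e4
        rcases h2 m n' hv hv' with h | h
        · have g1 := adj (m + 1, n' + 1) (m, n' + 1) (m, n') (m, n' + 1) y (m, n' + 1) hv h hx
            (by unfold Cor; dsimp only; omega) hy (by unfold Cor; dsimp only; omega) (by unfold Cor; dsimp only; omega)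
            (by unfold Cor; dsimp only; omega)
          have g2 := adj (m + 1, n' + 1) (m, n') (m + 1, n') (m + 1, n') (m, n' + 1) y' h hv'
            (by unfold Cor; dsimp only; omega) hx' (by unfold Cor; dsimp only; omega) hy'
            (by unfold Cor; dsimp only; omega) (by unfold Cor; dsimp only; omega)
          exact g1.trans g2
        · have g1 := adj (m + 1, n' + 1) (m, n' + 1) (m + 1, n' + 1) (m + 1, n' + 2) y
            (m + 2, n' + 1) hv h hx
            (by unfold Cor; dsimp only; omega) hy (by unfold Cor; dsimp only; omega) (by unfold Cor; dsimp only; omega)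
            (by unfold Cor; dsimp only; omega)
          have g2 := adj (m + 1, n' + 1) (m + 1, n' + 1) (m + 1, n') (m + 2, n' + 1)
            (m + 2, n' + 1) y' h hv'
            (by unfold Cor; dsimp only; omega) hx' (by unfold Cor; dsimp only; omega) hy'
            (by unfold Cor; dsimp only; omega) (by unfold Cor; dsimp only; omega)
          exact g1.trans g2
  intro x v v' y y' hv hv' hx hx' hy hy'
  rcases le_total v.1 v'.1 with h | h
  · exact key x v v' y y' hv hv' hx hx' hy hy' h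
  · exact (key x v' v y' y hv' hv hx' hx hy' hy h).symm

/-! ### The pivotal lemma -/

/-- `z` is next to the arc `S`. -/
def Nx (e : Bool) (G S : Set Pt) (z : Pt) : Prop :=
  ∃ g ∈ G, Cor e g z ∧ ∃ n ∈ S, Cor (!e) g n

/-- A path of squares of `G \ K` from `x` to the arc `S`, its sites after `x` are not on `K`. -/
def Ch (e : Bool) (G K S : Set Pt) (x : Pt) : Prop :=
  ∃ z, ReflTransGen (fun p q => PStep (G \ K) p q ∧ q ∉ Vc e K) x z ∧ Nx e G S z

/-- A path which is lost when the squares at `a` are closed passes through `a`. -/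
theorem pass {e : Bool} {F F' : Set Pt} {a u v : Pt} (hu : (u.1 + u.2) % 2 = pr e)
    (hF : ∀ s ∈ F, ¬ Cor e s a → s ∈ F') (h : Pw F u v) :
    Pw F' u v ∨ (Pw F u a ∧ Pw F a v) := by
  induction h with
  | refl => exact Or.inl ReflTransGen.refl
  | @tail x y hx hxy ih =>
    have hp : (x.1 + x.2) % 2 = pr e := by rw [← hu]; exact (Pw.parity hx).symm
    obtain ⟨c1, c2, c3⟩ := cor_of_step hxy hp
    by_cases h1 : Cor e (min x.1 y.1, min x.2 y.2) a
    · right
      rcases c3 a h1 with rfl | rfl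
      · exact ⟨hx, ReflTransGen.single hxy⟩
      · exact ⟨hx.tail hxy, ReflTransGen.refl⟩
    · rcases ih with ih | ⟨ih1, ih2⟩
      · exact Or.inl (ih.tail ⟨hxy.1, hxy.2.1, hF _ hxy.2.2 h1⟩)
      · exact Or.inr ⟨ih1, ih2.tail hxy⟩

/-- **The pivotal lemma.** -/
theorem pivot {e : Bool} {G A₁ A₃ S₂ S₄ : Set Pt} (H : Quad e G A₁ A₃ S₂ S₄) (hG : Fan e G)
    {ω : Cfg} (hω : ω ∈ Jn e G A₁ A₃) {a : Pt} (ha : a ∈ Vc e (Rs (!e) G S₂ ω))
    (hc : Ch e G (Rs (!e) G S₂ ω) S₄ a) :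
    ∃ u ∈ A₁, ∃ v ∈ A₃, Pw (cs e ω ∩ Rs (!e) G S₂ ω) u a ∧ Pw (cs e ω ∩ Rs (!e) G S₂ ω) a v := by
  classical
  obtain ⟨K, hK⟩ : ∃ K : Set Pt, K = Rs (!e) G S₂ ω := ⟨_, rfl⟩
  rw [← hK] at ha hc ⊢
  have hKG : K ⊆ G := by rw [hK]; exact Rs_sub
  obtain ⟨ω₁, hω₁⟩ : ∃ ω₁ : Cfg, ω₁ = fun v => if v ∈ K then ω v else !e := ⟨_, rfl⟩
  obtain ⟨ω₂, hω₂⟩ : ∃ ω₂ : Cfg, ω₂ = fun v => if v ∈ K ∧ ¬ Cor e v a then ω v else !e := ⟨_, rfl⟩
  have h1 : ω₁ ∈ Jn e G A₁ A₃ := by
    rw [H.iff] at hω ⊢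
    rintro ⟨s, hs, x, hx, h⟩
    have e1 : Cl (!e) G S₂ ω₁ = Cl (!e) G S₂ ω := Cl_congr H.p2 fun v hv => by
      rw [← hK] at hv
      rw [hω₁]
      simp only [if_pos hv]
    have h2 : x ∈ Cl (!e) G S₂ ω := by
      rw [← e1]
      exact ⟨s, hs, h⟩
    obtain ⟨s', hs', h3⟩ := h2
    exact hω ⟨s', hs', x, hx, h3⟩
  obtain ⟨u, hu, v, hv, h2⟩ := h1
  have h3 : Pw (cs e ω ∩ K) u v := h2.mono fun s hs => by
    have h4 := hs.1
    rw [hω₁] at h4
    simp only [cs, Set.mem_ofPred_eq] at h4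
    by_cases hsK : s ∈ K
    · rw [if_pos hsK] at h4
      exact ⟨h4, hsK⟩
    · rw [if_neg hsK] at h4
      cases e <;> simp at h4
  -- the squares at `a` closed
  have h4 : ω₂ ∈ Jn (!e) G S₂ S₄ := by
    obtain ⟨sa, hsa, hca⟩ := ha
    have hsa' := hsa
    rw [hK] at hsa'
    obtain ⟨hsG, c₀, ⟨s, hs, hc0⟩, hcc⟩ := hsa'
    have g1 : Pw (cs (!e) ω₂ ∩ G) s c₀ := (cl_path H.p2 hs hc0).mono fun t ht => by
      refine ⟨?_, ht.2.1⟩
      have h5 : ω t = !e := ht.1
      show ω₂ t = !e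
      rw [hω₂]
      simp only
      split_ifs
      · exact h5
      · rfl
    have clo : ∀ t : Pt, t ∉ K ∨ Cor e t a → ω₂ t = !e := by
      intro t ht
      rw [hω₂]
      simp only
      rw [if_neg]
      rintro ⟨k1, k2⟩
      rcases ht with ht | ht
      · exact ht k1
      · exact k2 ht
    obtain ⟨z, hz, g, hg, hgz, n, hn, hgn⟩ := hc
    have g2 : ∀ g n : Pt, g ∈ G → Cor e g z → Cor (!e) g n → Pw (cs (!e) ω₂ ∩ G) c₀ n := by
      clear hgn hn n hgz hg g
      induction hz with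
      | refl =>
        intro g n hg hgz hgn
        refine (hG a sa g c₀ n (hKG hsa) hg hca hgz hcc hgn).mono ?_
        rintro t ⟨ht1, ht2⟩
        exact ⟨clo t (Or.inr ht2), ht1⟩
      | @tail x y hx hxy ih =>
        intro g n hg hgz hgn
        have hpx : (x.1 + x.2) % 2 = pr e := by
          have : Pw (G \ K) a x := by
            clear ih hxy hgz
            induction hx with
            | refl => exact ReflTransGen.refl
            | tail _ h ih => exact ih.tail h.1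
          rw [← Pw.parity this]
          exact hca.2.2
        obtain ⟨k1, k2, -⟩ := cor_of_step hxy.1 hpx
        obtain ⟨m, hm⟩ := exists_cor (!e) (min x.1 y.1, min x.2 y.2)
        have k3 := ih _ m hxy.1.2.2.1 k1 hm
        refine k3.trans ((hG y _ g m n hxy.1.2.2.1 hg k2 hgz hm hgn).mono ?_)
        rintro t ⟨ht1, ht2⟩
        exact ⟨clo t (Or.inl fun htK => hxy.2 ⟨t, htK, ht2⟩), ht1⟩
    exact ⟨s, hs, n, hn, g1.trans (g2 g n hg hgz hgn)⟩
  have h5 : ω₂ ∉ Jn e G A₁ A₃ := by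
    rw [H.iff]
    exact not_not_intro h4
  refine ⟨u, hu, v, hv, ?_⟩
  have hF : ∀ t ∈ cs e ω ∩ K, ¬ Cor e t a → t ∈ cs e ω₂ ∩ G := by
    rintro t ⟨ht1, ht2⟩ hta
    refine ⟨?_, hKG ht2⟩
    show ω₂ t = e
    rw [hω₂]
    simp only
    rw [if_pos ⟨ht2, hta⟩]
    exact ht1
  rcases pass (H.p1 u hu) hF h3 with h6 | h6
  · exact absurd ⟨u, hu, v, hv, h6⟩ h5
  · exact h6

/-- **One end of a tube.** `β`: a path of squares of `T \ K` from a site on `K` to `z`. The squares of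
`T` outside of `G` touch `G` only next to the fourth arc. -/
theorem piv_end {e : Bool} {G A₁ A₃ S₂ S₄ T : Set Pt} (H : Quad e G A₁ A₃ S₂ S₄) (hG : Fan e G)
    {ω : Cfg} (hω : ω ∈ Jn e G A₁ A₃) {x z : Pt} (hx : x ∈ Vc e (Rs (!e) G S₂ ω))
    (hT : ∀ t ∈ T, t ∉ Rs (!e) G S₂ ω)
    (hout : ∀ t ∈ T, t ∉ G → ∀ y, Cor e t y → y ∈ Vc e G → Nx e G S₄ y)
    (hz : z ∈ Vc e G → Nx e G S₄ z) (h : Pw (cs e ω ∩ T) x z) :
    ∃ a ∈ Vc e (Rs (!e) G S₂ ω), Pw (cs e ω ∩ T) a z ∧
      ∃ u ∈ A₁, ∃ v ∈ A₃, Pw (cs e ω ∩ G) u a ∧ Pw (cs e ω ∩ G) a v := by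
  obtain ⟨K, hK⟩ : ∃ K : Set Pt, K = Rs (!e) G S₂ ω := ⟨_, rfl⟩
  have hKG : K ⊆ G := by rw [hK]; exact Rs_sub
  have hpx : (x.1 + x.2) % 2 = pr e := by
    obtain ⟨v, -, hv⟩ := hx
    exact hv.2.2
  rw [← hK] at hx hT
  have key : (x.1 + x.2) % 2 = pr e → ((∃ a ∈ Vc e K, Ch e G K S₄ a ∧ Pw (cs e ω ∩ T) a z) ∨
      (x ∉ Vc e K ∧ (x ∈ Vc e G → Ch e G K S₄ x))) := by
    clear hx hpx
    induction h using ReflTransGen.head_induction_on with
    | refl =>
      intro _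
      by_cases h1 : z ∈ Vc e K
      · exact Or.inl ⟨z, h1, ⟨z, ReflTransGen.refl, hz (Vc.mono hKG h1)⟩, ReflTransGen.refl⟩
      · exact Or.inr ⟨h1, fun h2 => ⟨z, ReflTransGen.refl, hz h2⟩⟩
    | @head x y hxy hyz ih =>
      intro hpx
      have hpy : (y.1 + y.2) % 2 = pr e := by
        rw [← hpx]
        exact (Pw.parity (ReflTransGen.single hxy)).symm
      obtain ⟨k1, k2, -⟩ := cor_of_step hxy hpx
      rcases ih hpy with ih | ⟨ih1, ih2⟩
      · exact Or.inl ih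
      · have hxy' : Pw (cs e ω ∩ T) x z := ReflTransGen.head hxy hyz
        have hch : x ∈ Vc e G → Ch e G K S₄ x := by
          intro hxG
          by_cases hv : (min x.1 y.1, min x.2 y.2) ∈ G
          · obtain ⟨w, hw1, hw2⟩ := ih2 ⟨_, hv, k2⟩
            exact ⟨w, ReflTransGen.head ⟨⟨hxy.1, hxy.2.1, hv, hT _ hxy.2.2.2⟩, ih1⟩ hw1, hw2⟩
          · exact ⟨x, ReflTransGen.refl, hout _ hxy.2.2.2 hv x k1 hxG⟩
        by_cases h1 : x ∈ Vc e K
        · exact Or.inl ⟨x, h1, hch (Vc.mono hKG h1), hxy'⟩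
        · exact Or.inr ⟨h1, hch⟩
  rcases key hpx with ⟨a, h1, h2, h3⟩ | ⟨h1, -⟩
  · rw [hK] at h1 h2
    obtain ⟨u, hu, v, hv, h4, h5⟩ := pivot H hG hω h1 h2
    rw [← hK] at h4 h5
    exact ⟨a, h1, h3, u, hu, v, hv, h4.mono (Set.inter_subset_inter_right _ hKG),
      h5.mono (Set.inter_subset_inter_right _ hKG)⟩
  · exact absurd hx h1

end Vale.Agent.P167.N.NET
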