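import Vale.Agent.P167.N.NET.Stokes
import Vale.Agent.P167.H871.OutX

/-!
# P167, duality of quads

`q`: a lattice polygon around `I`.

* `quad_ext`: `G = B \ I` for a box `B`, arcs of the contour of `I` inside `B`.
* `quad_pol`: the four arcs of the boundary of a polygon domain.
-/

set_option autoImplicit false

namespace Vale.Agent.P167.N.NET

open Finset
open Vale.Agent.P145.FB Vale.Agent.P167 Vale.Agent.P167.H632 Vale.Agent.P167.H871
open Vale.Agent.P167.H192.TA
open Vale.Agent.P167.E6 (dir face IsPolygon Encloses)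
open Relation (ReflTransGen)

variable {n : ℕ} {q : ZMod n → ℤ × ℤ} {I G B : Finset (ℤ × ℤ)} {c : Bool} {ω : Cfg}
  {a b m d i j : ℕ}

/-- The sites of colour `c` at the positions `a, …, b` of the polygon. -/
def Ar (q : ZMod n → ℤ × ℤ) (c : Bool) (a b : ℕ) : Set (ℤ × ℤ) :=
  {s | (s.1 + s.2) % 2 = pr c ∧ ∃ k : ℕ, a ≤ k ∧ k ≤ b ∧ q (k : ZMod n) = s}

theorem pr_ne {c : Bool} {k : ℤ} : k % 2 ≠ pr c ↔ k % 2 = pr (!c) := by
  have := pr_not c
  have := pr_or c
  omega

theorem pr_ne' {c : Bool} {k : ℤ} : k % 2 ≠ pr (!c) ↔ k % 2 = pr c := by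
  have := pr_not c
  have := pr_or c
  omega

theorem dir_par (x : ℤ × ℤ) (r : Fin 4) :
    ((x + dir r).1 + (x + dir r).2) % 2 = pr c ↔ (x.1 + x.2) % 2 = pr (!c) := by
  have := pr_not c
  have := pr_or c
  obtain ⟨x1, x2⟩ := x
  fin_cases r <;> simp [dir] <;> omega

/-- The parity alternates. -/
theorem par_next (hq : IsPolygon q) (k : ZMod n) :
    ((q (k + 1)).1 + (q (k + 1)).2) % 2 = pr c ↔ ((q k).1 + (q k).2) % 2 = pr (!c) := by
  obtain ⟨r, hr⟩ := hq.2.2 k
  rw [hr]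
  exact dir_par _ _

theorem par_nat (hq : IsPolygon q) (k l : ℕ) (h : (k + l) % 2 = 0)
    (hk : ((q (k : ZMod n)).1 + (q (k : ZMod n)).2) % 2 = pr c) :
    ((q (l : ZMod n)).1 + (q (l : ZMod n)).2) % 2 = pr c := by
  have up : ∀ (d : ℕ) (c : Bool) (k : ℕ), ((q (k : ZMod n)).1 + (q (k : ZMod n)).2) % 2 = pr c ↔
      ((q ((k + 2 * d : ℕ) : ZMod n)).1 + (q ((k + 2 * d : ℕ) : ZMod n)).2) % 2 = pr c := by
    intro d
    induction d with
    | zero => intro c k; simp
    | succ d ih =>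
      intro c k
      rw [ih c k, show k + 2 * (d + 1) = k + 2 * d + 1 + 1 by ring, Nat.cast_succ (k + 2 * d + 1),
        Nat.cast_succ (k + 2 * d), par_next hq, par_next hq, Bool.not_not]
  rcases le_total k l with hkl | hkl
  · obtain ⟨d, hd⟩ : ∃ d, l = k + 2 * d := ⟨(l - k) / 2, by omega⟩
    rw [hd, ← up]
    exact hk
  · obtain ⟨d, hd⟩ : ∃ d, k = l + 2 * d := ⟨(k - l) / 2, by omega⟩
    rw [hd, ← up] at hk
    exact hk

/-- Positions of different colours. -/
theorem par_odd (hq : IsPolygon q) {k l : ℕ}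
    (hk : ((q (k : ZMod n)).1 + (q (k : ZMod n)).2) % 2 = pr c)
    (hl : ((q (l : ZMod n)).1 + (q (l : ZMod n)).2) % 2 = pr (!c)) : (k + l) % 2 = 1 := by
  by_contra h
  have := par_nat hq k l (by omega) hk
  have := pr_not c
  have := pr_or c
  omega

theorem par_even (hq : IsPolygon q) {k l : ℕ}
    (hk : ((q (k : ZMod n)).1 + (q (k : ZMod n)).2) % 2 = pr c)
    (hl : ((q (l : ZMod n)).1 + (q (l : ZMod n)).2) % 2 = pr c) : (k + l) % 2 = 0 := by
  by_contra h
  have h1 : ((q ((k + 1 : ℕ) : ZMod n)).1 + (q ((k + 1 : ℕ) : ZMod n)).2) % 2 = pr (!c) := by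
    rw [Nat.cast_succ, par_next hq, Bool.not_not]
    exact hk
  have := par_odd hq hl h1
  omega

theorem q_inj (hq : IsPolygon q) {k l : ℕ} (hk : k < n) (hl : l < n)
    (h : q (k : ZMod n) = q (l : ZMod n)) : k = l := by
  have h1 := hq.2.1 h
  have h2 := congrArg ZMod.val h1
  have : NeZero n := ⟨by have := hq.1; omega⟩
  rwa [ZMod.val_natCast_of_lt hk, ZMod.val_natCast_of_lt hl] at h2

/-! ### The two colours of a square -/

theorem c1_cor (c : Bool) (v : ℤ × ℤ) : Cor c v (c1 c v) := by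
  have := pr_not c
  have := pr_or c
  unfold c1 Cor
  split_ifs with h
  · exact ⟨Or.inl rfl, Or.inl rfl, h⟩
  · refine ⟨Or.inr rfl, Or.inl (by simp), ?_⟩
    simp only [Prod.fst_add, Prod.snd_add, add_zero]
    omega

theorem c2_cor (c : Bool) (v : ℤ × ℤ) : Cor c v (c2 c v) := by
  have := pr_not c
  have := pr_or c
  unfold c2 Cor
  split_ifs with h
  · refine ⟨Or.inr rfl, Or.inr rfl, ?_⟩
    simp only [Prod.fst_add, Prod.snd_add]
    omega
  · refine ⟨Or.inl (by simp), Or.inr rfl, ?_⟩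
    simp only [Prod.fst_add, Prod.snd_add, add_zero]
    omega

theorem cor_c {c : Bool} {v x : ℤ × ℤ} (h : Cor c v x) : x = c1 c v ∨ x = c2 c v := by
  obtain ⟨v1, v2⟩ := v
  obtain ⟨x1, x2⟩ := x
  unfold c1 c2
  simp only [Cor] at h
  have := pr_or c
  split_ifs with h1
  · simp only [Prod.mk_add_mk, Prod.mk.injEq]
    dsimp only at h1
    omega
  · simp only [Prod.mk_add_mk, Prod.mk.injEq]
    dsimp only at h1
    omega

/-- The other colour around a vertex. -/
theorem c_face (g : ℤ × ℤ → ZMod 2) {x : ℤ × ℤ} (hx : (x.1 + x.2) % 2 = pr (!c)) (r : Fin 4) :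
    g (c1 c (face x r)) + g (c2 c (face x r)) = g (x + dir r) + g (x + dir (r + 1)) := by
  have h1 := pr_not c
  have h2 := pr_or c
  obtain ⟨x1, x2⟩ := x
  dsimp only at hx
  unfold c1 c2
  fin_cases r
  · have h : ¬ ((face (x1, x2) 0).1 + (face (x1, x2) 0).2) % 2 = pr c := by
      simp [face]
      omega
    simp only [h, if_false, Fin.zero_eta]
    simp [face, dir]
  · have h : ((face (x1, x2) 1).1 + (face (x1, x2) 1).2) % 2 = pr c := by
      simp [face]
      omega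
    simp only [h, if_true, Fin.mk_one]
    simp [face, dir]
    ring
  · have h : ¬ ((face (x1, x2) 2).1 + (face (x1, x2) 2).2) % 2 = pr c := by
      simp [face]
      omega
    simp only [Fin.reduceFinMk, h, if_false]
    simp [face, dir]
    ring
  · have h : ((face (x1, x2) 3).1 + (face (x1, x2) 3).2) % 2 = pr c := by
      simp [face]
      omega
    simp only [Fin.reduceFinMk, h, if_true]
    simp [face, dir]

/-- The degree of a chain. -/
def deg (ε : ℤ × ℤ → ZMod 2) (x : ℤ × ℤ) : ZMod 2 := ∑ r : Fin 4, ε (face x r)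

theorem deg_add (ε ε' : ℤ × ℤ → ZMod 2) (x : ℤ × ℤ) :
    deg (fun v => ε v + ε' v) x = deg ε x + deg ε' x := sum_add_distrib

theorem closed_of {ε : ℤ × ℤ → ZMod 2} (h : ∀ x : ℤ × ℤ, (x.1 + x.2) % 2 = pr (!c) → deg ε x = 0) :
    Closed c ε := by
  intro x y hxy
  have h1 := h (x, y) hxy
  unfold deg at h1
  rw [Fin.sum_univ_four] at h1
  simp only [face] at h1
  simp at h1
  rw [← sub_eq_add_neg, ← sub_eq_add_neg] at h1
  linear_combination h1

theorem isC_face (x : ℤ × ℤ) (r : Fin 4) : IsC (face x r) x := by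
  obtain ⟨x1, x2⟩ := x
  fin_cases r <;> simp [face, IsC]

theorem isC_iff_face {v x : ℤ × ℤ} : IsC v x ↔ ∃ r, face x r = v := by
  constructor
  · rintro ⟨h1, h2⟩
    obtain ⟨x1, x2⟩ := x
    obtain ⟨v1, v2⟩ := v
    dsimp only at h1 h2
    rcases h1 with h1 | h1 <;> rcases h2 with h2 | h2
    · exact ⟨0, by simp [face]; omega⟩
    · exact ⟨3, by simp [face]; omega⟩
    · exact ⟨1, by simp [face]; omega⟩
    · exact ⟨2, by simp [face]; omega⟩
  · rintro ⟨r, rfl⟩
    exact isC_face _ _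

/-- The chain of one square. -/
theorem deg_one {v x : ℤ × ℤ} (hx : (x.1 + x.2) % 2 = pr c) :
    deg (fun w => if w = v then 1 else 0) x =
      (if x = c1 c v then 1 else 0) + (if x = c2 c v then 1 else 0) := by
  have h1 := pr_not c
  have h2 := pr_or c
  obtain ⟨x1, x2⟩ := x
  obtain ⟨v1, v2⟩ := v
  unfold deg c1 c2
  dsimp only at hx
  rw [Fin.sum_univ_four]
  by_cases hp : ((v1 : ℤ) + v2) % 2 = pr c
  · simp only [hp, if_true]
    simp only [face, Matrix.cons_val_zero, Matrix.cons_val_one, Matrix.cons_val, Prod.mk_add_mk,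
      Prod.mk.injEq]
    split_ifs <;> first | rfl | (exfalso; omega)
  · simp only [hp, if_false]
    simp only [face, Matrix.cons_val_zero, Matrix.cons_val_one, Matrix.cons_val, Prod.mk_add_mk,
      Prod.mk.injEq]
    split_ifs <;> first | rfl | (exfalso; omega)

/-- **The chain of a path.** -/
theorem path_chain {x y : ℤ × ℤ} (hx : (x.1 + x.2) % 2 = pr c) (h : Pw (cs c ω ∩ ↑G) x y) :
    ∃ ε : ℤ × ℤ → ZMod 2, (∀ v, ε v ≠ 0 → v ∈ G ∧ ω v = c) ∧
      ∀ z : ℤ × ℤ, (z.1 + z.2) % 2 = pr c →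
        deg ε z = (if z = x then 1 else 0) + (if z = y then 1 else 0) := by
  induction h with
  | refl =>
    refine ⟨fun _ => 0, fun v h => absurd rfl h, fun z _ => ?_⟩
    unfold deg
    rw [sum_const_zero]
    exact (z2_add_self _).symm
  | @tail y z hy hyz ih =>
    obtain ⟨ε, h1, h2⟩ := ih
    have hyp : (y.1 + y.2) % 2 = pr c := by rw [← hx]; exact (Pw.parity hy).symm
    obtain ⟨g1, g2, g3⟩ := cor_of_step hyz hyp
    have hv : (min y.1 z.1, min y.2 z.2) ∈ G ∧ ω (min y.1 z.1, min y.2 z.2) = c :=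
      ⟨hyz.2.2.2, hyz.2.2.1⟩
    refine ⟨fun w => ε w + if w = (min y.1 z.1, min y.2 z.2) then 1 else 0, fun w hw => ?_,
      fun w hw => ?_⟩
    · by_cases h3 : w = (min y.1 z.1, min y.2 z.2)
      · rw [h3]; exact hv
      · beta_reduce at hw
        rw [if_neg h3, add_zero] at hw
        exact h1 w hw
    · rw [deg_add, h2 w hw, deg_one hw]
      have hne : y ≠ z := by
        intro h
        have := hyz.1
        rw [h] at this
        omega
      have h4 : ((if w = c1 c (min y.1 z.1, min y.2 z.2) then (1 : ZMod 2) else 0) +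
          if w = c2 c (min y.1 z.1, min y.2 z.2) then 1 else 0) =
          (if w = y then 1 else 0) + if w = z then 1 else 0 := by
        have k1 := g3 _ (c1_cor c _)
        have k2 := g3 _ (c2_cor c _)
        have k3 := cor_c g1
        have k4 := cor_c g2
        rcases k1 with k1 | k1
        · rw [k1] at k3 k4 ⊢
          rcases k2 with k2 | k2
          · exfalso
            rcases k4 with k4 | k4
            · exact hne k4.symm
            · exact hne (k2.symm.trans k4.symm)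
          · rw [k2]
        · rw [k1] at k3 k4 ⊢
          rcases k2 with k2 | k2
          · rw [k2, add_comm]
          · exfalso
            rcases k3 with k3 | k3
            · exact hne k3
            · exact hne (k3.trans k2)
      rw [h4]
      linear_combination z2_add_self (if w = y then (1 : ZMod 2) else 0)

/-- Potentials are constant along paths off the chain. -/
theorem pot_path {N ε : ℤ × ℤ → ZMod 2} (hN : ∀ v, N (c1 c v) + N (c2 c v) = ε v)
    (h0 : ∀ v ∈ G, ω v = c → ε v = 0) {x y : ℤ × ℤ} (hx : (x.1 + x.2) % 2 = pr c)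
    (h : Pw (cs c ω ∩ ↑G) x y) : N x = N y := by
  induction h with
  | refl => rfl
  | @tail y z hy hyz ih =>
    have hyp : (y.1 + y.2) % 2 = pr c := by rw [← hx]; exact (Pw.parity hy).symm
    obtain ⟨g1, g2, g3⟩ := cor_of_step hyz hyp
    have h1 := hN (min y.1 z.1, min y.2 z.2)
    rw [h0 _ hyz.2.2.2 hyz.2.2.1] at h1
    have h2 : N (c1 c (min y.1 z.1, min y.2 z.2)) = N (c2 c (min y.1 z.1, min y.2 z.2)) := by
      linear_combination h1 - z2_add_self (N (c2 c (min y.1 z.1, min y.2 z.2)))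
    rw [ih]
    generalize hv : (min y.1 z.1, min y.2 z.2) = v at *
    rcases cor_c g1 with k1 | k1 <;> rcases cor_c g2 with k2 | k2 <;> rw [k1, k2]
    · exact h2
    · exact h2.symm

/-! ### The closing chain -/

open Classical in
/-- The indicator of the positions strictly between `i` and `j`. -/
noncomputable def Mid (q : ZMod n → ℤ × ℤ) (i j : ℕ) (s : ℤ × ℤ) : ZMod 2 :=
  if ∃ k : ℕ, i < k ∧ k < j ∧ q (k : ZMod n) = s then 1 else 0

theorem mid_pos (hq : IsPolygon q) (hj : j ≤ n) {k : ℕ} (hk : k ≤ n) :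
    Mid q i j (q (k : ZMod n)) = if i < k ∧ k < j then 1 else 0 := by
  unfold Mid
  by_cases h : i < k ∧ k < j
  · rw [if_pos h, if_pos ⟨k, h.1, h.2, rfl⟩]
  · rw [if_neg h, if_neg]
    rintro ⟨l, h1, h2, h3⟩
    rcases Nat.lt_or_ge k n with h4 | h4
    · have := q_inj hq (by omega) h4 h3
      subst this
      exact h ⟨h1, h2⟩
    · have h5 : k = n := le_antisymm hk h4
      rw [h5, ZMod.natCast_self] at h3
      have h6 := q_inj hq (k := l) (l := 0) (by omega) (by have := hq.1; omega)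
        (by rw [h3]; simp)
      omega

/-- The coboundary of the middle part. -/
theorem mid_rel (hq : IsPolygon q) (hij : i < j) (hj : j ≤ n)
    (hi : ((q (i : ZMod n)).1 + (q (i : ZMod n)).2) % 2 = pr (!c))
    (hjc : ((q (j : ZMod n)).1 + (q (j : ZMod n)).2) % 2 = pr (!c)) (k : ZMod n)
    (hk : ((q k).1 + (q k).2) % 2 = pr (!c)) :
    Mid q i j (q (k + 1)) + Mid q i j (q (k - 1)) =
      (if q k = q (i : ZMod n) then 1 else 0) + (if q k = q (j : ZMod n) then 1 else 0) := by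
  have hn := hq.1
  have : NeZero n := ⟨by omega⟩
  obtain ⟨l, hl, rfl⟩ : ∃ l : ℕ, l < n ∧ (l : ZMod n) = k :=
    ⟨k.val, ZMod.val_lt k, ZMod.natCast_zmod_val k⟩
  have hij2 := par_even hq hi hjc
  have hil := par_even hq hi hk
  have hjl := par_even hq hjc hk
  have e1 : q ((l : ZMod n) + 1) = q ((l + 1 : ℕ) : ZMod n) := by rw [Nat.cast_succ]
  have q1 : (q (l : ZMod n) = q (i : ZMod n)) ↔ l = i := by
    constructor
    · intro h
      exact q_inj hq hl (by omega) h
    · rintro rfl; rfl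
  rw [e1, mid_pos hq hj (by omega)]
  rcases Nat.eq_zero_or_pos l with h0 | h0
  · subst h0
    have e2 : q (((0 : ℕ) : ZMod n) - 1) = q ((n - 1 : ℕ) : ZMod n) := by
      congr 1
      rw [Nat.cast_sub (by omega), ZMod.natCast_self]
      simp
    have q2 : (q ((0 : ℕ) : ZMod n) = q (j : ZMod n)) ↔ j = n := by
      constructor
      · intro h
        rcases Nat.lt_or_ge j n with h4 | h4
        · have := q_inj hq (by omega) h4 h
          omega
        · exact le_antisymm hj h4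
      · rintro rfl
        rw [ZMod.natCast_self, Nat.cast_zero]
    rw [e2, mid_pos hq hj (by omega)]
    simp only [q1, q2]
    -- parity of `n`
    have hjn : (j + n) % 2 = 0 := by
      refine par_even hq hjc ?_
      rw [ZMod.natCast_self]
      simpa using hk
    by_cases h1 : i = 0
    · by_cases h2 : j = n
      · rw [if_pos (by omega), if_pos (by omega), if_pos (by omega), if_pos h2]
      · rw [if_pos (by omega), if_neg (by omega), if_pos (by omega), if_neg h2]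
    · by_cases h2 : j = n
      · rw [if_neg (by omega), if_pos (by omega), if_neg (by omega), if_pos h2]
      · rw [if_neg (by omega), if_neg (by omega), if_neg (by omega), if_neg h2]
  · have e2 : q ((l : ZMod n) - 1) = q ((l - 1 : ℕ) : ZMod n) := by
      congr 1
      rw [Nat.cast_sub h0]
      simp
    have q2 : (q (l : ZMod n) = q (j : ZMod n)) ↔ l = j := by
      constructor
      · intro h
        rcases Nat.lt_or_ge j n with h4 | h4
        · exact q_inj hq hl h4 h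
        · have h5 : j = n := le_antisymm hj h4
          rw [h5, ZMod.natCast_self] at h
          have h6 := q_inj hq (k := l) (l := 0) hl (by omega) (by rw [h]; simp)
          omega
      · rintro rfl; rfl
    rw [e2, mid_pos hq hj (by omega)]
    simp only [q1, q2]
    by_cases h1 : l = i
    · rw [if_pos (by omega), if_neg (by omega), if_pos h1, if_neg (by omega)]
    · by_cases h2 : l = j
      · rw [if_neg (by omega), if_pos (by omega), if_neg h1, if_pos h2]
      · rw [if_neg h1, if_neg h2]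
        by_cases h3 : i < l ∧ l < j
        · rw [if_pos (by omega), if_pos (by omega), z2_add_self, add_zero]
        · rw [if_neg (by omega), if_neg (by omega)]

/-! ### Exclusion -/

/-- **The potential of a closed path.** -/
theorem exists_N (hq : IsPolygon q) (hI : Encloses q I) {a1 b1 a2 b2 : ℤ}
    (hBe : B = Ico a1 b1 ×ˢ Ico a2 b2) (hij : i < j) (hj : j ≤ n)
    (hi : ((q (i : ZMod n)).1 + (q (i : ZMod n)).2) % 2 = pr (!c))
    (hjc : ((q (j : ZMod n)).1 + (q (j : ZMod n)).2) % 2 = pr (!c))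
    (hB : ∀ k : ℕ, i < k → k < j → ∀ v, IsC v (q (k : ZMod n)) → v ∈ B)
    (h0 : ∃ v, v ∉ B ∧ IsC v (q 0)) (h1 : ∃ v, v ∉ B ∧ IsC v (q 1))
    (hP : Pw (cs (!c) ω ∩ ↑(B \ I)) (q (i : ZMod n)) (q (j : ZMod n))) :
    ∃ N : ℤ × ℤ → ZMod 2, (∀ k : ℕ, k ≤ n →
        ((q (k : ZMod n)).1 + (q (k : ZMod n)).2) % 2 = pr c →
        N (q (k : ZMod n)) = Mid q i j (q (k : ZMod n))) ∧
      (∀ s v : ℤ × ℤ, (s.1 + s.2) % 2 = pr c → v ∉ B → IsC v s → N s = 0) ∧
      ∀ x y : ℤ × ℤ, (x.1 + x.2) % 2 = pr c → Pw (cs c ω ∩ ↑(B \ I)) x y → N x = N y := by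
  obtain ⟨ε, e1, e2⟩ := path_chain hi hP
  set M := Mid q i j with hM
  have hcl : Closed c (fun v => ε v + inI I v * (M (c1 c v) + M (c2 c v))) := by
    refine closed_of ?_
    intro x hx
    rw [deg_add, e2 x hx]
    have h2 : deg (fun v => inI I v * (M (c1 c v) + M (c2 c v))) x =
        ∑ r : Fin 4, inI I (face x r) * (M (x + dir r) + M (x + dir (r + 1))) := by
      unfold deg
      exact sum_congr rfl fun r _ => by beta_reduce; rw [c_face M hx]
    rw [h2]
    by_cases h3 : ∃ k, q k = x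
    · obtain ⟨k, rfl⟩ := h3
      rw [fan hq hI, mid_rel hq hij hj hi hjc k hx, z2_add_self]
    · push Not at h3
      rw [fan_off hI h3, add_zero, if_neg (fun h => h3 _ h.symm), if_neg (fun h => h3 _ h.symm),
        add_zero]
  have hsu : ∀ v, (fun v => ε v + inI I v * (M (c1 c v) + M (c2 c v))) v ≠ 0 →
      (a1 ≤ v.1 ∧ v.1 < b1) ∧ a2 ≤ v.2 ∧ v.2 < b2 := by
    intro v hv
    have hvB : v ∈ B := by
      by_contra hvB
      have h2 : ε v = 0 := by
        by_contra h2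
        exact hvB (mem_sdiff.1 (e1 v h2).1).1
      have h3 : ∀ s, IsC v s → M s = 0 := by
        intro s hs
        rw [hM, Mid, if_neg]
        rintro ⟨k, k1, k2, rfl⟩
        exact hvB (hB k k1 k2 v hs)
      have h4 : ∀ s, Cor c v s → IsC v s := fun s hs => ⟨hs.1, hs.2.1⟩
      beta_reduce at hv
      rw [h2, h3 _ (h4 _ (c1_cor c v)), h3 _ (h4 _ (c2_cor c v))] at hv
      exact hv (by ring)
    rw [hBe, mem_product, mem_Ico, mem_Ico] at hvB
    exact hvB
  obtain ⟨N, n1, n2⟩ := exists_pot2 hcl hsu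
  have far : ∀ s v : ℤ × ℤ, (s.1 + s.2) % 2 = pr c → v ∉ B → IsC v s → N s = 0 := by
    intro s v hs hv hvs
    refine n2 s hs ?_
    rw [hBe, mem_product, mem_Ico, mem_Ico] at hv
    obtain ⟨h2, h3⟩ := hvs
    omega
  refine ⟨N, ?_, far, ?_⟩
  · -- along the contour
    intro k
    induction k using Nat.strong_induction_on with
    | _ k ih =>
      intro hk hkc
      rcases Nat.lt_or_ge k 2 with h2 | h2
      · rcases Nat.lt_or_ge k 1 with h3 | h3
        · obtain rfl : k = 0 := by omega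
          obtain ⟨v, hv, hvs⟩ := h0
          rw [Nat.cast_zero] at hkc
          rw [hM, mid_pos hq hj (Nat.zero_le _), if_neg (by omega), Nat.cast_zero]
          exact far _ v hkc hv hvs
        · obtain rfl : k = 1 := by omega
          obtain ⟨v, hv, hvs⟩ := h1
          have h4 : ¬ (i < 1 ∧ 1 < j) := by
            rintro ⟨h4, h5⟩
            refine hv (hB 1 h4 h5 v ?_)
            rw [Nat.cast_one]
            exact hvs
          rw [Nat.cast_one] at hkc
          rw [hM, mid_pos hq hj hk, if_neg h4, Nat.cast_one]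
          exact far _ v hkc hv hvs
      · obtain ⟨l, rfl⟩ : ∃ l, k = l + 2 := ⟨k - 2, by omega⟩
        have hl1 : ((q ((l + 1 : ℕ) : ZMod n)).1 + (q ((l + 1 : ℕ) : ZMod n)).2) % 2 = pr (!c) := by
          have h3 := par_next (c := !c) hq ((l + 1 : ℕ) : ZMod n)
          rw [← Nat.cast_succ] at h3
          have h4 := par_next (c := c) hq ((l + 1 : ℕ) : ZMod n)
          rw [← Nat.cast_succ] at h4
          exact h4.1 hkc
        have hl0 := par_nat hq (l + 2) l (by omega) hkc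
        have h3 := ih l (by omega) (by omega) hl0
        have h4 := fan hq hI N ((l + 1 : ℕ) : ZMod n)
        have h5 := fan hq hI M ((l + 1 : ℕ) : ZMod n)
        have h6 : ∑ r : Fin 4, inI I (face (q ((l + 1 : ℕ) : ZMod n)) r) *
            (N (q ((l + 1 : ℕ) : ZMod n) + dir r) + N (q ((l + 1 : ℕ) : ZMod n) + dir (r + 1))) =
            ∑ r : Fin 4, inI I (face (q ((l + 1 : ℕ) : ZMod n)) r) *
            (M (q ((l + 1 : ℕ) : ZMod n) + dir r) + M (q ((l + 1 : ℕ) : ZMod n) + dir (r + 1))) := by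
          refine sum_congr rfl fun r _ => ?_
          rw [← c_face N hl1, ← c_face M hl1, n1]
          unfold inI
          by_cases h7 : face (q ((l + 1 : ℕ) : ZMod n)) r ∈ I
          · rw [if_pos h7]
            have h8 : ε (face (q ((l + 1 : ℕ) : ZMod n)) r) = 0 := by
              by_contra h8
              exact (mem_sdiff.1 (e1 _ h8).1).2 h7
            rw [h8]
            ring
          · rw [if_neg h7]
            ring
        rw [h4, h5] at h6
        have e3 : ((l + 1 : ℕ) : ZMod n) + 1 = ((l + 2 : ℕ) : ZMod n) := by push_cast; ring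
        have e4 : ((l + 1 : ℕ) : ZMod n) - 1 = ((l : ℕ) : ZMod n) := by push_cast; ring
        rw [e3, e4, h3] at h6
        exact add_right_cancel h6
  · -- along paths
    intro x y hx hxy
    refine pot_path n1 (fun v hv hvc => ?_) hx hxy
    have h2 : ε v = 0 := by
      by_contra h2
      have := (e1 v h2).2
      rw [hvc] at this
      cases c <;> simp at this
    rw [h2]
    unfold inI
    rw [if_neg (mem_sdiff.1 hv).2]
    ring

/-! ### Existence -/

/-- The value of the clusters. -/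
noncomputable def fC (c : Bool) (G X₂ X₁ : Set (ℤ × ℤ)) (ω : Cfg) (s : ℤ × ℤ) : ZMod 2 := by
  classical
  exact if (s.1 + s.2) % 2 = pr c then (if s ∈ Cl c G X₂ ω then 1 else 0)
    else if s ∈ Cl (!c) G X₁ ω then 1 else 0

theorem fC_c {c : Bool} {G X₂ X₁ : Set (ℤ × ℤ)} {ω : Cfg} {s : ℤ × ℤ}
    (h : (s.1 + s.2) % 2 = pr c) [Decidable (s ∈ Cl c G X₂ ω)] :
    fC c G X₂ X₁ ω s = if s ∈ Cl c G X₂ ω then 1 else 0 := by
  unfold fC
  rw [if_pos h]
  congr

theorem fC_n {c : Bool} {G X₂ X₁ : Set (ℤ × ℤ)} {ω : Cfg} {s : ℤ × ℤ}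
    (h : (s.1 + s.2) % 2 = pr (!c)) [Decidable (s ∈ Cl (!c) G X₁ ω)] :
    fC c G X₂ X₁ ω s = if s ∈ Cl (!c) G X₁ ω then 1 else 0 := by
  unfold fC
  rw [if_neg (pr_ne.2 h)]
  congr

theorem cl_two {c : Bool} {G X : Set (ℤ × ℤ)} {ω : Cfg} {v : ℤ × ℤ} (hv : v ∈ G) (hc : ω v = c) :
    c1 c v ∈ Cl c G X ω ↔ c2 c v ∈ Cl c G X ω := by
  have h1 : Pw (cs c ω ∩ G) (c1 c v) (c2 c v) :=
    pw_of_cor (F := cs c ω ∩ G) ⟨hc, hv⟩ (c1_cor c v) (c2_cor c v)
  constructor
  · rintro ⟨s, hs, h⟩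
    exact ⟨s, hs, h.trans h1⟩
  · rintro ⟨s, hs, h⟩
    exact ⟨s, hs, h.trans h1.symm⟩

/-- The hypothesis of `stokes`. -/
theorem fC_sq {c : Bool} {G : Finset (ℤ × ℤ)} {X₂ X₁ : Set (ℤ × ℤ)} {ω : Cfg} :
    ∀ v ∈ G, (fC c ↑G X₂ X₁ ω v + fC c ↑G X₂ X₁ ω (v + (1, 1))) *
      (fC c ↑G X₂ X₁ ω (v + (1, 0)) + fC c ↑G X₂ X₁ ω (v + (0, 1))) = 0 := by
  classical
  intro v hv
  have key : ∀ c', (fC c ↑G X₂ X₁ ω (c1 c' v) + fC c ↑G X₂ X₁ ω (c2 c' v)) *
      (fC c ↑G X₂ X₁ ω (c1 (!c') v) + fC c ↑G X₂ X₁ ω (c2 (!c') v)) =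
      (fC c ↑G X₂ X₁ ω v + fC c ↑G X₂ X₁ ω (v + (1, 1))) *
      (fC c ↑G X₂ X₁ ω (v + (1, 0)) + fC c ↑G X₂ X₁ ω (v + (0, 1))) := by
    intro c'
    unfold c1 c2
    by_cases h : (v.1 + v.2) % 2 = pr c'
    · rw [if_pos h, if_pos h, if_neg (pr_ne'.2 h), if_neg (pr_ne'.2 h)]
    · rw [if_neg h, if_neg h, if_pos (pr_ne.1 h), if_pos (pr_ne.1 h)]
      ring
  rw [← key c]
  by_cases hc : ω v = c
  · have h1 := (cl_two (X := X₂) (mem_coe.2 hv) hc)
    rw [fC_c (c1_cor c v).2.2, fC_c (c2_cor c v).2.2]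
    simp only [h1]
    rw [z2_add_self, zero_mul]
  · have hc' : ω v = !c := by cases c <;> simpa using hc
    have h1 := (cl_two (X := X₁) (mem_coe.2 hv) hc')
    rw [fC_n (c1_cor (!c) v).2.2, fC_n (c2_cor (!c) v).2.2]
    simp only [h1]
    rw [z2_add_self, mul_zero]

/-- The sum over the contour. -/
theorem contour_sum (hq : IsPolygon q) (hI : Encloses q I) (f : ℤ × ℤ → ZMod 2) :
    ∑ p ∈ ((B \ I) ×ˢ (univ : Finset (Fin 4))) with rf p.1 p.2 ∈ I,
      f (st p.1 p.2) * f (st p.1 p.2 + dir p.2) =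
    ∑ k ∈ range n, if face (q (k : ZMod n)) (E2.ro q (k : ZMod n) - 1) ∈ B then
      f (q (k : ZMod n)) * f (q ((k + 1 : ℕ) : ZMod n)) else 0 := by
  have hn := hq.1
  have : NeZero n := ⟨by omega⟩
  rw [← sum_filter]
  symm
  have e4 : ∀ r : Fin 4, r + 2 + 2 = r := by decide
  refine sum_bij (fun k _ => (face (q (k : ZMod n)) (E2.ro q (k : ZMod n) - 1),
    E2.ro q (k : ZMod n) + 2)) ?_ ?_ ?_ ?_
  · intro k hk
    rw [mem_filter] at hk
    have h1 := (hI _ _).1 ⟨(k : ZMod n), rfl, E2.ro_spec hq (k : ZMod n)⟩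
    simp only [mem_filter, mem_product, mem_univ, and_true, mem_sdiff]
    refine ⟨⟨hk.2, h1.2⟩, ?_⟩
    rw [← rf_face, rf_rf]
    exact h1.1
  · intro k hk l hl h
    rw [mem_filter, mem_range] at hk hl
    obtain ⟨h1, h2⟩ := Prod.ext_iff.1 h
    dsimp only at h1 h2
    have h3 : E2.ro q (k : ZMod n) = E2.ro q (l : ZMod n) := add_right_cancel h2
    rw [h3, ← rf_face, ← rf_face] at h1
    have h4 : face (q (k : ZMod n)) (E2.ro q (l : ZMod n)) =
        face (q (l : ZMod n)) (E2.ro q (l : ZMod n)) := by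
      rw [← rf_rf (face (q (k : ZMod n)) _) (E2.ro q (l : ZMod n)), h1, rf_rf]
    have h5 : q (k : ZMod n) = q (l : ZMod n) := by
      rw [← st_face (q (k : ZMod n)) (E2.ro q (l : ZMod n)), h4, st_face]
    exact q_inj hq hk.1 hl.1 h5
  · rintro ⟨u, s⟩ h
    simp only [mem_filter, mem_product, mem_univ, and_true, mem_sdiff] at h
    obtain ⟨⟨h1, h2⟩, h3⟩ := h
    have h4 : rf (rf u s) (s + 2) = u := rf_rf u s
    obtain ⟨k, k1, k2⟩ := (hI (st (rf u s) (s + 2)) (s + 2)).2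
      ⟨by rw [face_st]; exact h3, by rw [face_st', h4]; exact h2⟩
    have k3 : s + 2 = E2.ro q k := E2.ro_unique hq (by rw [k1]; exact k2)
    have k4 : ((k.val : ℕ) : ZMod n) = k := ZMod.natCast_zmod_val k
    have k5 : face (q k) (E2.ro q k - 1) = u := by
      rw [← k3, k1, face_st', h4]
    refine ⟨k.val, ?_, ?_⟩
    · rw [mem_filter, mem_range, k4, k5]
      exact ⟨ZMod.val_lt k, h1⟩
    · rw [k4, k5, ← k3, e4]
  · intro k hk
    have e1 : st (face (q (k : ZMod n)) (E2.ro q (k : ZMod n) - 1)) (E2.ro q (k : ZMod n) + 2) =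
        q ((k + 1 : ℕ) : ZMod n) := by
      rw [← rf_face, st_rf, st_face, Nat.cast_succ, ← E2.ro_spec hq]
    have e2 : st (face (q (k : ZMod n)) (E2.ro q (k : ZMod n) - 1)) (E2.ro q (k : ZMod n) + 2) +
        dir (E2.ro q (k : ZMod n) + 2) = q (k : ZMod n) := by
      rw [← rf_face, st_dir, st_face]
    dsimp only
    rw [e2, e1, mul_comm]

theorem tel (g : ℕ → ZMod 2) {a b : ℕ} (h : a ≤ b) :
    ∑ k ∈ Ico a b, (g k + g (k + 1)) = g a + g b := by
  induction b, h using Nat.le_induction with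
  | base => simp [z2_add_self]
  | succ b hb ih =>
    rw [sum_Ico_succ_top hb, ih]
    linear_combination z2_add_self (g b)

theorem isC_st (v : ℤ × ℤ) (r : Fin 4) : IsC v (st v r) ∧ IsC v (st v r + dir r) := by
  obtain ⟨v1, v2⟩ := v
  fin_cases r <;> simp [st, dir, IsC]

/-- The far sites of colour `c`: the corners of the squares off `B` and the positions outside of
`(a, d)`. -/
def Fr (q : ZMod n → ℤ × ℤ) (c : Bool) (B : Finset (ℤ × ℤ)) (a d : ℕ) : Set (ℤ × ℤ) :=
  {s | (s.1 + s.2) % 2 = pr c ∧ ((∃ v, v ∉ B ∧ IsC v s) ∨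
    ∃ k : ℕ, k ≤ n ∧ (k ≤ a ∨ d ≤ k) ∧ q (k : ZMod n) = s)}

/-- Two neighbours have different colours. -/
theorem par_cases (hq : IsPolygon q) (c : Bool) (k : ℕ) :
    (((q (k : ZMod n)).1 + (q (k : ZMod n)).2) % 2 = pr c ∧
      ((q ((k + 1 : ℕ) : ZMod n)).1 + (q ((k + 1 : ℕ) : ZMod n)).2) % 2 = pr (!c)) ∨
    (((q (k : ZMod n)).1 + (q (k : ZMod n)).2) % 2 = pr (!c) ∧
      ((q ((k + 1 : ℕ) : ZMod n)).1 + (q ((k + 1 : ℕ) : ZMod n)).2) % 2 = pr c) := by
  by_cases h : ((q (k : ZMod n)).1 + (q (k : ZMod n)).2) % 2 = pr c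
  · refine Or.inl ⟨h, ?_⟩
    rw [Nat.cast_succ, par_next hq, Bool.not_not]
    exact h
  · refine Or.inr ⟨pr_ne.1 h, ?_⟩
    rw [Nat.cast_succ, par_next hq]
    exact pr_ne.1 h

/-- **Duality in `B \ I`.** -/
theorem quad_ext (hq : IsPolygon q) (hI : Encloses q I) {a1 b1 a2 b2 : ℤ}
    (hBe : B = Ico a1 b1 ×ˢ Ico a2 b2) (hab : a ≤ b) (hbm : b ≤ m) (hmd : m ≤ d) (hd : d ≤ n)
    (hB : ∀ k : ℕ, a ≤ k → k ≤ d → ∀ v, IsC v (q (k : ZMod n)) → v ∈ B)
    (h0 : ∃ v, v ∉ B ∧ IsC v (q 0)) (h1 : ∃ v, v ∉ B ∧ IsC v (q 1)) :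
    Quad c ↑(B \ I) (Ar q c b m) (Fr q c B a d) (Ar q (!c) a b) (Ar q (!c) m d) := by
  classical
  refine ⟨fun u hu => hu.1, fun u hu => hu.1, fun u hu => hu.1, fun u hu => hu.1,
    fun ω => ⟨?_, fun hno => ?_⟩⟩
  · -- exclusion
    rintro ⟨x, ⟨hx, k, k1, k2, rfl⟩, s, ⟨hs, hs2⟩, hxs⟩ ⟨y, ⟨hy, i, i1, i2, rfl⟩, z, ⟨hz, j, j1, j2, rfl⟩,
      hyz⟩
    have p1 := par_odd hq hx hy
    have p2 := par_odd hq hx hz
    obtain ⟨N, n1, n2, n3⟩ := exists_N (c := c) hq hI hBe (show i < j by omega) (j2.trans hd) hy hz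
      (fun k g1 g2 => hB k (by omega) (by omega)) h0 h1 hyz
    have e1 := n3 _ _ hx hxs
    rw [n1 k (by omega) hx, mid_pos hq (j2.trans hd) (by omega), if_pos (by omega)] at e1
    have e2 : N s = 0 := by
      rcases hs2 with ⟨v, hv, hvs⟩ | ⟨l, l1, l2, rfl⟩
      · exact n2 s v hs hv hvs
      · rw [n1 l l1 hs, mid_pos hq (j2.trans hd) l1, if_neg (by omega)]
    rw [e2] at e1
    exact one_ne_zero e1
  · -- existence
    by_contra hno'
    set f := fC c ↑(B \ I) (Ar q c b m) (Ar q (!c) a b) ω with hf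
    have fF : ∀ s ∈ Fr q c B a d, f s = 0 := by
      intro s hs
      rw [hf, fC_c hs.1, if_neg]
      rintro ⟨x, hx, h⟩
      exact hno' ⟨x, hx, s, hs, h⟩
    have fX2 : ∀ s ∈ Ar q c b m, f s = 1 := by
      intro s hs
      rw [hf, fC_c hs.1, if_pos (Cl_seed hs)]
    have fX1 : ∀ s ∈ Ar q (!c) a b, f s = 1 := by
      intro s hs
      rw [hf, fC_n hs.1, if_pos (Cl_seed hs)]
    have fX3 : ∀ s ∈ Ar q (!c) m d, f s = 0 := by
      intro s hs
      rw [hf, fC_n hs.1, if_neg]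
      rintro ⟨x, hx, h⟩
      exact hno ⟨x, hx, s, hs, h⟩
    have hst := stokes (B \ I) f fC_sq
    have hsub : ∑ p ∈ ((B \ I) ×ˢ (univ : Finset (Fin 4))) with rf p.1 p.2 ∈ I,
        f (st p.1 p.2) * f (st p.1 p.2 + dir p.2) = 0 := by
      rw [← hst]
      refine sum_subset (fun p hp => ?_) fun p hp hp' => ?_
      · rw [mem_filter] at hp ⊢
        exact ⟨hp.1, fun h => (mem_sdiff.1 h).2 hp.2⟩
      · rw [mem_filter] at hp hp'
        have g1 : rf p.1 p.2 ∉ I := fun h => hp' ⟨hp.1, h⟩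
        have g2 : rf p.1 p.2 ∉ B := fun h => hp.2 (mem_sdiff.2 ⟨h, g1⟩)
        have g3 := isC_st (rf p.1 p.2) (p.2 + 2)
        rw [st_dir, st_rf] at g3
        by_cases g4 : ((st p.1 p.2).1 + (st p.1 p.2).2) % 2 = pr c
        · rw [fF _ ⟨g4, Or.inl ⟨_, g2, g3.2⟩⟩, zero_mul]
        · rw [fF (st p.1 p.2 + dir p.2) ⟨(dir_par _ _).2 (pr_ne.1 g4), Or.inl ⟨_, g2, g3.1⟩⟩,
            mul_zero]
    rw [contour_sum hq hI] at hsub
    set φ : ℕ → ZMod 2 := fun k => if face (q (k : ZMod n)) (E2.ro q (k : ZMod n) - 1) ∈ B then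
      f (q (k : ZMod n)) * f (q ((k + 1 : ℕ) : ZMod n)) else 0 with hφ
    change ∑ k ∈ range n, φ k = 0 at hsub
    have z1 : ∀ k : ℕ, f (q (k : ZMod n)) = 0 ∨ f (q ((k + 1 : ℕ) : ZMod n)) = 0 → φ k = 0 := by
      intro k h
      rw [hφ]
      beta_reduce
      split_ifs
      · rcases h with h | h <;> rw [h] <;> ring
      · rfl
    have s1 : ∑ k ∈ Ico 0 a, φ k = 0 := by
      refine sum_eq_zero fun k hk => z1 k ?_
      rw [mem_Ico] at hk
      rcases par_cases hq c k with ⟨g, -⟩ | ⟨-, g⟩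
      · exact Or.inl (fF _ ⟨g, Or.inr ⟨k, by omega, Or.inl (by omega), rfl⟩⟩)
      · exact Or.inr (fF _ ⟨g, Or.inr ⟨k + 1, by omega, Or.inl (by omega), rfl⟩⟩)
    have s4 : ∑ k ∈ Ico m n, φ k = 0 := by
      refine sum_eq_zero fun k hk => z1 k ?_
      rw [mem_Ico] at hk
      rcases Nat.lt_or_ge k d with hkd | hkd
      · rcases par_cases hq c k with ⟨-, g⟩ | ⟨g, -⟩
        · exact Or.inr (fX3 _ ⟨g, k + 1, by omega, by omega, rfl⟩)
        · exact Or.inl (fX3 _ ⟨g, k, by omega, by omega, rfl⟩)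
      · rcases par_cases hq c k with ⟨g, -⟩ | ⟨-, g⟩
        · exact Or.inl (fF _ ⟨g, Or.inr ⟨k, by omega, Or.inr (by omega), rfl⟩⟩)
        · exact Or.inr (fF _ ⟨g, Or.inr ⟨k + 1, by omega, Or.inr (by omega), rfl⟩⟩)
    have inB : ∀ k, a ≤ k → k ≤ d → face (q (k : ZMod n)) (E2.ro q (k : ZMod n) - 1) ∈ B :=
      fun k g1 g2 => hB k g1 g2 _ (isC_face _ _)
    have s2 : ∑ k ∈ Ico a b, φ k = f (q (b : ZMod n)) *
        (if ((q (b : ZMod n)).1 + (q (b : ZMod n)).2) % 2 = pr c then 1 else 0) := by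
      have h2 := tel (fun k => f (q (k : ZMod n)) *
        (if ((q (k : ZMod n)).1 + (q (k : ZMod n)).2) % 2 = pr c then 1 else 0)) hab
      have h3 : f (q (a : ZMod n)) *
          (if ((q (a : ZMod n)).1 + (q (a : ZMod n)).2) % 2 = pr c then 1 else 0) = 0 := by
        split_ifs with g
        · rw [fF _ ⟨g, Or.inr ⟨a, by omega, Or.inl le_rfl, rfl⟩⟩, zero_mul]
        · rw [mul_zero]
      beta_reduce at h2
      rw [h3, zero_add] at h2
      rw [← h2]
      refine sum_congr rfl fun k hk => ?_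
      rw [mem_Ico] at hk
      rw [hφ]
      beta_reduce
      rw [if_pos (inB k hk.1 (by omega))]
      rcases par_cases hq c k with ⟨g, g'⟩ | ⟨g, g'⟩
      · rw [if_pos g, if_neg (pr_ne.2 g'), fX1 _ ⟨g', k + 1, by omega, by omega, rfl⟩]
        ring
      · rw [if_pos g', if_neg (pr_ne.2 g), fX1 (q (k : ZMod n)) ⟨g, k, by omega, by omega, rfl⟩]
        ring
    have s3 : ∑ k ∈ Ico b m, φ k = f (q (b : ZMod n)) *
        (if ((q (b : ZMod n)).1 + (q (b : ZMod n)).2) % 2 = pr (!c) then 1 else 0) := by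
      have h2 := tel (fun k => f (q (k : ZMod n)) *
        (if ((q (k : ZMod n)).1 + (q (k : ZMod n)).2) % 2 = pr (!c) then 1 else 0)) hbm
      have h3 : f (q (m : ZMod n)) *
          (if ((q (m : ZMod n)).1 + (q (m : ZMod n)).2) % 2 = pr (!c) then 1 else 0) = 0 := by
        split_ifs with g
        · rw [fX3 _ ⟨g, m, by omega, by omega, rfl⟩, zero_mul]
        · rw [mul_zero]
      beta_reduce at h2
      rw [h3, add_zero] at h2
      rw [← h2]
      refine sum_congr rfl fun k hk => ?_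
      rw [mem_Ico] at hk
      rw [hφ]
      beta_reduce
      rw [if_pos (inB k (by omega) (by omega))]
      rcases par_cases hq c k with ⟨g, g'⟩ | ⟨g, g'⟩
      · rw [if_pos g', if_neg (pr_ne'.2 g), fX2 (q (k : ZMod n)) ⟨g, k, by omega, by omega, rfl⟩]
        ring
      · rw [if_pos g, if_neg (pr_ne'.2 g'), fX2 _ ⟨g', k + 1, by omega, by omega, rfl⟩]
        ring
    rw [range_eq_Ico, ← sum_Ico_consecutive φ (Nat.zero_le a) (show a ≤ n by omega),
      ← sum_Ico_consecutive φ hab (show b ≤ n by omega),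
      ← sum_Ico_consecutive φ hbm (show m ≤ n by omega), s1, s2, s3, s4] at hsub
    by_cases g : ((q (b : ZMod n)).1 + (q (b : ZMod n)).2) % 2 = pr c
    · rw [if_pos g, if_neg (pr_ne'.2 g), fX2 _ ⟨g, b, le_rfl, hbm, rfl⟩] at hsub
      revert hsub
      decide
    · rw [if_neg g, if_pos (pr_ne.1 g), fX1 _ ⟨pr_ne.1 g, b, hab, le_rfl, rfl⟩] at hsub
      revert hsub
      decide

/-- The dual form. -/
theorem quad_ext' (hq : IsPolygon q) (hI : Encloses q I) {a1 b1 a2 b2 : ℤ}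
    (hBe : B = Ico a1 b1 ×ˢ Ico a2 b2) (hab : a ≤ b) (hbm : b ≤ m) (hmd : m ≤ d) (hd : d ≤ n)
    (hB : ∀ k : ℕ, a ≤ k → k ≤ d → ∀ v, IsC v (q (k : ZMod n)) → v ∈ B)
    (h0 : ∃ v, v ∉ B ∧ IsC v (q 0)) (h1 : ∃ v, v ∉ B ∧ IsC v (q 1)) :
    Quad (!c) ↑(B \ I) (Ar q (!c) a b) (Ar q (!c) m d) (Ar q c b m) (Fr q c B a d) :=
  (quad_ext (c := c) hq hI hBe hab hbm hmd hd hB h0 h1).other

end Vale.Agent.P167.N.NET
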