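import Vale.Agent.P167.N.NET.Vrs

/-!
# P167, nets for `q < 1`: a tube around the tip of a slit

The slit: `{y = Y, x < X}`. The tube leads from the upper side of the slit around the tip to the lower
side.
-/

set_option autoImplicit false

namespace Vale.Agent.P167.N.NET

open Finset Vale.Agent.P167 Vale.Agent.P167.FK Vale.Agent.P167.H816 Vale.Agent.P167.H262
  Vale.Agent.P167.H632 Vale.Agent.P167.H871 Vale.Agent.P167.H192.TA

variable {Q : ℝ} {X Y k : ℤ} {e : Bool} {v : ℤ × ℤ}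

/-- Lower leg and bar. -/
noncomputable def rng1 (X Y k : ℤ) : Finset (ℤ × ℤ) :=
  Rsq (X - 8 * k) (X + 8 * k) (Y - 8 * k) (Y - 4 * k) ∪ Rsq (X - 8 * k) (X - 4 * k) (Y - 8 * k) Y

/-- Lower part and right part. -/
noncomputable def rng2 (X Y k : ℤ) : Finset (ℤ × ℤ) :=
  Rsq (X + 4 * k) (X + 8 * k) (Y - 8 * k) (Y + 8 * k) ∪ rng1 X Y k

/-- All parts except for the upper leg. -/
noncomputable def rng3 (X Y k : ℤ) : Finset (ℤ × ℤ) :=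
  Rsq (X - 8 * k) (X + 8 * k) (Y + 4 * k) (Y + 8 * k) ∪ rng2 X Y k

/-- **The tube around the tip.** -/
noncomputable def rng (X Y k : ℤ) : Finset (ℤ × ℤ) :=
  Rsq (X - 8 * k) (X - 4 * k) (Y + 1) (Y + 8 * k) ∪ rng3 X Y k

theorem mem_rng1 : v ∈ rng1 X Y k ↔
    (X - 8 * k ≤ v.1 ∧ v.1 < X + 8 * k ∧ Y - 8 * k ≤ v.2 ∧ v.2 < Y - 4 * k) ∨
    (X - 8 * k ≤ v.1 ∧ v.1 < X - 4 * k ∧ Y - 8 * k ≤ v.2 ∧ v.2 < Y) := by
  simp only [rng1, mem_union, mem_Rsq]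

theorem mem_rng2 : v ∈ rng2 X Y k ↔
    (X + 4 * k ≤ v.1 ∧ v.1 < X + 8 * k ∧ Y - 8 * k ≤ v.2 ∧ v.2 < Y + 8 * k) ∨
    (X - 8 * k ≤ v.1 ∧ v.1 < X + 8 * k ∧ Y - 8 * k ≤ v.2 ∧ v.2 < Y - 4 * k) ∨
    (X - 8 * k ≤ v.1 ∧ v.1 < X - 4 * k ∧ Y - 8 * k ≤ v.2 ∧ v.2 < Y) := by
  simp only [rng2, mem_union, mem_Rsq, mem_rng1]

theorem mem_rng3 : v ∈ rng3 X Y k ↔
    (X - 8 * k ≤ v.1 ∧ v.1 < X + 8 * k ∧ Y + 4 * k ≤ v.2 ∧ v.2 < Y + 8 * k) ∨
    (X + 4 * k ≤ v.1 ∧ v.1 < X + 8 * k ∧ Y - 8 * k ≤ v.2 ∧ v.2 < Y + 8 * k) ∨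
    (X - 8 * k ≤ v.1 ∧ v.1 < X + 8 * k ∧ Y - 8 * k ≤ v.2 ∧ v.2 < Y - 4 * k) ∨
    (X - 8 * k ≤ v.1 ∧ v.1 < X - 4 * k ∧ Y - 8 * k ≤ v.2 ∧ v.2 < Y) := by
  simp only [rng3, mem_union, mem_Rsq, mem_rng2]

theorem mem_rng : v ∈ rng X Y k ↔
    (X - 8 * k ≤ v.1 ∧ v.1 < X - 4 * k ∧ Y + 1 ≤ v.2 ∧ v.2 < Y + 8 * k) ∨
    (X - 8 * k ≤ v.1 ∧ v.1 < X + 8 * k ∧ Y + 4 * k ≤ v.2 ∧ v.2 < Y + 8 * k) ∨
    (X + 4 * k ≤ v.1 ∧ v.1 < X + 8 * k ∧ Y - 8 * k ≤ v.2 ∧ v.2 < Y + 8 * k) ∨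
    (X - 8 * k ≤ v.1 ∧ v.1 < X + 8 * k ∧ Y - 8 * k ≤ v.2 ∧ v.2 < Y - 4 * k) ∨
    (X - 8 * k ≤ v.1 ∧ v.1 < X - 4 * k ∧ Y - 8 * k ≤ v.2 ∧ v.2 < Y) := by
  simp only [rng, mem_union, mem_Rsq, mem_rng3]

/-- The ends of the tube are boundary sites. -/
theorem rng_up (hk : 1 ≤ k) : Hs e (Y + 1) (X - 8 * k) (X - 4 * k) ⊆ Bd e (rng X Y k) := by
  rintro y ⟨h1, h2, h3, h4⟩
  refine bd_of (v := (y.1, Y)) (fun h => ?_) (by unfold Cor; dsimp only; omega)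
  rw [mem_rng] at h
  dsimp only at h
  omega

theorem rng_low (hk : 1 ≤ k) : Hs e Y (X - 8 * k) (X - 4 * k) ⊆ Bd e (rng X Y k) := by
  rintro y ⟨h1, h2, h3, h4⟩
  refine bd_of (v := (y.1, Y)) (fun h => ?_) (by unfold Cor; dsimp only; omega)
  rw [mem_rng] at h
  dsimp only at h
  omega

/-- **The tube around the tip of a slit**: the constant does not depend on the scale. -/
theorem VT_ring (hQ : 0 < Q) (hQ1 : Q ≤ 1) (hV : VRS Q) : ∃ κ : ℝ, 0 < κ ∧ κ ≤ 1 ∧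
    ∀ (e : Bool) (X Y k : ℤ), 1 ≤ k →
      κ ≤ VT Q e (rng X Y k) (Hs e (Y + 1) (X - 8 * k) (X - 4 * k)) (Hs e Y (X - 8 * k) (X - 4 * k)) ∧
      κ ≤ VT Q e (rng X Y k) (Hs e Y (X - 8 * k) (X - 4 * k))
        (Hs e (Y + 1) (X - 8 * k) (X - 4 * k)) := by
  obtain ⟨κ, hκ, hκ1, hV⟩ := hV 4
  refine ⟨κ ^ 5, pow_pos hκ 5, pow_le_one₀ hκ.le hκ1, fun e X Y k hk => ?_⟩
  have v5 := (hV e (X - 8 * k) (X - 4 * k) (Y - 8 * k) Y (by omega) (by omega)).2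
    (by push_cast; omega)
  have v4 := (hV e (X - 8 * k) (X + 8 * k) (Y - 8 * k) (Y - 4 * k) (by omega) (by omega)).1
    (by push_cast; omega)
  have v3 := (hV e (X + 4 * k) (X + 8 * k) (Y - 8 * k) (Y + 8 * k) (by omega) (by omega)).2
    (by push_cast; omega)
  have v2 := (hV e (X - 8 * k) (X + 8 * k) (Y + 4 * k) (Y + 8 * k) (by omega) (by omega)).1
    (by push_cast; omega)
  have v1 := (hV e (X - 8 * k) (X - 4 * k) (Y + 1) (Y + 8 * k) (by omega) (by omega)).2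
    (by push_cast; omega)
  have t4 := (turn_HT (e := e) (T := Rsq (X - 8 * k) (X - 4 * k) (Y - 8 * k) Y)
    (A := Hs e (Y - 8 * k) (X - 8 * k) (X - 4 * k)) (B := Hs e Y (X - 8 * k) (X - 4 * k)) hQ hQ1
    (show X - 8 * k < X + 8 * k by omega) (show Y - 8 * k < Y - 4 * k by omega)
    (fun t ht ht' => by rw [mem_Rsq] at *; omega)
    (bd_bot fun t ht => (mem_Rsq.1 ht).2.2.1) (bd_top fun t ht => (mem_Rsq.1 ht).2.2.2)
    (fun y hy => ⟨hy.1, by have := hy.2.1; omega, by have := hy.2.2.1; omega, hy.2.2.2⟩)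
    (fun z hz => by have := hz.1; omega)).2
  have t3 := (turn_VL (e := e) (T := rng1 X Y k)
    (A := Vs e (X + 8 * k) (Y - 8 * k) (Y - 4 * k)) (B := Hs e Y (X - 8 * k) (X - 4 * k)) hQ hQ1
    (show X + 4 * k < X + 8 * k by omega) (show Y - 8 * k < Y + 8 * k by omega)
    (fun t ht ht' => by rw [mem_rng1] at ht; rw [mem_Rsq] at ht'; omega)
    (bd_right fun t ht => by rw [mem_rng1] at ht; omega)
    (fun x hx => by
      obtain ⟨x1, x2, x3, x4⟩ := hx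
      refine bd_of (v := (x.1, Y)) (fun hv => ?_) (by unfold Cor; dsimp only; omega)
      rw [mem_rng1] at hv
      dsimp only at hv
      omega)
    (fun y hy => ⟨hy.1, hy.2.1, by have := hy.2.2.1; omega, hy.2.2.2⟩)
    (fun z hz => by have := hz.2.2.1; omega)).2
  have t2 := (turn_HB (e := e) (T := rng2 X Y k)
    (A := Hs e (Y + 8 * k) (X + 4 * k) (X + 8 * k)) (B := Hs e Y (X - 8 * k) (X - 4 * k)) hQ hQ1
    (show X - 8 * k < X + 8 * k by omega) (show Y + 4 * k < Y + 8 * k by omega)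
    (fun t ht ht' => by rw [mem_rng2] at ht; rw [mem_Rsq] at ht'; omega)
    (bd_top fun t ht => by rw [mem_rng2] at ht; omega)
    (fun x hx => by
      obtain ⟨x1, x2, x3, x4⟩ := hx
      refine bd_of (v := (x.1, Y)) (fun hv => ?_) (by unfold Cor; dsimp only; omega)
      rw [mem_rng2] at hv
      dsimp only at hv
      omega)
    (fun y hy => ⟨hy.1, by have := hy.2.1; omega, hy.2.2.1, hy.2.2.2⟩)
    (fun z hz => by have := hz.1; omega)).1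
  have t1 := (turn (e := e) (T := rng3 X Y k)
    (A := Vs e (X - 8 * k) (Y + 4 * k) (Y + 8 * k)) (B := Hs e Y (X - 8 * k) (X - 4 * k)) hQ hQ1
    (quad_V e (show X - 8 * k ≤ X - 4 * k by omega) (show Y + 1 ≤ Y + 8 * k by omega))
    (fan_rect _ _ _ _ _) (bd_bot fun t ht => (mem_Rsq.1 ht).2.2.1)
    (bd_top fun t ht => (mem_Rsq.1 ht).2.2.2)
    (bd_left fun t ht => by rw [mem_rng3] at ht; omega)
    (fun y hy => by
      obtain ⟨y1, y2, y3, y4⟩ := hy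
      exact nx_left (by omega) (by omega) y1 (by omega) y3 y4)
    (fun t ht ht' y hy hyR => by
      obtain ⟨r1, r2, r3, r4, r5⟩ := vc_rect hyR
      obtain ⟨c1, c2, c3⟩ := hy
      rw [mem_coe, mem_rng3] at ht
      rw [mem_coe, mem_Rsq] at ht'
      exact nx_right (by omega) (by omega) (by omega) r3 r4 r5)
    (fun x hx => by
      obtain ⟨x1, x2, x3, x4⟩ := hx
      refine bd_of (v := (x.1, Y)) (fun hv => ?_) (by unfold Cor; dsimp only; omega)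
      rw [mem_rng3] at hv
      dsimp only at hv
      omega)
    (fun z hz hzR => by
      obtain ⟨r1, r2, r3, r4, r5⟩ := vc_rect hzR
      have := hz.1
      omega)).1
  have key : κ ^ 5 ≤ VT Q e (rng X Y k) (Hs e (Y + 1) (X - 8 * k) (X - 4 * k))
      (Hs e Y (X - 8 * k) (X - 4 * k)) := by
    rw [show κ ^ 5 = κ * κ * κ * κ * κ by ring]
    refine le_trans ?_ t1
    refine mul_le_mul ?_ v1 hκ.le (VT_nonneg hQ _ _ _ _)
    refine le_trans ?_ t2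
    refine mul_le_mul ?_ v2 hκ.le (VT_nonneg hQ _ _ _ _)
    refine le_trans ?_ t3
    refine mul_le_mul ?_ v3 hκ.le (VT_nonneg hQ _ _ _ _)
    refine le_trans ?_ t4
    exact mul_le_mul v5 v4 hκ.le (VT_nonneg hQ _ _ _ _)
  exact ⟨key, by rwa [VT_comm hQ]⟩

end Vale.Agent.P167.N.NET
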