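import Vale.Agent.P167.N.NET.QuadE

/-!
# P167, duality of quads: polygon domains

`quad_pol`: `G` is the domain of the polygon `q`; the four arcs `[a, b]`, `[b, m]`, `[m, d]`,
`[d, n + a]` of its boundary.
-/

set_option autoImplicit false

namespace Vale.Agent.P167.N.NET

open Finset
open Vale.Agent.P145.FB Vale.Agent.P167 Vale.Agent.P167.H632 Vale.Agent.P167.H871
open Vale.Agent.P167.H192.TA
open Vale.Agent.P167.E6 (dir face IsPolygon Encloses)
open Relation (ReflTransGen)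

variable {n : ℕ} {q : ZMod n → ℤ × ℤ} {G : Finset (ℤ × ℤ)} {c : Bool} {ω : Cfg}
  {a b m d i j : ℕ}

theorem exists_box (S : Finset (ℤ × ℤ)) :
    ∃ a1 b1 a2 b2 : ℤ, ∀ v ∈ S, (a1 ≤ v.1 ∧ v.1 < b1) ∧ a2 ≤ v.2 ∧ v.2 < b2 := by
  induction S using Finset.induction_on with
  | empty => exact ⟨0, 0, 0, 0, fun v hv => absurd hv (notMem_empty v)⟩
  | insert w S _ ih =>
    obtain ⟨a1, b1, a2, b2, h⟩ := ih
    refine ⟨min a1 w.1, max b1 (w.1 + 1), min a2 w.2, max b2 (w.2 + 1), fun v hv => ?_⟩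
    rcases mem_insert.1 hv with rfl | hv
    · omega
    · have := h v hv
      omega

/-- **The potential of a path.** -/
theorem exists_N_in (hq : IsPolygon q) (hG : Encloses q G) (hij : i < j) (hj : j ≤ n)
    (hi : ((q (i : ZMod n)).1 + (q (i : ZMod n)).2) % 2 = pr (!c))
    (hjc : ((q (j : ZMod n)).1 + (q (j : ZMod n)).2) % 2 = pr (!c))
    (hP : Pw (cs (!c) ω ∩ ↑G) (q (i : ZMod n)) (q (j : ZMod n))) :
    ∃ (N : ℤ × ℤ → ZMod 2) (κ : ZMod 2), (∀ k : ℕ, k ≤ n →
        ((q (k : ZMod n)).1 + (q (k : ZMod n)).2) % 2 = pr c →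
        N (q (k : ZMod n)) = Mid q i j (q (k : ZMod n)) + κ) ∧
      ∀ x y : ℤ × ℤ, (x.1 + x.2) % 2 = pr c → Pw (cs c ω ∩ ↑G) x y → N x = N y := by
  classical
  obtain ⟨ε, e1, e2⟩ := path_chain hi hP
  set M := Mid q i j with hM
  have hcl : Closed c (fun v => ε v + (1 + inI G v) * (M (c1 c v) + M (c2 c v))) := by
    refine closed_of ?_
    intro x hx
    rw [deg_add, e2 x hx]
    have h2 : deg (fun v => (1 + inI G v) * (M (c1 c v) + M (c2 c v))) x =
        ∑ r : Fin 4, inI G (face x r) * (M (x + dir r) + M (x + dir (r + 1))) := by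
      have h3 : ∑ r : Fin 4, (M (x + dir r) + M (x + dir (r + 1))) = 0 := by
        rw [Fin.sum_univ_four, show (0 : Fin 4) + 1 = 1 from rfl, show (1 : Fin 4) + 1 = 2 from rfl,
          show (2 : Fin 4) + 1 = 3 from rfl, show (3 : Fin 4) + 1 = 0 from rfl]
        linear_combination z2_add_self (M (x + dir 0)) + z2_add_self (M (x + dir 1)) +
          z2_add_self (M (x + dir 2)) + z2_add_self (M (x + dir 3))
      unfold deg
      rw [← zero_add (∑ r : Fin 4, inI G (face x r) * (M (x + dir r) + M (x + dir (r + 1)))),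
        ← h3, ← sum_add_distrib]
      refine sum_congr rfl fun r _ => ?_
      beta_reduce
      rw [c_face M hx]
      ring
    rw [h2]
    by_cases h3 : ∃ k, q k = x
    · obtain ⟨k, rfl⟩ := h3
      rw [fan hq hG, mid_rel hq hij hj hi hjc k hx, z2_add_self]
    · push Not at h3
      rw [fan_off hG h3, add_zero, if_neg (fun h => h3 _ h.symm), if_neg (fun h => h3 _ h.symm),
        add_zero]
  obtain ⟨a1, b1, a2, b2, hbox⟩ := exists_box (G ∪ ((range n) ×ˢ (univ : Finset (Fin 4))).image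
    fun p => face (q (p.1 : ZMod n)) p.2)
  obtain ⟨N, n1, -⟩ := exists_pot2 (a1 := a1) (b1 := b1) (a2 := a2) (b2 := b2) hcl (by
    intro v hv
    refine hbox v ?_
    by_contra hvS
    rw [mem_union, not_or, mem_image] at hvS
    have h2 : ε v = 0 := by
      by_contra h2
      exact hvS.1 (e1 v h2).1
    have h3 : ∀ s, IsC v s → M s = 0 := by
      intro s hs
      rw [hM, Mid, if_neg]
      rintro ⟨k, k1, k2, rfl⟩
      obtain ⟨r, hr⟩ := isC_iff_face.1 hs
      exact hvS.2 ⟨(k, r), by simp; omega, hr⟩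
    have h4 : ∀ s, Cor c v s → IsC v s := fun s hs => ⟨hs.1, hs.2.1⟩
    rw [h2, h3 _ (h4 _ (c1_cor c v)), h3 _ (h4 _ (c2_cor c v))] at hv
    exact hv (by ring))
  -- the relation along the boundary
  have rel : ∀ l : ℕ, ((q ((l + 1 : ℕ) : ZMod n)).1 + (q ((l + 1 : ℕ) : ZMod n)).2) % 2 = pr (!c) →
      N (q ((l + 2 : ℕ) : ZMod n)) + N (q (l : ZMod n)) =
        M (q ((l + 2 : ℕ) : ZMod n)) + M (q (l : ZMod n)) := by
    intro l hl1
    have h4 := fan hq hG N ((l + 1 : ℕ) : ZMod n)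
    have h6 : ∑ r : Fin 4, inI G (face (q ((l + 1 : ℕ) : ZMod n)) r) *
        (N (q ((l + 1 : ℕ) : ZMod n) + dir r) + N (q ((l + 1 : ℕ) : ZMod n) + dir (r + 1))) =
        deg ε (q ((l + 1 : ℕ) : ZMod n)) := by
      refine sum_congr rfl fun r _ => ?_
      rw [← c_face N hl1, n1]
      unfold inI
      by_cases h7 : face (q ((l + 1 : ℕ) : ZMod n)) r ∈ G
      · rw [if_pos h7]
        linear_combination z2_add_self (M (c1 c (face (q ((l + 1 : ℕ) : ZMod n)) r)) +
          M (c2 c (face (q ((l + 1 : ℕ) : ZMod n)) r)))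
      · rw [if_neg h7]
        have h8 : ε (face (q ((l + 1 : ℕ) : ZMod n)) r) = 0 := by
          by_contra h8
          exact h7 (e1 _ h8).1
        rw [h8]
        ring
    rw [h4, e2 _ hl1, ← mid_rel hq hij hj hi hjc _ hl1] at h6
    have e3 : ((l + 1 : ℕ) : ZMod n) + 1 = ((l + 2 : ℕ) : ZMod n) := by push_cast; ring
    have e4 : ((l + 1 : ℕ) : ZMod n) - 1 = ((l : ℕ) : ZMod n) := by push_cast; ring
    rw [e3, e4] at h6
    exact h6
  obtain ⟨l0, hl0, hl0c⟩ : ∃ l0 : ℕ, l0 ≤ 1 ∧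
      ((q (l0 : ZMod n)).1 + (q (l0 : ZMod n)).2) % 2 = pr c := by
    by_cases h : ((q ((0 : ℕ) : ZMod n)).1 + (q ((0 : ℕ) : ZMod n)).2) % 2 = pr c
    · exact ⟨0, by omega, h⟩
    · refine ⟨1, le_rfl, ?_⟩
      have := par_next (c := c) hq ((0 : ℕ) : ZMod n)
      rw [← Nat.cast_succ] at this
      exact this.2 (pr_ne.1 h)
  refine ⟨N, N (q (l0 : ZMod n)) + M (q (l0 : ZMod n)), ?_, fun x y hx hxy => ?_⟩
  · intro k
    induction k using Nat.strong_induction_on with
    | _ k ih =>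
      intro hk hkc
      rcases Nat.lt_or_ge k 2 with h2 | h2
      · have h3 := par_even hq hkc hl0c
        obtain rfl : k = l0 := by omega
        linear_combination -z2_add_self (M (q (k : ZMod n)))
      · obtain ⟨l, rfl⟩ : ∃ l, k = l + 2 := ⟨k - 2, by omega⟩
        have hl1 : ((q ((l + 1 : ℕ) : ZMod n)).1 + (q ((l + 1 : ℕ) : ZMod n)).2) % 2 = pr (!c) := by
          have h4 := par_next (c := c) hq ((l + 1 : ℕ) : ZMod n)
          rw [← Nat.cast_succ] at h4
          exact h4.1 hkc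
        have h3 := ih l (by omega) (by omega) (par_nat hq (l + 2) l (by omega) hkc)
        have h5 := rel l hl1
        rw [h3] at h5
        linear_combination h5 - z2_add_self (N (q (l0 : ZMod n)) + M (q (l0 : ZMod n)))
  · refine pot_path n1 (fun v hv hvc => ?_) hx hxy
    have h2 : ε v = 0 := by
      by_contra h2
      have := (e1 v h2).2
      rw [hvc] at this
      cases c <;> simp at this
    rw [h2]
    unfold inI
    rw [if_pos hv]
    linear_combination z2_add_self (M (c1 c v) + M (c2 c v))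

/-- The sum over the contour, from the inside. -/
theorem contour_sum_in (hq : IsPolygon q) (hG : Encloses q G) (f : ℤ × ℤ → ZMod 2) :
    ∑ p ∈ (G ×ˢ (univ : Finset (Fin 4))) with rf p.1 p.2 ∉ G,
      f (st p.1 p.2) * f (st p.1 p.2 + dir p.2) =
    ∑ k ∈ range n, f (q (k : ZMod n)) * f (q ((k + 1 : ℕ) : ZMod n)) := by
  have hn := hq.1
  have : NeZero n := ⟨by omega⟩
  symm
  refine sum_bij (fun k _ => (face (q (k : ZMod n)) (E2.ro q (k : ZMod n)),
    E2.ro q (k : ZMod n))) ?_ ?_ ?_ ?_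
  · intro k _
    have h1 := (hG _ _).1 ⟨(k : ZMod n), rfl, E2.ro_spec hq (k : ZMod n)⟩
    simp only [mem_filter, mem_product, mem_univ, and_true]
    refine ⟨h1.1, ?_⟩
    rw [rf_face]
    exact h1.2
  · intro k hk l hl h
    rw [mem_range] at hk hl
    obtain ⟨h1, h2⟩ := Prod.ext_iff.1 h
    dsimp only at h1 h2
    rw [h2] at h1
    have h5 : q (k : ZMod n) = q (l : ZMod n) := by
      rw [← st_face (q (k : ZMod n)) (E2.ro q (l : ZMod n)), h1, st_face]
    exact q_inj hq hk hl h5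
  · rintro ⟨u, s⟩ h
    simp only [mem_filter, mem_product, mem_univ, and_true] at h
    obtain ⟨k, k1, k2⟩ := (hG (st u s) s).2 ⟨by rw [face_st]; exact h.1, by
      rw [face_st']; exact h.2⟩
    have k3 : s = E2.ro q k := E2.ro_unique hq (by rw [k1]; exact k2)
    have k4 : ((k.val : ℕ) : ZMod n) = k := ZMod.natCast_zmod_val k
    refine ⟨k.val, mem_range.2 (ZMod.val_lt k), ?_⟩
    rw [k4, ← k3, k1, face_st]
  · intro k _
    dsimp only
    rw [st_face, Nat.cast_succ, ← E2.ro_spec hq]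

/-- **Duality in a polygon domain.** -/
theorem quad_pol (hq : IsPolygon q) (hG : Encloses q G) (hab : a ≤ b) (hbm : b ≤ m) (hmd : m ≤ d)
    (hd : d ≤ n) :
    Quad c ↑G (Ar q c b m) (Ar q c 0 a ∪ Ar q c d n) (Ar q (!c) a b) (Ar q (!c) m d) := by
  classical
  refine ⟨fun u hu => hu.1, fun u hu => by rcases hu with h | h <;> exact h.1, fun u hu => hu.1,
    fun u hu => hu.1, fun ω => ⟨?_, fun hno => ?_⟩⟩
  · -- exclusion
    rintro ⟨x, ⟨hx, k, k1, k2, rfl⟩, s, hs, hxs⟩ ⟨y, ⟨hy, i, i1, i2, rfl⟩, z, ⟨hz, j, j1, j2, rfl⟩,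
      hyz⟩
    have p1 := par_odd hq hx hy
    have p2 := par_odd hq hx hz
    obtain ⟨N, κ, n1, n3⟩ := exists_N_in (c := c) hq hG (show i < j by omega) (j2.trans hd) hy hz
      hyz
    have e1 := n3 _ _ hx hxs
    rw [n1 k (by omega) hx, mid_pos hq (j2.trans hd) (by omega), if_pos (by omega)] at e1
    have e2 : N s = κ := by
      rcases hs with ⟨hs, l, l1, l2, rfl⟩ | ⟨hs, l, l1, l2, rfl⟩
      · rw [n1 l (by omega) hs, mid_pos hq (j2.trans hd) (by omega), if_neg (by omega), zero_add]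
      · rw [n1 l (by omega) hs, mid_pos hq (j2.trans hd) (by omega), if_neg (by omega), zero_add]
    rw [e2] at e1
    exact one_ne_zero (add_eq_right.1 e1)
  · -- existence
    by_contra hno'
    set f := fC c ↑G (Ar q c b m) (Ar q (!c) a b) ω with hf
    have fF : ∀ s ∈ Ar q c 0 a ∪ Ar q c d n, f s = 0 := by
      intro s hs
      have hsc : (s.1 + s.2) % 2 = pr c := by
        rcases hs with h | h <;> exact h.1
      rw [hf, fC_c hsc, if_neg]
      rintro ⟨x, hx, h⟩
      exact hno' ⟨x, hx, s, hs, h⟩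
    have fX2 : ∀ s ∈ Ar q c b m, f s = 1 := by
      intro s hs
      rw [hf, fC_c hs.1, if_pos (Cl_seed hs)]
    have fX1 : ∀ s ∈ Ar q (!c) a b, f s = 1 := by
      intro s hs
      rw [hf, fC_n hs.1, if_pos (Cl_seed hs)]
    have fX3 : ∀ s ∈ Ar q (!c) m d, f s = 0 := by
      intro s hs
      rw [hf, fC_n hs.1, if_neg]
      rintro ⟨x, hx, h⟩
      exact hno ⟨x, hx, s, hs, h⟩
    have hsub := stokes G f fC_sq
    rw [contour_sum_in hq hG] at hsub
    set φ : ℕ → ZMod 2 := fun k => f (q (k : ZMod n)) * f (q ((k + 1 : ℕ) : ZMod n)) with hφ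
    have z1 : ∀ k : ℕ, f (q (k : ZMod n)) = 0 ∨ f (q ((k + 1 : ℕ) : ZMod n)) = 0 → φ k = 0 := by
      intro k h
      rw [hφ]
      beta_reduce
      rcases h with h | h <;> rw [h] <;> ring
    have s1 : ∑ k ∈ Ico 0 a, φ k = 0 := by
      refine sum_eq_zero fun k hk => z1 k ?_
      rw [mem_Ico] at hk
      rcases par_cases hq c k with ⟨g, -⟩ | ⟨-, g⟩
      · exact Or.inl (fF _ (Or.inl ⟨g, k, by omega, by omega, rfl⟩))
      · exact Or.inr (fF _ (Or.inl ⟨g, k + 1, by omega, by omega, rfl⟩))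
    have s4 : ∑ k ∈ Ico m n, φ k = 0 := by
      refine sum_eq_zero fun k hk => z1 k ?_
      rw [mem_Ico] at hk
      rcases Nat.lt_or_ge k d with hkd | hkd
      · rcases par_cases hq c k with ⟨-, g⟩ | ⟨g, -⟩
        · exact Or.inr (fX3 _ ⟨g, k + 1, by omega, by omega, rfl⟩)
        · exact Or.inl (fX3 _ ⟨g, k, by omega, by omega, rfl⟩)
      · rcases par_cases hq c k with ⟨g, -⟩ | ⟨-, g⟩
        · exact Or.inl (fF _ (Or.inr ⟨g, k, by omega, by omega, rfl⟩))
        · exact Or.inr (fF _ (Or.inr ⟨g, k + 1, by omega, by omega, rfl⟩))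
    have s2 : ∑ k ∈ Ico a b, φ k = f (q (b : ZMod n)) *
        (if ((q (b : ZMod n)).1 + (q (b : ZMod n)).2) % 2 = pr c then 1 else 0) := by
      have h2 := tel (fun k => f (q (k : ZMod n)) *
        (if ((q (k : ZMod n)).1 + (q (k : ZMod n)).2) % 2 = pr c then 1 else 0)) hab
      have h3 : f (q (a : ZMod n)) *
          (if ((q (a : ZMod n)).1 + (q (a : ZMod n)).2) % 2 = pr c then 1 else 0) = 0 := by
        split_ifs with g
        · rw [fF _ (Or.inl ⟨g, a, Nat.zero_le _, le_rfl, rfl⟩), zero_mul]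
        · rw [mul_zero]
      beta_reduce at h2
      rw [h3, zero_add] at h2
      rw [← h2]
      refine sum_congr rfl fun k hk => ?_
      rw [mem_Ico] at hk
      rw [hφ]
      beta_reduce
      rcases par_cases hq c k with ⟨g, g'⟩ | ⟨g, g'⟩
      · rw [if_pos g, if_neg (pr_ne.2 g'), fX1 _ ⟨g', k + 1, by omega, by omega, rfl⟩]
        ring
      · rw [if_pos g', if_neg (pr_ne.2 g), fX1 (q (k : ZMod n)) ⟨g, k, by omega, by omega, rfl⟩]
        ring
    have s3 : ∑ k ∈ Ico b m, φ k = f (q (b : ZMod n)) *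
        (if ((q (b : ZMod n)).1 + (q (b : ZMod n)).2) % 2 = pr (!c) then 1 else 0) := by
      have h2 := tel (fun k => f (q (k : ZMod n)) *
        (if ((q (k : ZMod n)).1 + (q (k : ZMod n)).2) % 2 = pr (!c) then 1 else 0)) hbm
      have h3 : f (q (m : ZMod n)) *
          (if ((q (m : ZMod n)).1 + (q (m : ZMod n)).2) % 2 = pr (!c) then 1 else 0) = 0 := by
        split_ifs with g
        · rw [fX3 _ ⟨g, m, by omega, by omega, rfl⟩, zero_mul]
        · rw [mul_zero]
      beta_reduce at h2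
      rw [h3, add_zero] at h2
      rw [← h2]
      refine sum_congr rfl fun k hk => ?_
      rw [mem_Ico] at hk
      rw [hφ]
      beta_reduce
      rcases par_cases hq c k with ⟨g, g'⟩ | ⟨g, g'⟩
      · rw [if_pos g', if_neg (pr_ne'.2 g), fX2 (q (k : ZMod n)) ⟨g, k, by omega, by omega, rfl⟩]
        ring
      · rw [if_pos g, if_neg (pr_ne'.2 g'), fX2 _ ⟨g', k + 1, by omega, by omega, rfl⟩]
        ring
    rw [range_eq_Ico, ← sum_Ico_consecutive φ (Nat.zero_le a) (show a ≤ n by omega),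
      ← sum_Ico_consecutive φ hab (show b ≤ n by omega),
      ← sum_Ico_consecutive φ hbm (show m ≤ n by omega), s1, s2, s3, s4] at hsub
    by_cases g : ((q (b : ZMod n)).1 + (q (b : ZMod n)).2) % 2 = pr c
    · rw [if_pos g, if_neg (pr_ne'.2 g), fX2 _ ⟨g, b, le_rfl, hbm, rfl⟩] at hsub
      revert hsub
      decide
    · rw [if_neg g, if_pos (pr_ne.1 g), fX1 _ ⟨pr_ne.1 g, b, hab, le_rfl, rfl⟩] at hsub
      revert hsub
      decide

end Vale.Agent.P167.N.NET
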