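import Vale.Agent.P167.H262.Wst

/-!
# P167: the Markov property of the random-cluster model with an arbitrary exterior relation
-/

set_option autoImplicit false
set_option linter.unusedSectionVars false

namespace Vale.Agent.P167.N.NET

open Finset Vale.Agent.P167.H623 Vale.Agent.P167.H816 Vale.Agent.P167.H262

variable {X ι : Type*} [DecidableEq ι] (a b : ι → X) {w : ι → ℝ} {q : ℝ}

/-- Sums over the subsets of `D`, split along `K ⊆ D`. -/
theorem sum_split {K D : Finset ι} (hK : K ⊆ D) (f : Finset ι → ℝ) :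
    ∑ S ∈ D.powerset, f S = ∑ S₀ ∈ K.powerset, ∑ S₁ ∈ (D \ K).powerset, f (S₀ ∪ S₁) := by
  rw [← sum_product']
  symm
  refine sum_nbij' (fun p => p.1 ∪ p.2) (fun S => (S ∩ K, S \ K)) ?_ ?_ ?_ ?_ ?_
  · rintro ⟨S₀, S₁⟩ h
    rw [mem_product, mem_powerset, mem_powerset] at h
    rw [mem_powerset]
    exact union_subset (h.1.trans hK) (h.2.trans sdiff_subset)
  · intro S h
    rw [mem_powerset] at h
    rw [mem_product, mem_powerset, mem_powerset]
    exact ⟨inter_subset_right, sdiff_subset_sdiff h (Subset.refl K)⟩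
  · rintro ⟨S₀, S₁⟩ h
    rw [mem_product, mem_powerset, mem_powerset] at h
    obtain ⟨h1, h2⟩ := h
    have h3 : ∀ x ∈ S₁, x ∉ K := fun x hx => (mem_sdiff.1 (h2 hx)).2
    ext x
    · simp only [mem_inter, mem_union]
      constructor
      · rintro ⟨hx | hx, hk⟩
        · exact hx
        · exact absurd hk (h3 x hx)
      · exact fun hx => ⟨Or.inl hx, h1 hx⟩
    · simp only [mem_sdiff, mem_union]
      constructor
      · rintro ⟨hx | hx, hk⟩
        · exact absurd (h1 hx) hk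
        · exact hx
      · exact fun hx => ⟨Or.inr hx, h3 x hx⟩
  · intro S _
    exact (union_comm _ _).trans (sdiff_union_inter S K)
  · intro p _
    rfl

theorem union_inter_self {K S₀ S₁ D : Finset ι} (h0 : S₀ ⊆ K) (h1 : S₁ ⊆ D \ K) :
    (S₀ ∪ S₁) ∩ K = S₀ := by
  ext x
  simp only [mem_inter, mem_union]
  constructor
  · rintro ⟨hx | hx, hk⟩
    · exact hx
    · exact absurd hk (mem_sdiff.1 (h1 hx)).2
  · exact fun hx => ⟨Or.inl hx, h0 hx⟩

theorem con_con (r : Setoid X) (S S' : Finset ι) :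
    con a b (con a b r S) S' = con a b r (S ∪ S') := by
  unfold con conf
  rw [Finset.sup_union, sup_assoc]

/-- The Markov property. -/
theorem GE_markov (hw : ∀ e, 0 < w e) (hq : 0 < q) (r : Setoid X) {K D : Finset ι} (hK : K ⊆ D)
    (F : Finset ι → ℝ) :
    GE a b w q D r F = GE a b w q D r (fun S =>
      GE a b w q (D \ K) (con a b r (S ∩ K)) (fun S' => F ((S ∩ K) ∪ S'))) := by
  classical
  obtain ⟨H, hH⟩ : ∃ H : Finset ι → ℝ, H = fun S₀ =>
    GE a b w q (D \ K) (con a b r S₀) (fun S' => F (S₀ ∪ S')) := ⟨_, rfl⟩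
  have e1 : (fun S => GE a b w q (D \ K) (con a b r (S ∩ K)) (fun S' => F ((S ∩ K) ∪ S'))) =
      fun S => H (S ∩ K) := by rw [hH]
  rw [e1, GE, GE]
  congr 1
  rw [sum_split hK, sum_split hK]
  refine sum_congr rfl fun S₀ hS₀ => ?_
  rw [mem_powerset] at hS₀
  have hrec : Rec a b w q (D \ K) (con a b r S₀) fun S₁ => gw a b w q D r (S₀ ∪ S₁) := by
    intro S hS f hf hfS
    beta_reduce
    have hf' := mem_sdiff.1 hf
    rw [union_insert, gw_rec hq.ne' (S₀ ∪ S)
      (union_subset (hS₀.trans hK) (hS.trans sdiff_subset)) f hf'.1, con_con]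
    rw [mem_union]
    rintro (h | h)
    · exact hf'.2 (hS₀ h)
    · exact hfS h
  have h1 := hrec.sum_div hq (gw_pos hw hq _).ne' (fun S₁ => F (S₀ ∪ S₁))
  have hp : 0 < ∑ S₁ ∈ (D \ K).powerset, gw a b w q D r (S₀ ∪ S₁) :=
    sum_pos (fun S _ => gw_pos hw hq _) ⟨∅, empty_mem_powerset _⟩
  rw [div_eq_iff hp.ne'] at h1
  rw [h1]
  have h2 : ∑ S₁ ∈ (D \ K).powerset, gw a b w q D r (S₀ ∪ S₁) * H ((S₀ ∪ S₁) ∩ K) =
      (∑ S₁ ∈ (D \ K).powerset, gw a b w q D r (S₀ ∪ S₁)) * H S₀ := by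
    rw [sum_mul]
    refine sum_congr rfl fun S₁ hS₁ => ?_
    rw [union_inter_self hS₀ (mem_powerset.1 hS₁)]
  rw [h2, hH, mul_comm]

theorem GE_sum (D : Finset ι) (r : Setoid X) {α : Type*} (s : Finset α) (F : α → Finset ι → ℝ) :
    GE a b w q D r (fun S => ∑ i ∈ s, F i S) = ∑ i ∈ s, GE a b w q D r (F i) := by
  simp only [GE, mul_sum]
  rw [sum_comm, sum_div]

/-- `K` is determined by the open edges of `K`. -/
def Stop (D : Finset ι) (K : Finset ι → Finset ι) : Prop :=
  (∀ S ⊆ D, K S ⊆ D) ∧ ∀ S ⊆ D, ∀ S' ⊆ D, S' ∩ K S = S ∩ K S → K S' = K S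

open Classical in
/-- **The strong Markov property.** -/
theorem GE_strong (hw : ∀ e, 0 < w e) (hq : 0 < q) (r : Setoid X) {D : Finset ι}
    {K : Finset ι → Finset ι} (hK : Stop D K) (F : Finset ι → ℝ) :
    GE a b w q D r F = GE a b w q D r (fun S =>
      GE a b w q (D \ K S) (con a b r (S ∩ K S)) (fun S' => F ((S ∩ K S) ∪ S'))) := by
  have split : ∀ G : Finset ι → ℝ, GE a b w q D r G =
      ∑ K₀ ∈ D.powerset, GE a b w q D r (fun S => if K S = K₀ then G S else 0) := by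
    intro G
    rw [← GE_sum]
    refine GE_congr hq (fun _ _ _ _ => Iff.rfl) fun S hS => ?_
    rw [sum_ite_eq, if_pos (mem_powerset.2 (hK.1 S hS))]
  rw [split F, split (fun S => GE a b w q (D \ K S) _ _)]
  refine sum_congr rfl fun K₀ hK₀ => ?_
  rw [mem_powerset] at hK₀
  rw [GE_markov a b hw hq r hK₀]
  refine GE_congr hq (fun _ _ _ _ => Iff.rfl) fun S hS => ?_
  have key : ∀ S' ⊆ D \ K₀, (K (S ∩ K₀ ∪ S') = K₀ ↔ K S = K₀) := by
    intro S' hS'
    have h1 : (S ∩ K₀ ∪ S') ∩ K₀ = S ∩ K₀ := union_inter_self inter_subset_right hS'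
    have h2 : S ∩ K₀ ∪ S' ⊆ D :=
      union_subset (inter_subset_left.trans hS) (hS'.trans sdiff_subset)
    constructor
    · intro h
      have := hK.2 _ h2 S hS (by rw [h, h1])
      rw [this, h]
    · intro h
      have := hK.2 S hS _ h2 (by rw [h, h1])
      rw [this, h]
  by_cases h : K S = K₀
  · rw [if_pos h]
    subst h
    refine GE_congr hq (fun _ _ _ _ => Iff.rfl) fun S' hS' => ?_
    rw [if_pos ((key S' hS').2 rfl)]
  · rw [if_neg h]
    have h0 : GE a b w q (D \ K₀) (con a b r (S ∩ K₀))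
        (fun S' => if K (S ∩ K₀ ∪ S') = K₀ then F (S ∩ K₀ ∪ S') else 0) =
        GE a b w q (D \ K₀) (con a b r (S ∩ K₀)) (fun _ => 0) := by
      refine GE_congr hq (fun _ _ _ _ => Iff.rfl) fun S' hS' => ?_
      rw [if_neg fun h' => h ((key S' hS').1 h')]
    rw [h0]
    exact GE_const (fun e => (hw e).le) hq 0

theorem GE_mul_left (D : Finset ι) (r : Setoid X) (c : ℝ) (F : Finset ι → ℝ) :
    GE a b w q D r (fun S => c * F S) = c * GE a b w q D r F := by
  rw [GE, GE, ← mul_div_assoc, mul_sum]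
  congr 1
  exact sum_congr rfl fun S _ => by ring

open Classical in
/-- Strong Markov property, lower bound: `E` is an event of the past of `K`, and given the past the
conditional probability of `A` is at least `c` on `E`. -/
theorem GP_ge (hw : ∀ e, 0 < w e) (hq : 0 < q) (r : Setoid X) {D : Finset ι}
    {K : Finset ι → Finset ι} (hK : Stop D K) {c : ℝ} {E A : Finset ι → Prop}
    (h : ∀ S ⊆ D, E S → c ≤ GP a b w q (D \ K S) (con a b r (S ∩ K S))
      (fun S' => A ((S ∩ K S) ∪ S'))) :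
    c * GP a b w q D r E ≤ GP a b w q D r A := by
  have hw' : ∀ e, 0 ≤ w e := fun e => (hw e).le
  rw [GP, GP, GE_strong a b hw hq r hK (fun S => if A S then 1 else 0), ← GE_mul_left]
  refine GE_mono hw' hq fun S hS => ?_
  by_cases hE : E S
  · rw [if_pos hE, mul_one]
    exact h S hS hE
  · rw [if_neg hE, mul_zero]
    exact GP_nonneg a b _ hw' hq _

open Classical in
/-- Strong Markov property, lower bound with a factor `F` which does not read `D \ K`. -/
theorem GE_ge (hw : ∀ e, 0 < w e) (hq : 0 < q) (r : Setoid X) {D : Finset ι}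
    {K : Finset ι → Finset ι} (hK : Stop D K) {F : Finset ι → ℝ} (hF0 : ∀ S ⊆ D, 0 ≤ F S)
    (hF : ∀ S ⊆ D, ∀ S' ⊆ D \ K S, F ((S ∩ K S) ∪ S') = F S) {c : ℝ} {E A : Finset ι → Prop}
    (h : ∀ S ⊆ D, E S → F S ≠ 0 → c ≤ GP a b w q (D \ K S) (con a b r (S ∩ K S))
      (fun S' => A ((S ∩ K S) ∪ S'))) :
    c * GE a b w q D r (fun S => F S * if E S then 1 else 0) ≤
      GE a b w q D r (fun S => F S * if A S then 1 else 0) := by
  have hw' : ∀ e, 0 ≤ w e := fun e => (hw e).le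
  rw [GE_strong a b hw hq r hK (fun S => F S * if A S then 1 else 0), ← GE_mul_left]
  refine GE_mono hw' hq fun S hS => ?_
  have e1 : GE a b w q (D \ K S) (con a b r (S ∩ K S)) (fun S' => F (S ∩ K S ∪ S') *
      if A (S ∩ K S ∪ S') then 1 else 0) = F S * GP a b w q (D \ K S) (con a b r (S ∩ K S))
        (fun S' => A ((S ∩ K S) ∪ S')) := by
    rw [GP, ← GE_mul_left]
    exact GE_congr hq (fun _ _ _ _ => Iff.rfl) fun S' hS' => by rw [hF S hS S' hS']
  rw [e1]
  have h0 := hF0 S hS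
  have h1 : 0 ≤ GP a b w q (D \ K S) (con a b r (S ∩ K S)) (fun S' => A ((S ∩ K S) ∪ S')) :=
    GP_nonneg a b _ hw' hq _
  by_cases hE : E S
  · rw [if_pos hE, mul_one, mul_comm]
    by_cases hFS : F S = 0
    · rw [hFS, zero_mul, zero_mul]
    · exact mul_le_mul_of_nonneg_left (h S hS hE hFS) h0
  · rw [if_neg hE, mul_zero, mul_zero]
    exact mul_nonneg h0 h1

theorem con_le_wir {r : Setoid X} {Z : Set X} (hr : r ≤ wir Z) {S : Finset ι}
    (hS : ∀ e ∈ S, a e ∈ Z ∧ b e ∈ Z) : con a b r S ≤ wir Z := by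
  refine sup_le hr ?_
  unfold conf
  refine Finset.sup_le fun e he => join_le_iff'.2 ?_
  exact Or.inr (hS e he)

/-! ### Rough boxes -/

/-- The probability that `A` and `B` are joined by open edges of `T`, the points of `Z` being
identified. -/
noncomputable def VG (w : ι → ℝ) (q : ℝ) (T : Finset ι) (Z A B : Set X) : ℝ :=
  GP a b w q T (wir Z) (fun S => ¬ Sep a b ⊥ A B S)

/-- The ends of the edges of `K`. -/
def En (K : Finset ι) : Set X := {x | ∃ e ∈ K, x = a e ∨ x = b e}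

theorem GP_loops (hw : ∀ e, 0 < w e) (hq : 0 < q) (r : Setoid X) (D L : Finset ι)
    (hD : Disjoint L D) (hr : ∀ e ∈ L, r (a e) (b e)) {A : Finset ι → Prop}
    (hA : ∀ e ∈ L, ∀ S, A (insert e S) ↔ A S) :
    GP a b w q (L ∪ D) r A = GP a b w q D r A := by
  induction L using Finset.induction_on with
  | empty => rw [empty_union]
  | insert e L heL ih =>
    rw [disjoint_insert_left] at hD
    have ih' := ih hD.2 (fun e he => hr e (mem_insert_of_mem he))
      (fun e he => hA e (mem_insert_of_mem he))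
    have he : e ∉ L ∪ D := by
      rw [mem_union]
      rintro (h | h)
      · exact heL h
      · exact hD.1 h
    have h1 : GP a b w q (L ∪ D) (r ⊔ join (a e) (b e)) (fun S => A (insert e S)) =
        GP a b w q (L ∪ D) r A := by
      rw [sup_join_of_rel (hr e (mem_insert_self e L))]
      exact GP_congr a b _ hq (fun _ _ _ _ => Iff.rfl) fun S _ => hA e (mem_insert_self e L) S
    have ho := od_nonneg a b (L ∪ D) hw hq r e
    rw [insert_union, GP_split a b _ hw hq r he, h1, ← ih']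
    field_simp

theorem sep_insert_left {A B : Set X} {e : ι} (ha : a e ∈ A) (hb : b e ∈ A) (S : Finset ι) :
    Sep a b ⊥ A B (insert e S) ↔ Sep a b ⊥ A B S := by
  constructor
  · intro h u hu v hv k
    exact h u hu v hv (con_mono a b le_rfl (subset_insert e S) k)
  · intro h u hu v hv k
    rw [con_insert_iff] at k
    rcases k with k | ⟨-, k⟩ | ⟨-, k⟩
    · exact h u hu v hv k
    · exact h _ hb v hv k
    · exact h _ ha v hv k

theorem sep_insert_right {A B : Set X} {e : ι} (ha : a e ∈ B) (hb : b e ∈ B) (S : Finset ι) :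
    Sep a b ⊥ A B (insert e S) ↔ Sep a b ⊥ A B S := by
  constructor
  · intro h u hu v hv k
    exact h u hu v hv (con_mono a b le_rfl (subset_insert e S) k)
  · intro h u hu v hv k
    rw [con_insert_iff] at k
    rcases k with k | ⟨k, -⟩ | ⟨k, -⟩
    · exact h u hu v hv k
    · exact h u hu _ ha k
    · exact h u hu _ hb k

/-- **Rough boxes**: `T` with the points of `Z` identified, against `T \ (L₁ ∪ L₂)` with any exterior
relation. -/
theorem rough_GP (hw : ∀ e, 0 < w e) (hq : 0 < q) (hq1 : q ≤ 1) {T L₁ L₂ : Finset ι}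
    (h1 : L₁ ⊆ T) (h2 : L₂ ⊆ T) {Z A B : Set X} (hA : A ⊆ Z) (hB : B ⊆ Z) {r : Setoid X}
    (hr : r ≤ wir (Z ∪ En a b L₁ ∪ En a b L₂)) :
    VG a b w q T Z A B ≤ GP a b w q (T \ (L₁ ∪ L₂)) r
      (fun S => ¬ Sep a b ⊥ (A ∪ En a b L₁) (B ∪ En a b L₂) S) := by
  have hw' : ∀ e, 0 ≤ w e := fun e => (hw e).le
  have hswap : ∀ (D : Finset ι) (ρ : Setoid X) (A B : Set X),
      GP a b w q D ρ (Sep a b ⊥ A B) = GP a b w q D ρ (Sep a b ⊥ B A) := by
    intro D ρ A B
    refine GP_congr a b D hq (fun _ _ _ _ => Iff.rfl) fun S _ => ?_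
    exact ⟨fun h x hx y hy k => h y hy x hx ((con a b _ S).symm k),
      fun h x hx y hy k => h y hy x hx ((con a b _ S).symm k)⟩
  obtain ⟨A', hA'⟩ : ∃ A' : Set X, A' = A ∪ En a b L₁ := ⟨_, rfl⟩
  obtain ⟨B', hB'⟩ : ∃ B' : Set X, B' = B ∪ En a b L₂ := ⟨_, rfl⟩
  have hAA : A ⊆ A' := by rw [hA']; exact Set.subset_union_left
  have hBB : B ⊆ B' := by rw [hB']; exact Set.subset_union_left
  rw [← hA', ← hB']
  have k1 := t1_by a b T hw' hq hq1 ⊥ B Z hAA
  have k2 := t1_by a b T hw' hq hq1 ⊥ A' (A' ∪ Z) hBB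
  rw [Set.union_eq_self_of_subset_left hA] at k1
  have e1 : B ∪ (A' ∪ Z) = A' ∪ Z := by
    refine Set.union_eq_self_of_subset_left (hB.trans Set.subset_union_right)
  rw [e1, hswap T _ A' B] at k2
  have e2 : B' ∪ (A' ∪ Z) = Z ∪ En a b L₁ ∪ En a b L₂ := by
    rw [hA', hB']
    ext x
    simp only [Set.mem_union]
    constructor
    · rintro ((h | h) | (h | h) | h)
      · exact Or.inl (Or.inl (hB h))
      · exact Or.inr h
      · exact Or.inl (Or.inl (hA h))
      · exact Or.inl (Or.inr h)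
      · exact Or.inl (Or.inl h)
    · rintro ((h | h) | h)
      · exact Or.inr (Or.inr h)
      · exact Or.inr (Or.inl (Or.inr h))
      · exact Or.inl (Or.inr h)
  rw [e2] at k2
  obtain ⟨Z', hZ'⟩ : ∃ Z' : Set X, Z' = Z ∪ En a b L₁ ∪ En a b L₂ := ⟨_, rfl⟩
  rw [← hZ'] at k2 hr
  have hAZ : A' ⊆ Z' := by
    rw [hA', hZ']
    exact Set.union_subset (hA.trans (Set.subset_union_left.trans Set.subset_union_left))
      (Set.subset_union_right.trans Set.subset_union_left)
  have k3 := worst a b (T \ (L₁ ∪ L₂)) hw hq hq1 (r := ⊥) B' (r' := r) (Z := Z') (A := A') bot_le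
    (by rw [bot_sup_eq]; exact hr) hAZ
  have hT : (L₁ ∪ L₂) ∪ (T \ (L₁ ∪ L₂)) = T := union_sdiff_of_subset (union_subset h1 h2)
  have k4 : GP a b w q T (⊥ ⊔ wir Z') (Sep a b ⊥ A' B') =
      GP a b w q (T \ (L₁ ∪ L₂)) (⊥ ⊔ wir Z') (Sep a b ⊥ A' B') := by
    conv_lhs => rw [← hT]
    refine GP_loops a b hw hq _ _ _ disjoint_sdiff ?_ ?_
    · intro e he
      rw [bot_sup_eq]
      right
      rw [hZ']
      rcases mem_union.1 he with he | he
      · exact ⟨Or.inl (Or.inr ⟨e, he, Or.inl rfl⟩), Or.inl (Or.inr ⟨e, he, Or.inr rfl⟩)⟩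
      · exact ⟨Or.inr ⟨e, he, Or.inl rfl⟩, Or.inr ⟨e, he, Or.inr rfl⟩⟩
    · intro e he S
      rcases mem_union.1 he with he | he
      · refine sep_insert_left a b ?_ ?_ S
        · rw [hA']; exact Or.inr ⟨e, he, Or.inl rfl⟩
        · rw [hA']; exact Or.inr ⟨e, he, Or.inr rfl⟩
      · refine sep_insert_right a b ?_ ?_ S
        · rw [hB']; exact Or.inr ⟨e, he, Or.inl rfl⟩
        · rw [hB']; exact Or.inr ⟨e, he, Or.inr rfl⟩
  rw [VG, GP_not a b T hw' hq, GP_not a b _ hw' hq]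
  rw [bot_sup_eq, bot_sup_eq] at k1
  rw [bot_sup_eq, bot_sup_eq] at k2
  rw [bot_sup_eq] at k3 k4
  rw [hswap T (wir Z) B A] at k1
  linarith

end Vale.Agent.P167.N.NET
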