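import Vale.Agent.P167.N.NET.HalfP
import Vale.Agent.P167.H192.TA.Main

/-!
# P167, nets for `q < 1`: arms in half annuli

`D` any finite domain containing the half annulus, any good configuration outside, both colours,
`F` any nonnegative factor which does not read the tube. `land_out`, `land_in`: the arm is joined to
the right flat side. `ext_o`, `ext_i`: an arm which is joined to the right flat side is joined to the
end of a tube. `glue_h`: two such arms are joined.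
-/

set_option autoImplicit false
set_option linter.unusedSectionVars false

namespace Vale.Agent.P167.N.NET

open Finset Vale.Agent.P167 Vale.Agent.P167.FK Vale.Agent.P167.FKA Vale.Agent.P167.H816
  Vale.Agent.P167.H262 Vale.Agent.P167.H632 Vale.Agent.P167.H871 Vale.Agent.P167.H192.TA
open Vale.Agent.P145.FB (PStep PConn)
open Relation (ReflTransGen)

variable {Q : ℝ} {D T : Finset Pt} {η : Cfg} {e : Bool} {b : Pt} {r r' s s' m m' R R' x y x' y' : ℤ}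
  {F : Cfg → ℝ} {A B : Set Pt}

theorem mem_dFc {v : Pt} : v ∈ (dF b r R : Set Pt) ↔ b.1 - R ≤ v.1 ∧ v.1 < b.1 + R ∧ b.2 ≤ v.2 ∧
    v.2 < b.2 + R ∧ (v.1 < b.1 - r ∨ b.1 + r ≤ v.1 ∨ b.2 + r ≤ v.2) := by
  rw [mem_coe, mem_dF]
  rfl

/-! ### Arcs and sites -/

theorem nx_flR (hr : 1 ≤ r) (hR : r < R) (h1 : r ≤ x) (h2 : x < y) (h3 : y ≤ R) {u : Pt}
    (hu : u ∈ fl e b x y) : Nx e (dF b r R : Set Pt) (fl (!e) b x y) u := by
  obtain ⟨u1, u2, u3, u4⟩ := hu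
  have hne := pr_not e
  have hpe := pr_or e
  by_cases h : u.1 < b.1 + y
  · refine ⟨(u.1, b.2), mem_dFc.2 (by dsimp only; omega), by unfold Cor; dsimp only; omega,
      (u.1 + 1, b.2), ⟨rfl, ?_, ?_, ?_⟩, by unfold Cor; dsimp only; omega⟩ <;> dsimp only <;> omega
  · refine ⟨(u.1 - 1, b.2), mem_dFc.2 (by dsimp only; omega), by unfold Cor; dsimp only; omega,
      (u.1 - 1, b.2), ⟨rfl, ?_, ?_, ?_⟩, by unfold Cor; dsimp only; omega⟩ <;> dsimp only <;> omega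

theorem nx_flL (hr : 1 ≤ r) (hR : r < R) (h1 : -R ≤ x) (h2 : x < y) (h3 : y ≤ -r) {u : Pt}
    (hu : u ∈ fl e b x y) : Nx e (dF b r R : Set Pt) (fl (!e) b x y) u := by
  obtain ⟨u1, u2, u3, u4⟩ := hu
  have hne := pr_not e
  have hpe := pr_or e
  by_cases h : u.1 < b.1 + y
  · refine ⟨(u.1, b.2), mem_dFc.2 (by dsimp only; omega), by unfold Cor; dsimp only; omega,
      (u.1 + 1, b.2), ⟨rfl, ?_, ?_, ?_⟩, by unfold Cor; dsimp only; omega⟩ <;> dsimp only <;> omega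
  · refine ⟨(u.1 - 1, b.2), mem_dFc.2 (by dsimp only; omega), by unfold Cor; dsimp only; omega,
      (u.1 - 1, b.2), ⟨rfl, ?_, ?_, ?_⟩, by unfold Cor; dsimp only; omega⟩ <;> dsimp only <;> omega

theorem nx_out (hr : 1 ≤ r) (hR : r < R) {u : Pt} (hu : u ∈ So e b R) :
    Nx e (dF b r R : Set Pt) (So (!e) b R) u := by
  obtain ⟨u1, u2, u3, u4, u5, u6⟩ := hu
  have hne := pr_not e
  have hpe := pr_or e
  by_cases c1 : u.1 = b.1 + R
  · by_cases c2 : u.2 < b.2 + R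
    · refine ⟨(u.1 - 1, u.2), mem_dFc.2 (by dsimp only; omega), by unfold Cor; dsimp only; omega,
        (u.1, u.2 + 1), ⟨?_, ?_, ?_, ?_, ?_, ?_⟩, by unfold Cor; dsimp only; omega⟩ <;>
        dsimp only <;> omega
    · refine ⟨(u.1 - 1, u.2 - 1), mem_dFc.2 (by dsimp only; omega), by unfold Cor; dsimp only; omega,
        (u.1, u.2 - 1), ⟨?_, ?_, ?_, ?_, ?_, ?_⟩, by unfold Cor; dsimp only; omega⟩ <;>
        dsimp only <;> omega
  by_cases c2 : u.1 = b.1 - R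
  · by_cases c3 : u.2 < b.2 + R
    · refine ⟨(u.1, u.2), mem_dFc.2 (by dsimp only; omega), by unfold Cor; dsimp only; omega,
        (u.1, u.2 + 1), ⟨?_, ?_, ?_, ?_, ?_, ?_⟩, by unfold Cor; dsimp only; omega⟩ <;>
        dsimp only <;> omega
    · refine ⟨(u.1, u.2 - 1), mem_dFc.2 (by dsimp only; omega), by unfold Cor; dsimp only; omega,
        (u.1, u.2 - 1), ⟨?_, ?_, ?_, ?_, ?_, ?_⟩, by unfold Cor; dsimp only; omega⟩ <;>
        dsimp only <;> omega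
  · refine ⟨(u.1, u.2 - 1), mem_dFc.2 (by dsimp only; omega), by unfold Cor; dsimp only; omega,
      (u.1 + 1, u.2), ⟨?_, ?_, ?_, ?_, ?_, ?_⟩, by unfold Cor; dsimp only; omega⟩ <;>
      dsimp only <;> omega

theorem nx_in (hr : 1 ≤ r) (hR : r < R) {u : Pt} (hu : u ∈ So e b r) :
    Nx e (dF b r R : Set Pt) (So (!e) b r) u := by
  obtain ⟨u1, u2, u3, u4, u5, u6⟩ := hu
  have hne := pr_not e
  have hpe := pr_or e
  by_cases c1 : u.1 = b.1 + r
  · by_cases c2 : u.2 < b.2 + r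
    · refine ⟨(u.1, u.2), mem_dFc.2 (by dsimp only; omega), by unfold Cor; dsimp only; omega,
        (u.1, u.2 + 1), ⟨?_, ?_, ?_, ?_, ?_, ?_⟩, by unfold Cor; dsimp only; omega⟩ <;>
        dsimp only <;> omega
    · refine ⟨(u.1, u.2 - 1), mem_dFc.2 (by dsimp only; omega), by unfold Cor; dsimp only; omega,
        (u.1, u.2 - 1), ⟨?_, ?_, ?_, ?_, ?_, ?_⟩, by unfold Cor; dsimp only; omega⟩ <;>
        dsimp only <;> omega
  by_cases c2 : u.1 = b.1 - r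
  · by_cases c3 : u.2 < b.2 + r
    · refine ⟨(u.1 - 1, u.2), mem_dFc.2 (by dsimp only; omega), by unfold Cor; dsimp only; omega,
        (u.1, u.2 + 1), ⟨?_, ?_, ?_, ?_, ?_, ?_⟩, by unfold Cor; dsimp only; omega⟩ <;>
        dsimp only <;> omega
    · refine ⟨(u.1 - 1, u.2 - 1), mem_dFc.2 (by dsimp only; omega), by unfold Cor; dsimp only; omega,
        (u.1, u.2 - 1), ⟨?_, ?_, ?_, ?_, ?_, ?_⟩, by unfold Cor; dsimp only; omega⟩ <;>
        dsimp only <;> omega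
  · refine ⟨(u.1, u.2), mem_dFc.2 (by dsimp only; omega), by unfold Cor; dsimp only; omega,
      (u.1 + 1, u.2), ⟨?_, ?_, ?_, ?_, ?_, ?_⟩, by unfold Cor; dsimp only; omega⟩ <;>
      dsimp only <;> omega

theorem Nx.mono {e : Bool} {G S S' : Set Pt} {z : Pt} (h : S ⊆ S') (hz : Nx e G S z) :
    Nx e G S' z := by
  obtain ⟨g, hg, h1, n, hn, h2⟩ := hz
  exact ⟨g, hg, h1, n, h hn, h2⟩

theorem vc_dF {u : Pt} (hu : u ∈ Vc e (dF b r R : Set Pt)) : b.1 - R ≤ u.1 ∧ u.1 ≤ b.1 + R ∧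
    b.2 ≤ u.2 ∧ u.2 ≤ b.2 + R ∧ (u.1 ≤ b.1 - r ∨ b.1 + r ≤ u.1 ∨ b.2 + r ≤ u.2) ∧
    (u.1 + u.2) % 2 = pr e := by
  obtain ⟨v, hv, h1, h2, h3⟩ := hu
  have := mem_dFc.1 hv
  omega

theorem fl_mono (h1 : x' ≤ x) (h2 : y ≤ y') : fl e b x y ⊆ fl e b x' y' := by
  rintro u ⟨u1, u2, u3, u4⟩
  exact ⟨u1, by omega, by omega, u4⟩

theorem fl_bd (hT : ∀ t ∈ T, b.2 ≤ t.2) : fl e b x y ⊆ Bd e T := by
  rintro u ⟨u1, u2, u3, u4⟩
  refine ⟨(u.1, b.2 - 1), fun h => ?_, ?_⟩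
  · have := hT _ h
    dsimp only at this
    omega
  · unfold Cor
    dsimp only
    omega

/-- The arms as connections of arcs. -/
theorem Xc_eq (hr : 1 ≤ r) (hR : r < R) :
    Xc e b r R = Jn e (dF b r R : Set Pt) (So e b r) (So e b R) := by
  ext ω
  have hG : (dF b r R : Set Pt) = dq b r R := by
    ext v
    rw [mem_coe, mem_dF]
  constructor
  · rintro ⟨u, v, h1, h2, h3, h4, h5⟩
    rw [← hG] at h4
    have h2' : (v.1 + v.2) % 2 = pr e := by rw [← h2]; exact (Pw.parity h4).symm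
    refine ⟨u, ?_, v, ?_, h4⟩
    · simp only [sr, Set.mem_ofPred_eq] at h1
      rw [nm_le] at h3
      simp only [Prod.fst_sub, Prod.snd_sub] at h3
      refine ⟨?_, ?_, ?_, ?_, ?_, h2⟩ <;> omega
    · have h6 : v ∈ sr b r R := by
        rw [hG] at h4
        rcases ReflTransGen.cases_tail h4 with h | ⟨w, -, h⟩
        · rw [← h] at h1
          exact h1
        · exact (step_sr h).2
      simp only [sr, Set.mem_ofPred_eq] at h6
      rw [le_nm] at h5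
      simp only [Prod.fst_sub, Prod.snd_sub] at h5
      refine ⟨?_, ?_, ?_, ?_, ?_, h2'⟩ <;> omega
  · rintro ⟨u, ⟨u1, u2, u3, u4, u5, u6⟩, v, ⟨v1, v2, v3, v4, v5, v6⟩, h⟩
    rw [hG] at h
    refine ⟨u, v, ?_, u6, ?_, h, ?_⟩
    · simp only [sr, Set.mem_ofPred_eq]
      omega
    · rw [nm_le]
      simp only [Prod.fst_sub, Prod.snd_sub]
      omega
    · rw [le_nm]
      simp only [Prod.fst_sub, Prod.snd_sub]
      omega

/-- Crossings of larger sets. -/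
theorem sub_Xc (hr : 1 ≤ r) (hR : r < R) {G : Set Pt} (hG : G ⊆ (dF b r R : Set Pt))
    (hA : A ⊆ So e b r) (hB : B ⊆ So e b R) : Jn e G A B ⊆ Xc e b r R := by
  rw [Xc_eq hr hR]
  exact Jn.mono hG hA hB

/-- Comparison of factors. -/
theorem Ex_sub (hQ : 0 < Q) (hF0 : ∀ ω, 0 ≤ F ω) {U V : Set Cfg} (h : U ⊆ V) :
    Ex Q D η (fun ω => F ω * U.indicator 1 ω) ≤ Ex Q D η (fun ω => F ω * V.indicator 1 ω) :=
  Ex_mono hQ fun _ _ => mul_le_mul_of_nonneg_left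
    (Set.indicator_le_indicator_of_subset h (fun _ => zero_le_one) _) (hF0 _)

theorem dF_sub (h1 : r ≤ r') (h2 : R' ≤ R) (_h0 : 0 ≤ r) : dF b r' R' ⊆ dF b r R := by
  intro v hv
  rw [mem_dF] at hv ⊢
  simp only [dq, Set.mem_ofPred_eq] at hv ⊢
  omega

theorem dF_bd : ∀ t ∈ dF b r R, b.2 ≤ t.2 := by
  intro t ht
  have := mem_dFc.1 (mem_coe.2 ht)
  omega

/-! ### Landing on the right flat side -/

theorem land_out (hQ : 0 < Q) (hQ1 : Q ≤ 1) (hη : Good η) (hr : 1 ≤ r) (h1 : r ≤ m) (h2 : m < R)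
    (hD : dF b r R ⊆ D) (hF0 : ∀ ω, 0 ≤ F ω) (hF : Ind (dF b m R) F) :
    VT Q e (dF b m R) (fl e b (-R) (-m)) (fl e b m R) *
        Ex Q D η (fun ω => F ω * (Xc e b r R).indicator 1 ω) ≤
      Ex Q D η (fun ω => F ω *
        (Jn e (dF b r R : Set Pt) (So e b r) (fl e b m R)).indicator 1 ω) := by
  have hR : r < R := by omega
  have hsub : dF b m R ⊆ dF b r R := dF_sub h1 le_rfl (by omega)
  have h := net1 (e := e) hQ hQ1 hη (hsub.trans hD) hD (quad0 hr hR e b).swap24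
    (fan_dF hr hR e) (A := fl e b (-R) (-m)) (B := fl e b m R) (fl_bd dF_bd)
    (fun a ha => (nx_flL hr hR le_rfl (by omega) (by omega) ha).mono
      (fl_mono le_rfl (by omega)))
    (fun t ht ht' => absurd (hsub ht) ht') (fl_bd dF_bd)
    (fun z hz _ => (nx_flR hr hR h1 h2 le_rfl hz).mono (fl_mono (by omega) le_rfl))
    (F := F) hF0 (fun ω ω' h => hF ω' ω fun v hv => h v fun h' => hv (mem_sdiff.1 h').1)
  rw [← Xc_eq hr hR] at h
  refine h.trans (Ex_sub hQ hF0 ?_)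
  rintro ω ⟨a, ⟨u, hu, v, -, k1, -⟩, z, hz, k2⟩
  exact ⟨u, hu, z, hz, k1.trans (k2.mono (Set.inter_subset_inter_right _ hsub))⟩

theorem land_in (hQ : 0 < Q) (hQ1 : Q ≤ 1) (hη : Good η) (hr : 1 ≤ r) (h1 : r < m) (h2 : m ≤ R)
    (hD : dF b r R ⊆ D) (hF0 : ∀ ω, 0 ≤ F ω) (hF : Ind (dF b r m) F) :
    VT Q e (dF b r m) (fl e b (-m) (-r)) (fl e b r m) *
        Ex Q D η (fun ω => F ω * (Xc e b r R).indicator 1 ω) ≤
      Ex Q D η (fun ω => F ω *
        (Jn e (dF b r R : Set Pt) (So e b R) (fl e b r m)).indicator 1 ω) := by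
  have hR : r < R := by omega
  have hsub : dF b r m ⊆ dF b r R := dF_sub le_rfl h2 (by omega)
  have h := net1 (e := e) hQ hQ1 hη (hsub.trans hD) hD (quad0 hr hR e b).swap24.swap13
    (fan_dF hr hR e) (A := fl e b (-m) (-r)) (B := fl e b r m) (fl_bd dF_bd)
    (fun a ha => (nx_flL hr hR (by omega) (by omega) le_rfl ha).mono
      (fl_mono (by omega) le_rfl))
    (fun t ht ht' => absurd (hsub ht) ht') (fl_bd dF_bd)
    (fun z hz _ => (nx_flR hr hR le_rfl h1 h2 hz).mono (fl_mono le_rfl h2))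
    (F := F) hF0 (fun ω ω' h => hF ω' ω fun v hv => h v fun h' => hv (mem_sdiff.1 h').1)
  rw [Jn.symm, ← Xc_eq hr hR] at h
  refine h.trans (Ex_sub hQ hF0 ?_)
  rintro ω ⟨a, ⟨u, hu, v, -, k1, -⟩, z, hz, k2⟩
  exact ⟨u, hu, z, hz, k1.trans (k2.mono (Set.inter_subset_inter_right _ hsub))⟩

/-! ### Extension -/

/-- Extension outwards: `T` does not meet the inner half box, its end is outside of the half box. -/
theorem ext_o (hQ : 0 < Q) (hQ1 : Q ≤ 1) (hη : Good η) (hr : 1 ≤ r) (h1 : r < m) (h2 : m ≤ R)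
    (hx : r ≤ x) (hy : y ≤ m) (hD : dF b r R ⊆ D) (hT : T ⊆ D)
    (hTb : ∀ t ∈ T, b.2 ≤ t.2 ∧ (t.1 < b.1 - r ∨ b.1 + r ≤ t.1 ∨ b.2 + r ≤ t.2))
    (hB : B ⊆ Bd e T) (hBo : ∀ z ∈ B, b.2 ≤ z.2 ∧ R ≤ nm (z - b))
    (hF0 : ∀ ω, 0 ≤ F ω) (hF : Ind T F) :
    VT Q e T (fl e b x y) B * Ex Q D η (fun ω => F ω *
        (Jn e (dF b r R : Set Pt) (So e b r) (fl e b m R)).indicator 1 ω) ≤
      Ex Q D η (fun ω => F ω *
        (Jn e ((dF b r R : Set Pt) ∪ T) (So e b r) B).indicator 1 ω) := by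
  have hR : r < R := by omega
  have hAb : fl e b x y ⊆ Bd e T := fl_bd fun t ht => (hTb t ht).1
  have hex : Exi e (dF b r R : Set Pt) (So (!e) b R ∪ fl (!e) b (-R) (-r)) (T : Set Pt) := by
    intro t ht ht' u hu huG
    have g1 := hTb t ht
    have g2 := vc_dF huG
    rw [mem_dFc] at ht'
    obtain ⟨u1, u2, u3⟩ := hu
    refine (nx_out hr hR (u := u) ?_).mono Set.subset_union_left
    refine ⟨?_, ?_, ?_, ?_, ?_, u3⟩ <;> omega
  have h := net1 (e := e) hQ hQ1 hη hT hD (quad1 hr hR e b h1.le h2)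
    (fan_dF hr hR e) (A := fl e b x y) (B := B) hAb
    (fun a ha => by
      have := nx_flR (e := e) hr hR le_rfl h1 h2 (fl_mono hx hy ha)
      exact this) hex hB
    (fun z hz hzG => by
      have g1 := hBo z hz
      have g2 := vc_dF hzG
      rw [le_nm] at g1
      simp only [Prod.fst_sub, Prod.snd_sub] at g1
      refine (nx_out hr hR (u := z) ?_).mono Set.subset_union_left
      refine ⟨?_, ?_, ?_, ?_, ?_, g2.2.2.2.2.2⟩ <;> omega)
    (F := F) hF0 (fun ω ω' h => hF ω' ω fun v hv => h v fun h' => hv (mem_sdiff.1 h').1)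
  exact h.trans (Ex_sub hQ hF0 HK1_sub)

/-- Extension inwards: `T` is inside of the half box, its end is in the inner half box. -/
theorem ext_i (hQ : 0 < Q) (hQ1 : Q ≤ 1) (hη : Good η) (hr : 1 ≤ r) (h1 : r ≤ m) (h2 : m < R)
    (hx : m ≤ x) (hy : y ≤ R) (hD : dF b r R ⊆ D) (hT : T ⊆ D)
    (hTb : ∀ t ∈ T, b.2 ≤ t.2 ∧ b.1 - R ≤ t.1 ∧ t.1 < b.1 + R ∧ t.2 < b.2 + R)
    (hB : B ⊆ Bd e T) (hBo : ∀ z ∈ B, b.2 ≤ z.2 ∧ nm (z - b) ≤ r)
    (hF0 : ∀ ω, 0 ≤ F ω) (hF : Ind T F) :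
    VT Q e T (fl e b x y) B * Ex Q D η (fun ω => F ω *
        (Jn e (dF b r R : Set Pt) (So e b R) (fl e b r m)).indicator 1 ω) ≤
      Ex Q D η (fun ω => F ω *
        (Jn e ((dF b r R : Set Pt) ∪ T) (So e b R) B).indicator 1 ω) := by
  have hR : r < R := by omega
  have hAb : fl e b x y ⊆ Bd e T := fl_bd fun t ht => (hTb t ht).1
  have hex : Exi e (dF b r R : Set Pt) (fl (!e) b (-R) (-r) ∪ So (!e) b r) (T : Set Pt) := by
    intro t ht ht' u hu huG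
    have g1 := hTb t ht
    have g2 := vc_dF huG
    rw [mem_dFc] at ht'
    obtain ⟨u1, u2, u3⟩ := hu
    refine (nx_in hr hR (u := u) ?_).mono Set.subset_union_right
    refine ⟨?_, ?_, ?_, ?_, ?_, u3⟩ <;> omega
  have h := net1 (e := e) hQ hQ1 hη hT hD (quad2 hr hR e b h1 h2.le)
    (fan_dF hr hR e) (A := fl e b x y) (B := B) hAb
    (fun a ha => by
      have := nx_flR (e := e) hr hR h1 h2 le_rfl (fl_mono hx hy ha)
      exact this) hex hB
    (fun z hz hzG => by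
      have g1 := hBo z hz
      have g2 := vc_dF hzG
      rw [nm_le] at g1
      simp only [Prod.fst_sub, Prod.snd_sub] at g1
      refine (nx_in hr hR (u := z) ?_).mono Set.subset_union_right
      refine ⟨?_, ?_, ?_, ?_, ?_, g2.2.2.2.2.2⟩ <;> omega)
    (F := F) hF0 (fun ω ω' h => hF ω' ω fun v hv => h v fun h' => hv (mem_sdiff.1 h').1)
  exact h.trans (Ex_sub hQ hF0 HK1_sub)

/-! ### Gluing -/

theorem glue_h (hQ : 0 < Q) (hQ1 : Q ≤ 1) (hη : Good η) (hr : 1 ≤ r) (h1 : r < m) (h2 : m ≤ s)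
    (h3 : s < s') (h4 : s' ≤ m') (h5 : m' < R) (hx : r ≤ x) (hy : y ≤ m) (hx' : m' ≤ x')
    (hy' : y' ≤ R) (hD : dF b r R ⊆ D) (hT : T ⊆ dF b r R) (hF0 : ∀ ω, 0 ≤ F ω) (hF : Ind T F) :
    VT Q e T (fl e b x y) (fl e b x' y') * Ex Q D η (fun ω => F ω *
        (Jn e (dF b r s : Set Pt) (So e b r) (fl e b m s) ∩
          Jn e (dF b s' R : Set Pt) (So e b R) (fl e b s' m')).indicator 1 ω) ≤
      Ex Q D η (fun ω => F ω * (Xc e b r R).indicator 1 ω) := by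
  have hrs : r < s := by omega
  have hsR : s' < R := by omega
  have hs' : 1 ≤ s' := by omega
  have hTb : ∀ t ∈ T, b.2 ≤ t.2 := fun t ht => dF_bd t (hT ht)
  have hD1 : dF b r s ⊆ dF b r R := dF_sub le_rfl (by omega) (by omega)
  have hD2 : dF b s' R ⊆ dF b r R := dF_sub (by omega) le_rfl (by omega)
  have hex : Exi e (dF b r s : Set Pt) (So (!e) b s ∪ fl (!e) b (-s) (-r)) (T : Set Pt) := by
    intro t ht ht' u hu huG
    have g1 := mem_dFc.1 (mem_coe.2 (hT ht))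
    have g2 := vc_dF huG
    rw [mem_dFc] at ht'
    obtain ⟨u1, u2, u3⟩ := hu
    refine (nx_out hr hrs (u := u) ?_).mono Set.subset_union_left
    refine ⟨?_, ?_, ?_, ?_, ?_, u3⟩ <;> omega
  have hex' : Exi e (dF b s' R : Set Pt) (fl (!e) b (-R) (-s') ∪ So (!e) b s') (T : Set Pt) := by
    intro t ht ht' u hu huG
    have g1 := mem_dFc.1 (mem_coe.2 (hT ht))
    have g2 := vc_dF huG
    rw [mem_dFc] at ht'
    obtain ⟨u1, u2, u3⟩ := hu
    refine (nx_in hs' hsR (u := u) ?_).mono Set.subset_union_right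
    refine ⟨?_, ?_, ?_, ?_, ?_, u3⟩ <;> omega
  have h := net2 (e := e) hQ hQ1 hη (hT.trans hD) (hD1.trans hD) (hD2.trans hD)
    (quad1 hr hrs e b h1.le h2) (fan_dF hr hrs e) (quad2 hs' hsR e b h4 h5.le)
    (fan_dF hs' hsR e) (A := fl e b x y) (B := fl e b x' y') (fl_bd hTb)
    (fun a ha => nx_flR (e := e) hr hrs le_rfl h1 h2 (fl_mono hx hy ha)) hex (fl_bd hTb)
    (fun a ha => nx_flR (e := e) hs' hsR h4 h5 le_rfl (fl_mono hx' hy' ha)) hex'
    (fun u h6 h7 => by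
      have g1 := vc_dF h6
      have g2 := vc_dF h7
      omega)
    (F := F) hF0 (fun ω ω' h => hF ω' ω fun v hv => h v fun h' => hv (mem_sdiff.1 h').1)
  refine h.trans (Ex_sub hQ hF0 ?_)
  rw [Xc_eq hr (by omega)]
  rintro ω ⟨a, a', ⟨u, hu, v, -, k1, -⟩, ⟨u', hu', v', -, k2, -⟩, k3⟩
  exact ⟨u, hu, u', hu', ((k1.mono (Set.inter_subset_inter_right _ hD1)).trans
    (k3.mono (Set.inter_subset_inter_right _ hT))).trans
    (k2.mono (Set.inter_subset_inter_right _ hD2)).symm⟩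

end Vale.Agent.P167.N.NET
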