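import Vale.Agent.P167.N.NET.HalfC

/-!
# P167, nets for `q < 1`: both colours in one half annulus

`touch`: if a fresh path of the colour `e` joins the explored squares to the other side, every crossing
of the other colour belongs to the explored cluster. `many`: many tubes. `both_F`: both colours cross
a half annulus.
-/

set_option autoImplicit false
set_option linter.unusedSectionVars false

namespace Vale.Agent.P167.N.NET

open Finset Vale.Agent.P167 Vale.Agent.P167.FK Vale.Agent.P167.FKA Vale.Agent.P167.H816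
  Vale.Agent.P167.H262 Vale.Agent.P167.H632 Vale.Agent.P167.H871 Vale.Agent.P167.H192.TA
open Vale.Agent.P145.FB (PStep PConn)
open Relation (ReflTransGen)
open Vale.Agent.P167.H558 (StopSet Past)

variable {Q : ℝ} {D T : Finset Pt} {η : Cfg} {e : Bool} {b : Pt} {r r' s s' m m' R R' x y x' y' : ℤ}
  {F : Cfg → ℝ} {A B : Set Pt}

/-- The corners of the revealed squares are joined to the seeds' neighbours by revealed squares. -/
theorem rs_conn {e : Bool} {G S₂ P₂ : Set Pt} (hF : Fan (!e) G)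
    (hS : ∀ s ∈ S₂, (s.1 + s.2) % 2 = pr (!e)) (hn : ∀ s ∈ S₂, Nx (!e) G P₂ s) {ω : Cfg} {x : Pt}
    (hx : x ∈ Vc e (Rs (!e) G S₂ ω)) : ∃ a ∈ P₂, Pw (Rs (!e) G S₂ ω) a x := by
  obtain ⟨v, ⟨hvG, y, ⟨s, hs, hy⟩, hvy⟩, hvx⟩ := hx
  -- the squares around a point of the cluster
  have fan : ∀ y, y ∈ Cl (!e) G S₂ ω → ∀ v v' c c' : Pt, v ∈ G → v' ∈ G → Cor (!e) v y →
      Cor (!e) v' y → Cor e v c → Cor e v' c' → Pw (Rs (!e) G S₂ ω) c c' := by
    intro y hy v v' c c' h1 h2 h3 h4 h5 h6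
    have := hF y v v' c c' h1 h2 h3 h4 (by rwa [Bool.not_not]) (by rwa [Bool.not_not])
    refine this.mono ?_
    rintro t ⟨ht1, ht2⟩
    exact ⟨ht1, y, hy, ht2⟩
  have key : ∀ v c : Pt, v ∈ G → Cor (!e) v y → Cor e v c → ∃ a ∈ P₂, Pw (Rs (!e) G S₂ ω) a c := by
    clear hvx hvy hvG
    induction hy with
    | refl =>
      intro v c hv h1 h2
      obtain ⟨g, hg, g1, a, ha, g2⟩ := hn s hs
      rw [Bool.not_not] at g2
      exact ⟨a, ha, fan s (Cl_seed hs) g v a c hg hv g1 h1 g2 h2⟩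
    | @tail y z hy hyz ih =>
      intro v c hv h1 h2
      have hp : (y.1 + y.2) % 2 = pr (!e) := by rw [← hS s hs]; exact (Pw.parity hy).symm
      obtain ⟨k1, k2, -⟩ := cor_of_step hyz hp
      obtain ⟨c', hc'⟩ := exists_cor e (min y.1 z.1, min y.2 z.2)
      obtain ⟨a, ha, h3⟩ := ih _ c' hyz.2.2.2 k1 hc'
      refine ⟨a, ha, h3.trans (fan z ⟨s, hs, hy.tail hyz⟩ _ v c' c hyz.2.2.2 hv k2 h1 hc' h2)⟩
  exact key v x hvG hvy hvx

/-- **A fresh path to the other side**: every crossing of the other colour belongs to the cluster. -/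
theorem touch {e : Bool} {G A₁ A₃ S₂ P₂ P₄ T A B : Set Pt} (H : Quad (!e) G A₁ A₃ P₂ P₄)
    (hF : Fan (!e) G) (hS : ∀ s ∈ S₂, (s.1 + s.2) % 2 = pr (!e)) (hn : ∀ s ∈ S₂, Nx (!e) G P₂ s)
    (hT : T ⊆ G) (hA : A ⊆ P₂) (hB : B ⊆ P₄) {ω : Cfg}
    (h : ω ∈ Jn e (T \ Rs (!e) G S₂ ω) (A ∪ Vc e (Rs (!e) G S₂ ω)) B) {u v : Pt} (hu : u ∈ A₁)
    (hv : v ∈ A₃) (huv : Pw (cs (!e) ω ∩ G) u v) : u ∈ Cl (!e) G S₂ ω := by
  classical
  by_contra hcon
  obtain ⟨K, hK⟩ : ∃ K : Set Pt, K = Rs (!e) G S₂ ω := ⟨_, rfl⟩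
  have hKG : K ⊆ G := by rw [hK]; exact Rs_sub
  obtain ⟨ω₁, hω₁⟩ : ∃ ω₁ : Cfg, ω₁ = fun v => if v ∈ K then e else ω v := ⟨_, rfl⟩
  have on : ∀ t ∈ K, ω₁ t = e := fun t ht => by rw [hω₁]; simp only [if_pos ht]
  have off : ∀ t, t ∉ K → ω₁ t = ω t := fun t ht => by rw [hω₁]; simp only [if_neg ht]
  -- the crossing avoids the revealed squares
  have hpu : (u.1 + u.2) % 2 = pr (!e) := H.p1 u hu
  have h1 : ∀ w, Pw (cs (!e) ω ∩ G) u w → w ∉ Cl (!e) G S₂ ω := by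
    rintro w hw ⟨s, hs, hsw⟩
    exact hcon ⟨s, hs, hsw.trans hw.symm⟩
  have h2 : Pw (cs (!e) ω₁ ∩ G) u v := by
    clear hv
    induction huv with
    | refl => exact ReflTransGen.refl
    | @tail y z hy hyz ih =>
      refine ih.tail ⟨hyz.1, hyz.2.1, ?_, hyz.2.2.2⟩
      have hp : (y.1 + y.2) % 2 = pr (!e) := by rw [← hpu]; exact (Pw.parity hy).symm
      obtain ⟨k1, k2, k3⟩ := cor_of_step hyz hp
      have hnK : (min y.1 z.1, min y.2 z.2) ∉ K := by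
        rw [hK]
        rintro ⟨-, x, hx, hxc⟩
        rcases k3 x hxc with rfl | rfl
        · exact h1 _ hy hx
        · exact h1 _ (hy.tail hyz) hx
      have := hyz.2.2.1
      simp only [cs, Set.mem_ofPred_eq] at this ⊢
      rw [off _ hnK]
      exact this
  have h3 : ω₁ ∉ Jn (!!e) G P₂ P₄ := (H.iff ω₁).1 ⟨u, hu, v, hv, h2⟩
  rw [Bool.not_not] at h3
  obtain ⟨x, hx, z, hz, h4⟩ := h
  have h5 : ∃ a ∈ P₂, Pw (cs e ω₁ ∩ G) a x := by
    rcases hx with hx | hx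
    · exact ⟨x, hA hx, ReflTransGen.refl⟩
    · obtain ⟨a, ha, h6⟩ := rs_conn hF hS hn hx
      rw [← hK] at h6
      refine ⟨a, ha, h6.mono ?_⟩
      intro t ht
      exact ⟨on t ht, hKG ht⟩
  obtain ⟨a, ha, h6⟩ := h5
  refine h3 ⟨a, ha, z, hB hz, h6.trans (h4.mono ?_)⟩
  rintro t ⟨ht1, ht2, ht3⟩
  refine ⟨?_, hT ht2⟩
  rw [← hK] at ht3
  simp only [cs, Set.mem_ofPred_eq] at ht1 ⊢
  rw [off t ht3]
  exact ht1

/-- The event that a fresh path of the tube joins the revealed squares to its end. -/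
def FrE (e : Bool) (G : Finset Pt) (S₂ : Set Pt) (T : Finset Pt) (A B : Set Pt) : Set Cfg :=
  {ω | ω ∈ Jn e ↑(T \ Rv (!e) G S₂ ω) (A ∪ Vc e ↑(Rv (!e) G S₂ ω ∩ T)) B}

/-- One tube. -/
theorem fr_ge (hQ : 0 < Q) (hQ1 : Q ≤ 1) (hη : Good η) (hT : T ⊆ D) {G : Finset Pt} (hGD : G ⊆ D)
    {S₂ : Set Pt} (hS : ∀ s ∈ S₂, (s.1 + s.2) % 2 = pr (!e)) (hA : A ⊆ Bd e T) (hB : B ⊆ Bd e T)
    (hF0 : ∀ ω, 0 ≤ F ω)
    (hF : ∀ ω ω' : Cfg, (∀ v, v ∉ T \ Rv (!e) G S₂ ω → ω' v = ω v) → F ω' = F ω) :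
    VT Q e T A B * Ex Q D η F ≤
      Ex Q D η (fun ω => F ω * (FrE e G S₂ T A B).indicator 1 ω) := by
  classical
  have h := net_core (e := e) hQ hQ1 hT (K₁ := Rv (!e) G S₂) (K₂ := fun _ => ∅) (stop_Rv hS)
    stop_empty (fun ω => Rv_sub.trans hGD) (fun _ => empty_subset _) hA hB (r0_le e D η) η
    (F := F) hF0 (fun ω ω' h => by
      rw [union_empty] at h
      exact hF ω ω' h) (𝒜 := FrE e G S₂ T A B) (fun ω _ hJ => by
      refine Jn.mono ?_ ?_ ?_ hJ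
      · rw [union_empty]
      · exact Set.Subset.refl _
      · refine Set.union_subset (Set.Subset.refl _) ?_
        rintro x ⟨v, hv, -⟩
        simp at hv)
  rw [Ex_cc hQ hη e, Ex_cc hQ hη e]
  simp only [ind_ite]
  exact h

/-- The event of a tube does not read the squares of another tube. -/
theorem fr_ind {G : Finset Pt} {S₂ : Set Pt} (hS : ∀ s ∈ S₂, (s.1 + s.2) % 2 = pr (!e))
    {T T' : Finset Pt} (hd : Disjoint T T') {ω ω' : Cfg}
    (h : ∀ v, v ∉ T' \ Rv (!e) G S₂ ω → ω' v = ω v) :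
    ω' ∈ FrE e G S₂ T A B ↔ ω ∈ FrE e G S₂ T A B := by
  have h1 : Rv (!e) G S₂ ω' = Rv (!e) G S₂ ω :=
    stop_Rv hS ω ω' fun v hv => h v fun h' => (mem_sdiff.1 h').2 hv
  have h2 : ∀ t ∈ T \ Rv (!e) G S₂ ω, ω' t = ω t := fun t ht => h t fun h' =>
    (Finset.disjoint_left.1 hd) (mem_sdiff.1 ht).1 (mem_sdiff.1 h').1
  unfold FrE
  simp only [Set.mem_ofPred_eq]
  rw [h1]
  constructor
  · rintro ⟨u, hu, v, hv, h3⟩
    refine ⟨u, hu, v, hv, h3.mono ?_⟩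
    rintro t ⟨ht1, ht2⟩
    refine ⟨?_, ht2⟩
    simp only [cs, Set.mem_ofPred_eq] at ht1 ⊢
    rw [← h2 t (mem_coe.1 ht2)]
    exact ht1
  · rintro ⟨u, hu, v, hv, h3⟩
    refine ⟨u, hu, v, hv, h3.mono ?_⟩
    rintro t ⟨ht1, ht2⟩
    refine ⟨?_, ht2⟩
    simp only [cs, Set.mem_ofPred_eq] at ht1 ⊢
    rw [h2 t (mem_coe.1 ht2)]
    exact ht1

/-- **Many tubes.** -/
theorem many (hQ : 0 < Q) (hQ1 : Q ≤ 1) (hη : Good η) {G : Finset Pt} (hGD : G ⊆ D)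
    {S₂ : Set Pt} (hS : ∀ s ∈ S₂, (s.1 + s.2) % 2 = pr (!e)) {κ : ℝ} (hκ : κ ≤ 1) (k : ℕ)
    (T : ℕ → Finset Pt) (A B : ℕ → Set Pt) (hTG : ∀ i < k, T i ⊆ G)
    (hd : ∀ i j, i < k → j < k → i ≠ j → Disjoint (T i) (T j)) (hA : ∀ i < k, A i ⊆ Bd e (T i))
    (hB : ∀ i < k, B i ⊆ Bd e (T i)) (hV : ∀ i < k, κ ≤ VT Q e (T i) (A i) (B i))
    (hF0 : ∀ ω, 0 ≤ F ω)
    (hF : ∀ ω ω' : Cfg, (∀ v, v ∉ G \ Rv (!e) G S₂ ω → ω' v = ω v) → F ω' = F ω) :
    Ex Q D η (fun ω => F ω *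
        ({ω | ∀ i < k, ω ∉ FrE e G S₂ (T i) (A i) (B i)} : Set Cfg).indicator 1 ω) ≤
      (1 - κ) ^ k * Ex Q D η F := by
  induction k with
  | zero =>
    rw [pow_zero, one_mul]
    exact Ex_drop hQ hF0 _
  | succ k ih =>
    have ih' := ih (fun i hi => hTG i (by omega)) (fun i j hi hj => hd i j (by omega) (by omega))
      (fun i hi => hA i (by omega)) (fun i hi => hB i (by omega)) (fun i hi => hV i (by omega))
    obtain ⟨F', hF'⟩ : ∃ F' : Cfg → ℝ, F' = fun ω => F ω *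
      ({ω | ∀ i < k, ω ∉ FrE e G S₂ (T i) (A i) (B i)} : Set Cfg).indicator 1 ω := ⟨_, rfl⟩
    have hF'0 : ∀ ω, 0 ≤ F' ω := fun ω => by
      rw [hF']
      exact mul_nonneg (hF0 _) (ind_nn _ _)
    have hTk := hTG k (by omega)
    have k1 := fr_ge (e := e) (D := D) (T := T k) (F := F') hQ hQ1 hη (hTk.trans hGD) hGD hS
      (hA k (by omega)) (hB k (by omega)) hF'0 (fun ω ω' h => by
        have g1 : F ω' = F ω := hF ω ω' fun v hv => h v fun h' => hv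
          (mem_sdiff.2 ⟨hTk (mem_sdiff.1 h').1, (mem_sdiff.1 h').2⟩)
        have g2 : (ω' ∈ {ω | ∀ i < k, ω ∉ FrE e G S₂ (T i) (A i) (B i)}) ↔
            (ω ∈ {ω | ∀ i < k, ω ∉ FrE e G S₂ (T i) (A i) (B i)}) := by
          simp only [Set.mem_ofPred_eq]
          refine forall_congr' fun i => forall_congr' fun hi => not_congr ?_
          exact fr_ind hS (hd i k (by omega) (by omega) (by omega)) h
        rw [hF']
        simp only
        rw [g1]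
        congr 1
        by_cases g3 : ω ∈ {ω | ∀ i < k, ω ∉ FrE e G S₂ (T i) (A i) (B i)}
        · rw [Set.indicator_of_mem g3, Set.indicator_of_mem (g2.2 g3)]
          rfl
        · rw [Set.indicator_of_notMem g3, Set.indicator_of_notMem (fun h => g3 (g2.1 h))])
    have k2 := (mul_le_mul_of_nonneg_right (hV k (by omega)) (Ex_nn (D := D) (η := η) hQ hF'0)).trans
      k1
    have k3 : Ex Q D η (fun ω => F ω *
        ({ω | ∀ i < k + 1, ω ∉ FrE e G S₂ (T i) (A i) (B i)} : Set Cfg).indicator 1 ω) =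
        Ex Q D η F' -
          Ex Q D η (fun ω => F' ω * (FrE e G S₂ (T k) (A k) (B k)).indicator 1 ω) := by
      rw [← Vale.Agent.P167.FKA.Ex_sub]
      refine congrArg (Ex Q D η) (funext fun ω => ?_)
      rw [hF']
      simp only
      by_cases g1 : ω ∈ {ω | ∀ i < k, ω ∉ FrE e G S₂ (T i) (A i) (B i)}
      · by_cases g2 : ω ∈ FrE e G S₂ (T k) (A k) (B k)
        · rw [Set.indicator_of_notMem, Set.indicator_of_mem g1, Set.indicator_of_mem g2]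
          · simp
          · intro h
            exact h k (by omega) g2
        · rw [Set.indicator_of_mem, Set.indicator_of_mem g1, Set.indicator_of_notMem g2]
          · simp
          · intro i hi
            rcases Nat.lt_succ_iff_lt_or_eq.1 hi with h | rfl
            · exact g1 i h
            · exact g2
      · rw [Set.indicator_of_notMem, Set.indicator_of_notMem g1]
        · simp
        · intro h
          exact g1 fun i hi => h i (by omega)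
    rw [k3]
    rw [← hF'] at ih'
    have k4 : 0 ≤ 1 - κ := by linarith
    calc Ex Q D η F' - Ex Q D η (fun ω => F' ω * (FrE e G S₂ (T k) (A k) (B k)).indicator 1 ω)
        ≤ (1 - κ) * Ex Q D η F' := by linarith
      _ ≤ (1 - κ) * ((1 - κ) ^ k * Ex Q D η F) := mul_le_mul_of_nonneg_left ih' k4
      _ = (1 - κ) ^ (k + 1) * Ex Q D η F := by ring

theorem vt_nb (e : Bool) : (!!e) = e := Bool.not_not e

/-- Both colours: no fresh path on one of the two sides. -/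
theorem both_det (hr : 1 ≤ r) (hR : r < R) {k : ℕ} {T : ℕ → Finset Pt} {A B : ℕ → Set Pt}
    (hT : ∀ i < k, T i ⊆ dF b r R) (hA : ∀ i < k, A i ⊆ fl e b (-R) (-r))
    (hB : ∀ i < k, B i ⊆ fl e b r R) {ω : Cfg} (h1 : ω ∈ Xc e b r R) (h2 : ω ∈ Xc (!e) b r R) :
    (∀ i < k, ω ∉ FrE e (dF b r R) (fl (!e) b (-R) (-r)) (T i) (A i) (B i)) ∨
      (∀ i < k, ω ∉ FrE e (dF b r R) (fl (!e) b r R) (T i) (B i) (A i)) := by
  by_contra hcon
  push Not at hcon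
  obtain ⟨⟨i, hi, k1⟩, ⟨j, hj, k2⟩⟩ := hcon
  rw [Xc_eq hr hR] at h1 h2
  obtain ⟨u, hu, v, hv, huv⟩ := h2
  have H := quad0 hr hR (!e) b
  rw [vt_nb] at H
  have q1 : u ∈ Cl (!e) (dF b r R : Set Pt) (fl (!e) b (-R) (-r)) ω := by
    refine touch (e := e) (P₂ := fl e b (-R) (-r)) (P₄ := fl e b r R) (T := (T i : Set Pt))
      (A := A i) (B := B i) H.swap24 (fan_dF hr hR (!e)) fl_par (fun s hs => ?_)
      (by exact_mod_cast hT i hi) (hA i hi) (hB i hi) (Jn.mono ?_ ?_ (Set.Subset.refl _) k1) hu hv huv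
    · have := nx_flL (e := !e) hr hR le_rfl (by omega) le_rfl hs
      rwa [vt_nb] at this
    · rw [coe_sdiff, coe_Rv]
    · refine Set.union_subset_union_right _ (Vc.mono ?_)
      rw [coe_inter, coe_Rv]
      exact Set.inter_subset_left
  have q2 : u ∈ Cl (!e) (dF b r R : Set Pt) (fl (!e) b r R) ω := by
    refine touch (e := e) (P₂ := fl e b r R) (P₄ := fl e b (-R) (-r)) (T := (T j : Set Pt))
      (A := B j) (B := A j) H (fan_dF hr hR (!e)) fl_par (fun s hs => ?_)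
      (by exact_mod_cast hT j hj) (hB j hj) (hA j hj) (Jn.mono ?_ ?_ (Set.Subset.refl _) k2) hu hv huv
    · have := nx_flR (e := !e) hr hR le_rfl hR le_rfl hs
      rwa [vt_nb] at this
    · rw [coe_sdiff, coe_Rv]
    · refine Set.union_subset_union_right _ (Vc.mono ?_)
      rw [coe_inter, coe_Rv]
      exact Set.inter_subset_left
  obtain ⟨s, hs, hsu⟩ := q1
  obtain ⟨s', hs', hsu'⟩ := q2
  exact ((quad0 hr hR e b).iff ω).1 h1 ⟨s', hs', s, hs, hsu'.trans hsu.symm⟩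

/-- Both colours, `k` dyadic half annuli. -/
theorem both_k (hQ : 0 < Q) (hQ1 : Q ≤ 1) {κ : ℝ} (_hκ0 : 0 ≤ κ) (hκ : κ ≤ 1)
    (hV : ∀ (e : Bool) (b : Pt) (m R : ℤ), 0 ≤ m → m < R → 2 * R ≤ (4 : ℕ) * (R - m) →
      κ ≤ VT Q e (dF b m R) (fl e b (-R) (-m)) (fl e b m R)) (hη : Good η) (hr : 1 ≤ r)
    (hR : r < R) {k : ℕ} (hk : 2 ^ k * r ≤ R) (hD : dF b r R ⊆ D) (hF0 : ∀ ω, 0 ≤ F ω)
    (hF : Ind (dF b r R) F) :
    Ex Q D η (fun ω => F ω * (Xc e b r R ∩ Xc (!e) b r R).indicator 1 ω) ≤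
      2 * (1 - κ) ^ k * Ex Q D η (fun ω => F ω * (Xc e b r R).indicator 1 ω) := by
  obtain ⟨X, hX⟩ : ∃ X : Set Cfg, X = Xc e b r R := ⟨_, rfl⟩
  obtain ⟨T, hT⟩ : ∃ T : ℕ → Finset Pt, T = fun i => dF b (2 ^ i * r) (2 ^ (i + 1) * r) :=
    ⟨_, rfl⟩
  obtain ⟨A, hA⟩ : ∃ A : ℕ → Set Pt, A = fun i => fl e b (-(2 ^ (i + 1) * r)) (-(2 ^ i * r)) :=
    ⟨_, rfl⟩
  obtain ⟨B, hB⟩ : ∃ B : ℕ → Set Pt, B = fun i => fl e b (2 ^ i * r) (2 ^ (i + 1) * r) := ⟨_, rfl⟩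
  have pw : ∀ i : ℕ, (1 : ℤ) ≤ 2 ^ i := fun i => one_le_pow₀ (by norm_num)
  have g1 : ∀ i : ℕ, r ≤ 2 ^ i * r := fun i => by nlinarith [pw i]
  have g2 : ∀ i : ℕ, (2 : ℤ) ^ (i + 1) * r = 2 * (2 ^ i * r) := fun i => by rw [pow_succ]; ring
  have g3 : ∀ i < k, (2 : ℤ) ^ (i + 1) * r ≤ R := fun i hi => by
    refine le_trans ?_ hk
    exact mul_le_mul_of_nonneg_right (pow_le_pow_right₀ (by norm_num) (by omega)) (by omega)
  have hTG : ∀ i < k, T i ⊆ dF b r R := fun i hi => by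
    rw [hT]
    exact dF_sub (g1 i) (g3 i hi) (by omega)
  have hmon : ∀ i j : ℕ, i < j → (2 : ℤ) ^ (i + 1) * r ≤ 2 ^ j * r := fun i j hij =>
    mul_le_mul_of_nonneg_right (pow_le_pow_right₀ (by norm_num) (by omega)) (by omega)
  have hdj : ∀ i j, i < k → j < k → i ≠ j → Disjoint (T i) (T j) := by
    intro i j _ _ hij
    rw [hT]
    rcases Nat.lt_or_gt_of_ne hij with h | h
    · exact dF_disj (hmon i j h)
    · exact (dF_disj (hmon j i h)).symm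
  have hAb : ∀ i, A i ⊆ Bd e (T i) := fun i => by rw [hA, hT]; exact fl_bd dF_bd
  have hBb : ∀ i, B i ⊆ Bd e (T i) := fun i => by rw [hB, hT]; exact fl_bd dF_bd
  have hAs : ∀ i < k, A i ⊆ fl e b (-R) (-r) := fun i hi => by
    rw [hA]
    exact fl_mono (by have := g3 i hi; omega) (by have := g1 i; omega)
  have hBs : ∀ i < k, B i ⊆ fl e b r R := fun i hi => by
    rw [hB]
    exact fl_mono (g1 i) (g3 i hi)
  have hVT : ∀ i, κ ≤ VT Q e (T i) (A i) (B i) := fun i => by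
    rw [hT, hA, hB]
    refine hV e b _ _ (by have := g1 i; omega) ?_ ?_
    · rw [g2]; have := g1 i; omega
    · rw [g2]; push_cast; have := g1 i; omega
  obtain ⟨F', hF'⟩ : ∃ F' : Cfg → ℝ, F' = fun ω => F ω * X.indicator 1 ω := ⟨_, rfl⟩
  have hF'0 : ∀ ω, 0 ≤ F' ω := fun ω => by
    rw [hF']
    exact mul_nonneg (hF0 _) (ind_nn _ _)
  have hpast : ∀ {S₂ : Set Pt}, Quad e (dF b r R : Set Pt) (So e b r) (So e b R) S₂
      (fl (!e) b (-R) (-r)) ∨ Quad e (dF b r R : Set Pt) (So e b r) (So e b R) S₂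
      (fl (!e) b r R) → ∀ ω ω' : Cfg, (∀ v, v ∉ dF b r R \ Rv (!e) (dF b r R) S₂ ω → ω' v = ω v) →
      F' ω' = F' ω := by
    intro S₂ H ω ω' h
    have k1 : F ω' = F ω := hF ω' ω fun v hv => h v fun h' => hv (mem_sdiff.1 h').1
    have k2 : ω' ∈ X ↔ ω ∈ X := by
      rw [hX, Xc_eq hr hR]
      rcases H with H | H
      · exact H.past fun v hv => h v fun h' => (mem_sdiff.1 h').2 (mem_Rv.2 hv)
      · exact H.past fun v hv => h v fun h' => (mem_sdiff.1 h').2 (mem_Rv.2 hv)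
    rw [hF']
    simp only
    rw [k1]
    congr 1
    by_cases k3 : ω ∈ X
    · rw [Set.indicator_of_mem k3, Set.indicator_of_mem (k2.2 k3)]
      rfl
    · rw [Set.indicator_of_notMem k3, Set.indicator_of_notMem (fun h => k3 (k2.1 h))]
  have m1 := many (e := e) (D := D) (F := F') (S₂ := fl (!e) b (-R) (-r)) hQ hQ1 hη hD fl_par hκ k T
    A B hTG hdj (fun i _ => hAb i) (fun i _ => hBb i) (fun i _ => hVT i) hF'0
    (hpast (Or.inr (quad0 hr hR e b).swap24))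
  have m2 := many (e := e) (D := D) (F := F') (S₂ := fl (!e) b r R) hQ hQ1 hη hD fl_par hκ k T
    B A hTG hdj (fun i _ => hBb i) (fun i _ => hAb i) (fun i _ => by
      rw [VT_comm hQ]
      exact hVT i) hF'0 (hpast (Or.inl (quad0 hr hR e b)))
  obtain ⟨N₁, hN₁⟩ : ∃ N : Set Cfg, N = {ω | ∀ i < k, ω ∉ FrE e (dF b r R)
    (fl (!e) b (-R) (-r)) (T i) (A i) (B i)} := ⟨_, rfl⟩
  obtain ⟨N₂, hN₂⟩ : ∃ N : Set Cfg, N = {ω | ∀ i < k, ω ∉ FrE e (dF b r R)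
    (fl (!e) b r R) (T i) (B i) (A i)} := ⟨_, rfl⟩
  rw [← hN₁] at m1
  rw [← hN₂] at m2
  have key : Ex Q D η (fun ω => F ω * (Xc e b r R ∩ Xc (!e) b r R).indicator 1 ω) ≤
      Ex Q D η (fun ω => F' ω * N₁.indicator 1 ω + F' ω * N₂.indicator 1 ω) := by
    refine Ex_mono hQ fun S _ => ?_
    obtain ⟨ω, hω⟩ : ∃ ω, ω = cf D η S := ⟨_, rfl⟩
    rw [← hω]
    by_cases h : ω ∈ Xc e b r R ∩ Xc (!e) b r R
    · have hx : X.indicator (1 : Cfg → ℝ) ω = 1 := by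
        rw [Set.indicator_of_mem (hX ▸ h.1)]
        rfl
      have h1 : F' ω = F ω := by
        rw [hF']
        simp only
        rw [hx, mul_one]
      rw [Set.indicator_of_mem h, h1]
      rcases both_det (e := e) hr hR hTG hAs hBs h.1 h.2 with h2 | h2
      · have h3 : ω ∈ N₁ := by rw [hN₁]; exact h2
        rw [Set.indicator_of_mem h3]
        have := mul_nonneg (hF0 ω) (ind_nn N₂ ω)
        simpa using this
      · have h3 : ω ∈ N₂ := by rw [hN₂]; exact h2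
        rw [Set.indicator_of_mem h3]
        have := mul_nonneg (hF0 ω) (ind_nn N₁ ω)
        simpa using this
    · rw [Set.indicator_of_notMem h, mul_zero]
      exact add_nonneg (mul_nonneg (hF'0 _) (ind_nn _ _)) (mul_nonneg (hF'0 _) (ind_nn _ _))
  rw [FKA.Ex_add] at key
  have e1 : Ex Q D η (fun ω => F ω * (Xc e b r R).indicator 1 ω) = Ex Q D η F' := by
    rw [hF', hX]
  rw [e1]
  linarith

theorem pow_rpow {ρ : ℝ} (h0 : 0 < ρ) (h1 : ρ < 1) : ∃ α : ℝ, 0 < α ∧ ∀ (k : ℕ) (r R : ℤ),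
    1 ≤ r → r ≤ R → R < 2 ^ (k + 1) * r → ρ ^ k ≤ ρ⁻¹ * ((r : ℝ) / R) ^ α := by
  have hα : 0 < Real.logb (1 / 2) ρ := Real.logb_pos_of_base_lt_one (by norm_num) (by norm_num) h0 h1
  refine ⟨Real.logb (1 / 2) ρ, hα, fun k r R hr hR hk => ?_⟩
  have hrp : (0 : ℝ) < r := by exact_mod_cast (by omega : 0 < r)
  have hRp : (0 : ℝ) < R := by exact_mod_cast (by omega : 0 < R)
  have e1 : ((1 / 2 : ℝ)) ^ Real.logb (1 / 2) ρ = ρ := Real.rpow_logb (by norm_num) (by norm_num) h0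
  have e2 : ((1 / 2 : ℝ) ^ (k + 1)) ^ Real.logb (1 / 2) ρ = ρ ^ (k + 1) := by
    rw [← Real.rpow_pow_comm (by norm_num), e1]
  have e3 : (1 / 2 : ℝ) ^ (k + 1) ≤ (r : ℝ) / R := by
    rw [le_div_iff₀ hRp, one_div, inv_pow, inv_mul_le_iff₀ (by positivity)]
    exact_mod_cast hk.le
  have e4 : ρ ^ (k + 1) ≤ ((r : ℝ) / R) ^ Real.logb (1 / 2) ρ := by
    rw [← e2]
    exact Real.rpow_le_rpow (by positivity) e3 hα.le
  rw [pow_succ] at e4
  rw [← div_eq_inv_mul, le_div_iff₀ h0]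
  exact e4

theorem ex_pow (hr : 1 ≤ r) (hR : r ≤ R) : ∃ k : ℕ, 2 ^ k * r ≤ R ∧ R < 2 ^ (k + 1) * r := by
  have hrp : (0 : ℝ) < r := by exact_mod_cast (by omega : 0 < r)
  have h1 : (1 : ℝ) ≤ (R : ℝ) / r := by
    rw [le_div_iff₀ hrp, one_mul]
    exact_mod_cast hR
  obtain ⟨k, h2, h3⟩ := exists_nat_pow_near h1 (show (1 : ℝ) < 2 by norm_num)
  rw [le_div_iff₀ hrp] at h2
  rw [div_lt_iff₀ hrp] at h3
  exact ⟨k, by exact_mod_cast h2, by exact_mod_cast h3⟩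

/-- **Both colours cross one half annulus.** -/
theorem both_F (hQ : 0 < Q) (hQ1 : Q ≤ 1) (hV : VRS Q) : ∃ α C : ℝ, 0 < α ∧ 1 ≤ C ∧
    ∀ (e : Bool) (b : Pt) (r R : ℤ) (D : Finset Pt) (η : Cfg) (F : Cfg → ℝ), 1 ≤ r → r ≤ R →
      Good η → dF b r R ⊆ D → (∀ ω, 0 ≤ F ω) → Ind (dF b r R) F →
      Ex Q D η (fun ω => F ω * (Xc e b r R ∩ Xc (!e) b r R).indicator 1 ω) ≤
        C * ((r : ℝ) / R) ^ α * Ex Q D η (fun ω => F ω * (Xc e b r R).indicator 1 ω) := by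
  obtain ⟨κ, h1, h1', H1⟩ := VT_dF hQ hQ1 hV 4
  have hρ0 : 0 < 1 - κ / 2 := by linarith
  have hρ1 : 1 - κ / 2 < 1 := by linarith
  obtain ⟨α, hα, H2⟩ := pow_rpow hρ0 hρ1
  have hC : 1 ≤ 2 * (1 - κ / 2)⁻¹ := by
    have : 1 ≤ (1 - κ / 2)⁻¹ := by
      rw [one_le_inv₀ hρ0]
      linarith
    linarith
  refine ⟨α, 2 * (1 - κ / 2)⁻¹, hα, hC, fun e b r R D η F hr hrR hη hD hF0 hF => ?_⟩
  have hE : 0 ≤ Ex Q D η (fun ω => F ω * (Xc e b r R).indicator 1 ω) :=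
    Ex_nn hQ fun ω => mul_nonneg (hF0 _) (ind_nn _ _)
  rcases hrR.eq_or_lt with h | hlt
  · have hrp : (0 : ℝ) < r := by exact_mod_cast (by omega : 0 < r)
    rw [← h, div_self hrp.ne', Real.one_rpow, mul_one]
    rw [← h] at hE
    refine (Ex_sub hQ hF0 Set.inter_subset_left).trans (le_mul_of_one_le_left hE hC)
  obtain ⟨k, hk1, hk2⟩ := ex_pow hr hrR
  have k1 := both_k (e := e) (b := b) (D := D) (F := F) (κ := κ / 2) hQ hQ1 (by linarith)
    (by linarith) (fun e b m R g1 g2 g3 => by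
      have := H1 e b m R g1 g2 g3
      linarith) hη hr hlt hk1 hD hF0 hF
  refine k1.trans (mul_le_mul_of_nonneg_right ?_ hE)
  have k2 := H2 k r R hr hrR hk2
  calc 2 * (1 - κ / 2) ^ k ≤ 2 * ((1 - κ / 2)⁻¹ * ((r : ℝ) / R) ^ α) := by linarith
    _ = 2 * (1 - κ / 2)⁻¹ * ((r : ℝ) / R) ^ α := by ring

end Vale.Agent.P167.N.NET
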