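import Vale.Agent.P167.N.NET.Half
import Vale.Agent.P167.N.NET.Vrs

/-!
# P167, nets for `q < 1`: arms in half annuli, constants

`cross_F`: comparable radii. `out_F`, `inn_F`: extension outwards and inwards. `glue_F`: gluing. Any
domain containing the half annulus, any good configuration outside, both colours, any nonnegative
factor `F` which does not read the half annulus.
-/

set_option autoImplicit false
set_option linter.unusedSectionVars false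

namespace Vale.Agent.P167.N.NET

open Finset Vale.Agent.P167 Vale.Agent.P167.FK Vale.Agent.P167.FKA Vale.Agent.P167.H816
  Vale.Agent.P167.H262 Vale.Agent.P167.H632 Vale.Agent.P167.H871 Vale.Agent.P167.H192.TA
open Vale.Agent.P145.FB (PStep PConn)
open Relation (ReflTransGen)

variable {Q : ℝ} {D T : Finset Pt} {η : Cfg} {e : Bool} {b : Pt} {r r' s s' m m' R R' x y x' y' : ℤ}
  {F : Cfg → ℝ} {A B : Set Pt}

/-- A tube, with a factor which does not read it. -/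
theorem ex_VT (hQ : 0 < Q) (hQ1 : Q ≤ 1) (hη : Good η) (hT : T ⊆ D) (hA : A ⊆ Bd e T)
    (hB : B ⊆ Bd e T) (hF0 : ∀ ω, 0 ≤ F ω) (hF : Ind T F) :
    VT Q e T A B * Ex Q D η F ≤ Ex Q D η (fun ω => F ω * (Jn e ↑T A B).indicator 1 ω) := by
  classical
  have h := net_core (e := e) hQ hQ1 hT (K₁ := fun _ => ∅) (K₂ := fun _ => ∅) stop_empty stop_empty
    (fun _ => empty_subset _) (fun _ => empty_subset _) hA hB (r0_le e D η) η (F := F) hF0
    (fun ω ω' h => hF ω' ω fun v hv => h v fun h' => hv (mem_sdiff.1 h').1)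
    (𝒜 := Jn e ↑T A B) (fun ω _ hJ => by
      refine Jn.mono ?_ ?_ ?_ hJ
      · simp
      · refine Set.union_subset (Set.Subset.refl _) ?_
        rintro x ⟨v, hv, -⟩
        simp at hv
      · refine Set.union_subset (Set.Subset.refl _) ?_
        rintro x ⟨v, hv, -⟩
        simp at hv)
  rw [Ex_cc hQ hη e, Ex_cc hQ hη e]
  simp only [ind_ite]
  exact h

/-- The indicator of an event of a set of squares. -/
theorem ind_Jn {G T : Finset Pt} (h : Disjoint G T) : Ind T ((Jn e ↑G A B).indicator 1) := by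
  have key : ∀ ω ω' : Cfg, (∀ v, v ∉ T → ω v = ω' v) → ω ∈ Jn e ↑G A B → ω' ∈ Jn e ↑G A B := by
    rintro ω ω' h1 ⟨u, hu, v, hv, h2⟩
    refine ⟨u, hu, v, hv, h2.mono ?_⟩
    rintro t ⟨ht1, ht2⟩
    refine ⟨?_, ht2⟩
    have h3 : t ∉ T := fun h4 => (Finset.disjoint_left.1 h) (mem_coe.1 ht2) h4
    have h5 := h1 t h3
    simp only [cs, Set.mem_ofPred_eq] at ht1 ⊢
    rw [← h5]
    exact ht1
  intro ω ω' h1
  have h2 : ω ∈ Jn e ↑G A B ↔ ω' ∈ Jn e ↑G A B :=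
    ⟨key ω ω' h1, key ω' ω fun v hv => (h1 v hv).symm⟩
  by_cases h3 : ω ∈ Jn e ↑G A B
  · rw [Set.indicator_of_mem h3, Set.indicator_of_mem (h2.1 h3)]
    rfl
  · rw [Set.indicator_of_notMem h3, Set.indicator_of_notMem (fun h4 => h3 (h2.2 h4))]

theorem Ind.mul' {A : Finset Pt} {F G : Cfg → ℝ} (hF : Ind A F) (hG : Ind A G) :
    Ind A (fun ω => F ω * G ω) := by
  intro ω ω' h
  simp only [hF ω ω' h, hG ω ω' h]

theorem Ind.sub' {A A' : Finset Pt} {F : Cfg → ℝ} (hF : Ind A F) (h : A' ⊆ A) : Ind A' F :=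
  fun ω ω' h1 => hF ω ω' fun v hv => h1 v fun h' => hv (h h')

theorem dF_disj (h : s ≤ s') : Disjoint (dF b r s) (dF b s' R) := by
  rw [Finset.disjoint_left]
  intro v h1 h2
  have g1 := mem_dFc.1 (mem_coe.2 h1)
  have g2 := mem_dFc.1 (mem_coe.2 h2)
  omega

theorem ind_nn (U : Set Cfg) (ω : Cfg) : (0 : ℝ) ≤ U.indicator 1 ω :=
  Set.indicator_nonneg (fun _ _ => zero_le_one) _

theorem ind_le (U : Set Cfg) (ω : Cfg) : U.indicator (1 : Cfg → ℝ) ω ≤ 1 :=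
  Set.indicator_le_self' (fun _ _ => zero_le_one) ω

/-- Dropping an indicator. -/
theorem Ex_drop (hQ : 0 < Q) (hF0 : ∀ ω, 0 ≤ F ω) (U : Set Cfg) :
    Ex Q D η (fun ω => F ω * U.indicator 1 ω) ≤ Ex Q D η F :=
  Ex_mono hQ fun _ _ => mul_le_of_le_one_right (hF0 _) (ind_le U _)

theorem Ex_nn (hQ : 0 < Q) (hF0 : ∀ ω, 0 ≤ F ω) : 0 ≤ Ex Q D η F := by
  have := Ex_mono (D := D) (η := η) hQ (F := fun _ => 0) (G := F) fun _ _ => hF0 _
  rwa [Ex_const hQ] at this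

/-- **Comparable radii.** -/
theorem cross_F (hQ : 0 < Q) (hQ1 : Q ≤ 1) (hV : VRS Q) (M : ℕ) : ∃ κ : ℝ, 0 < κ ∧ κ ≤ 1 ∧
    ∀ (e : Bool) (b : Pt) (r R : ℤ) (D : Finset Pt) (η : Cfg) (F : Cfg → ℝ), 1 ≤ r → r < R →
      R ≤ M * r → Good η → dF b r R ⊆ D → (∀ ω, 0 ≤ F ω) → Ind (dF b r R) F →
      κ * Ex Q D η F ≤ Ex Q D η (fun ω => F ω * (Xc e b r R).indicator 1 ω) := by
  obtain ⟨κ, hκ, hκ1, h⟩ := hV M
  refine ⟨κ, hκ, hκ1, fun e b r R D η F hr hR hM hη hD hF0 hF => ?_⟩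
  have hsub : Rsq b.1 (b.1 + r) (b.2 + r) (b.2 + R) ⊆ dF b r R := by
    intro v hv
    rw [mem_Rsq] at hv
    rw [← mem_coe, mem_dFc]
    omega
  have k1 := (h e b.1 (b.1 + r) (b.2 + r) (b.2 + R) (by omega) (by omega)).2 (by
    have e1 : b.1 + r - b.1 = r := by ring
    rw [e1]
    omega)
  have k2 := ex_VT (e := e) (D := D) (T := Rsq b.1 (b.1 + r) (b.2 + r) (b.2 + R))
    (A := Hs e (b.2 + r) b.1 (b.1 + r)) (B := Hs e (b.2 + R) b.1 (b.1 + r)) hQ hQ1 hη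
    (hsub.trans hD) (bd_bot fun t ht => (mem_Rsq.1 ht).2.2.1)
    (bd_top fun t ht => (mem_Rsq.1 ht).2.2.2) hF0 (Ind.sub' hF hsub)
  refine (mul_le_mul_of_nonneg_right k1 (Ex_nn hQ hF0)).trans (k2.trans (Ex_sub hQ hF0 ?_))
  refine sub_Xc hr hR (by exact_mod_cast hsub) ?_ ?_
  · rintro u ⟨u1, u2, u3, u4⟩
    refine ⟨?_, ?_, ?_, ?_, ?_, u4⟩ <;> omega
  · rintro u ⟨u1, u2, u3, u4⟩
    refine ⟨?_, ?_, ?_, ?_, ?_, u4⟩ <;> omega

/-- The half annulus as a corridor. -/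
theorem VT_dF (hQ : 0 < Q) (hQ1 : Q ≤ 1) (hV : VRS Q) (M : ℕ) : ∃ κ : ℝ, 0 < κ ∧ κ ≤ 1 ∧
    ∀ (e : Bool) (b : Pt) (m R : ℤ), 0 ≤ m → m < R → 2 * R ≤ M * (R - m) →
      κ ≤ VT Q e (dF b m R) (fl e b (-R) (-m)) (fl e b m R) := by
  obtain ⟨κ, hκ, hκ1, h⟩ := VT_arch hQ hQ1 hV M
  refine ⟨κ, hκ, hκ1, fun e b m R h0 h1 h2 => ?_⟩
  have e1 : b.1 + -m - (b.1 + -R) = R - m := by ring
  have e2 : b.1 + R - (b.1 + m) = R - m := by ring
  have e3 : b.2 + R - (b.2 + m) = R - m := by ring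
  have k := (h e (b.1 + -R) (b.1 + -m) (b.1 + m) (b.1 + R) b.2 b.2 (b.2 + m) (b.2 + R) (by omega)
    (by omega) (by omega) (by omega) (by omega) (by omega) (by rw [e1]; omega)
    (by rw [e2]; omega) (by rw [e3]; omega)).1
  have e4 : arch (b.1 + -R) (b.1 + -m) (b.1 + m) (b.1 + R) b.2 b.2 (b.2 + m) (b.2 + R) =
      dF b m R := by
    ext v
    rw [mem_arch, ← mem_coe (s := dF b m R), mem_dFc]
    omega
  rw [e4] at k
  exact k

theorem nm_geR {u : Pt} (h : R ≤ u.1 - b.1) : R ≤ nm (u - b) := by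
  rw [le_nm]
  simp only [Prod.fst_sub, Prod.snd_sub]
  omega

/-- **Extension outwards.** -/
theorem out_F (hQ : 0 < Q) (hQ1 : Q ≤ 1) (hV : VRS Q) (M : ℕ) : ∃ κ : ℝ, 0 < κ ∧ κ ≤ 1 ∧
    ∀ (e : Bool) (b : Pt) (r R R' : ℤ) (D : Finset Pt) (η : Cfg) (F : Cfg → ℝ), 1 ≤ r → r ≤ R →
      R ≤ R' → R' ≤ M * R → Good η → dF b r R' ⊆ D → (∀ ω, 0 ≤ F ω) → Ind (dF b r R') F →
      κ * Ex Q D η (fun ω => F ω * (Xc e b r R).indicator 1 ω) ≤
        Ex Q D η (fun ω => F ω * (Xc e b r R').indicator 1 ω) := by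
  obtain ⟨κ₁, h1, h1', H1⟩ := cross_F hQ hQ1 hV (4 * M)
  obtain ⟨κ₂, h2, h2', H2⟩ := VT_dF hQ hQ1 hV 4
  obtain ⟨κ₃, h3, h3', H3, -⟩ := VT_ell hQ hQ1 hV (3 * M + 2)
  have hκ : κ₁ * (κ₂ * κ₃) ≤ 1 := mul_le_one₀ h1' (by positivity) (mul_le_one₀ h2' h3.le h3')
  refine ⟨κ₁ * (κ₂ * κ₃), by positivity, hκ, fun e b r R R' D η F hr hrR hRR hM hη hD hF0 hF => ?_⟩
  have hXn : ∀ ω, 0 ≤ F ω * (Xc e b r R).indicator 1 ω := fun ω => mul_nonneg (hF0 _) (ind_nn _ _)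
  have hE := Ex_nn (D := D) (η := η) hQ hXn
  rcases hRR.eq_or_lt with h | hlt
  · rw [← h]
    exact mul_le_of_le_one_left hE hκ
  by_cases hc : R < 4 * r
  · have k1 := H1 e b r R' D η F hr (by omega) (by
      push_cast
      nlinarith) hη hD hF0 hF
    have k2 := Ex_drop (D := D) (η := η) hQ hF0 (Xc e b r R)
    have k3 : κ₁ * (κ₂ * κ₃) ≤ κ₁ := mul_le_of_le_one_right h1.le (mul_le_one₀ h2' h3.le h3')
    calc _ ≤ κ₁ * Ex Q D η (fun ω => F ω * (Xc e b r R).indicator 1 ω) :=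
          mul_le_mul_of_nonneg_right k3 hE
      _ ≤ κ₁ * Ex Q D η F := mul_le_mul_of_nonneg_left k2 h1.le
      _ ≤ _ := k1
  obtain ⟨m, hm1, hm2⟩ : ∃ m : ℤ, 2 * m ≤ R ∧ R ≤ 2 * m + 1 := ⟨R / 2, by omega, by omega⟩
  have hM0 : (0 : ℤ) ≤ M := by positivity
  have k1 := land_out (e := e) (D := D) hQ hQ1 hη hr (show r ≤ m by omega) (show m < R by omega)
    ((dF_sub le_rfl hRR (by omega)).trans hD) hF0 (Ind.sub' hF (dF_sub (by omega) hRR (by omega)))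
  have k2 := H2 e b m R (by omega) (by omega) (by push_cast; omega)
  obtain ⟨T, hT⟩ : ∃ T : Finset Pt, T = Rsq (b.1 + r) (b.1 + m) b.2 (b.2 + m) ∪
    Rsq (b.1 + r) (b.1 + R') b.2 (b.2 + m) := ⟨_, rfl⟩
  have k3 := H3 e (b.1 + r) (b.1 + m) (b.1 + R') b.2 b.2 (b.2 + m) (by omega) (by omega) le_rfl
    (by omega) (by
      have e1 : b.2 + m - b.2 = m := by ring
      have e2 : b.1 + m - (b.1 + r) = m - r := by ring
      rw [e1, e2]
      push_cast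
      nlinarith) (by
      have e1 : b.2 + m - b.2 = m := by ring
      have e2 : b.1 + R' - (b.1 + r) = R' - r := by ring
      rw [e1, e2]
      push_cast
      nlinarith)
  rw [← hT] at k3
  have hmT : ∀ t ∈ T, b.1 + r ≤ t.1 ∧ t.1 < b.1 + R' ∧ b.2 ≤ t.2 ∧ t.2 < b.2 + m := by
    intro t ht
    rw [hT, mem_union, mem_Rsq, mem_Rsq] at ht
    omega
  have hTs : T ⊆ dF b r R' := by
    intro t ht
    have := hmT t ht
    rw [← mem_coe, mem_dFc]
    omega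
  have k4 := ext_o (e := e) (D := D) (T := T) (B := Vs e (b.1 + R') b.2 (b.2 + m)) (x := r) (y := m)
    (F := F) hQ hQ1 hη hr (show r < m by omega) (show m ≤ R by omega) le_rfl le_rfl
    ((dF_sub le_rfl hRR (by omega)).trans hD) (hTs.trans hD)
    (fun t ht => by
      have := hmT t ht
      omega)
    (bd_right fun t ht => (hmT t ht).2.1)
    (fun z hz => ⟨hz.2.1, nm_geR (by have := hz.1; omega)⟩) hF0 (Ind.sub' hF hTs)
  have k5 : Ex Q D η (fun ω => F ω *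
      (Jn e ((dF b r R : Set Pt) ∪ T) (So e b r) (Vs e (b.1 + R') b.2 (b.2 + m))).indicator 1 ω) ≤
      Ex Q D η (fun ω => F ω * (Xc e b r R').indicator 1 ω) := by
    refine Ex_sub hQ hF0 (sub_Xc hr (by omega) ?_ (Set.Subset.refl _) ?_)
    · refine Set.union_subset ?_ (by exact_mod_cast hTs)
      exact_mod_cast dF_sub (b := b) (r := r) le_rfl hRR (by omega)
    · rintro u ⟨u1, u2, u3, u4⟩
      refine ⟨?_, ?_, ?_, ?_, ?_, u4⟩ <;> omega
  have n1 : 0 ≤ Ex Q D η (fun ω => F ω *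
      (Jn e (dF b r R : Set Pt) (So e b r) (fl e b m R)).indicator 1 ω) :=
    Ex_nn hQ fun ω => mul_nonneg (hF0 _) (ind_nn _ _)
  calc κ₁ * (κ₂ * κ₃) * Ex Q D η (fun ω => F ω * (Xc e b r R).indicator 1 ω)
      ≤ (κ₂ * κ₃) * Ex Q D η (fun ω => F ω * (Xc e b r R).indicator 1 ω) :=
        mul_le_mul_of_nonneg_right (mul_le_of_le_one_left (by positivity) h1') hE
    _ = κ₃ * (κ₂ * Ex Q D η (fun ω => F ω * (Xc e b r R).indicator 1 ω)) := by ring
    _ ≤ κ₃ * Ex Q D η (fun ω => F ω *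
        (Jn e (dF b r R : Set Pt) (So e b r) (fl e b m R)).indicator 1 ω) :=
        mul_le_mul_of_nonneg_left ((mul_le_mul_of_nonneg_right k2 hE).trans k1) h3.le
    _ ≤ _ := (mul_le_mul_of_nonneg_right k3 n1).trans (k4.trans k5)

/-- **Extension inwards.** -/
theorem inn_F (hQ : 0 < Q) (hQ1 : Q ≤ 1) (hV : VRS Q) (M : ℕ) : ∃ κ : ℝ, 0 < κ ∧ κ ≤ 1 ∧
    ∀ (e : Bool) (b : Pt) (r r' R : ℤ) (D : Finset Pt) (η : Cfg) (F : Cfg → ℝ), 1 ≤ r' → r' ≤ r →
      r ≤ R → r ≤ M * r' → Good η → dF b r' R ⊆ D → (∀ ω, 0 ≤ F ω) → Ind (dF b r' R) F →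
      κ * Ex Q D η (fun ω => F ω * (Xc e b r R).indicator 1 ω) ≤
        Ex Q D η (fun ω => F ω * (Xc e b r' R).indicator 1 ω) := by
  obtain ⟨κ₁, h1, h1', H1⟩ := cross_F hQ hQ1 hV (4 * M)
  obtain ⟨κ₂, h2, h2', H2⟩ := VT_dF hQ hQ1 hV 4
  obtain ⟨κ₃, h3, h3', -, H3, -⟩ := VT_ell hQ hQ1 hV (4 * M + 1)
  have hκ : κ₁ * (κ₂ * κ₃) ≤ 1 := mul_le_one₀ h1' (by positivity) (mul_le_one₀ h2' h3.le h3')
  refine ⟨κ₁ * (κ₂ * κ₃), by positivity, hκ, fun e b r r' R D η F hr hrr hrR hM hη hD hF0 hF => ?_⟩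
  have hXn : ∀ ω, 0 ≤ F ω * (Xc e b r R).indicator 1 ω := fun ω => mul_nonneg (hF0 _) (ind_nn _ _)
  have hE := Ex_nn (D := D) (η := η) hQ hXn
  rcases hrr.eq_or_lt with h | hlt
  · rw [h]
    exact mul_le_of_le_one_left hE hκ
  by_cases hc : R < 4 * r
  · have k1 := H1 e b r' R D η F hr (by omega) (by
      push_cast
      nlinarith) hη hD hF0 hF
    have k2 := Ex_drop (D := D) (η := η) hQ hF0 (Xc e b r R)
    have k3 : κ₁ * (κ₂ * κ₃) ≤ κ₁ := mul_le_of_le_one_right h1.le (mul_le_one₀ h2' h3.le h3')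
    calc _ ≤ κ₁ * Ex Q D η (fun ω => F ω * (Xc e b r R).indicator 1 ω) :=
          mul_le_mul_of_nonneg_right k3 hE
      _ ≤ κ₁ * Ex Q D η F := mul_le_mul_of_nonneg_left k2 h1.le
      _ ≤ _ := k1
  have hr1 : 1 ≤ r := by omega
  have k1 := land_in (e := e) (D := D) hQ hQ1 hη hr1 (show r < 2 * r by omega)
    (show 2 * r ≤ R by omega) ((dF_sub hrr le_rfl (by omega)).trans hD) hF0
    (Ind.sub' hF (dF_sub hrr (by omega) (by omega)))
  have k2 := H2 e b r (2 * r) (by omega) (by omega) (by push_cast; omega)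
  obtain ⟨T, hT⟩ : ∃ T : Finset Pt, T = Rsq (b.1 + 2 * r) (b.1 + 4 * r) b.2 (b.2 + r') ∪
    Rsq (b.1 + r') (b.1 + 4 * r) b.2 (b.2 + r') := ⟨_, rfl⟩
  have k3 := H3 e (b.1 + r') (b.1 + 2 * r) (b.1 + 4 * r) b.2 b.2 (b.2 + r') (by omega) (by omega)
    le_rfl (by omega) (by
      have e1 : b.2 + r' - b.2 = r' := by ring
      have e2 : b.1 + 4 * r - (b.1 + 2 * r) = 2 * r := by ring
      rw [e1, e2]
      push_cast
      have hM0 : (0 : ℤ) ≤ M := by positivity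
      nlinarith) (by
      have e1 : b.2 + r' - b.2 = r' := by ring
      have e2 : b.1 + 4 * r - (b.1 + r') = 4 * r - r' := by ring
      rw [e1, e2]
      push_cast
      nlinarith)
  rw [← hT] at k3
  have hmT : ∀ t ∈ T, b.1 + r' ≤ t.1 ∧ t.1 < b.1 + 4 * r ∧ b.2 ≤ t.2 ∧ t.2 < b.2 + r' := by
    intro t ht
    rw [hT, mem_union, mem_Rsq, mem_Rsq] at ht
    omega
  have hTs : T ⊆ dF b r' R := by
    intro t ht
    have := hmT t ht
    rw [← mem_coe, mem_dFc]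
    omega
  have k4 := ext_i (e := e) (D := D) (T := T) (B := Vs e (b.1 + r') b.2 (b.2 + r')) (x := 2 * r)
    (y := 4 * r) (F := F) hQ hQ1 hη hr1 (show r ≤ 2 * r by omega) (show 2 * r < R by omega) le_rfl
    (by omega) ((dF_sub hrr le_rfl (by omega)).trans hD) (hTs.trans hD)
    (fun t ht => by
      have := hmT t ht
      omega)
    (bd_left fun t ht => (hmT t ht).1)
    (fun z hz => ⟨hz.2.1, by
      have g1 := hz.1
      have g2 := hz.2.1
      have g3 := hz.2.2.1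
      rw [nm_le]
      simp only [Prod.fst_sub, Prod.snd_sub]
      omega⟩) hF0 (Ind.sub' hF hTs)
  have k5 : Ex Q D η (fun ω => F ω *
      (Jn e ((dF b r R : Set Pt) ∪ T) (So e b R) (Vs e (b.1 + r') b.2 (b.2 + r'))).indicator 1 ω) ≤
      Ex Q D η (fun ω => F ω * (Xc e b r' R).indicator 1 ω) := by
    refine Ex_sub hQ hF0 ?_
    rw [Jn.symm]
    refine sub_Xc hr (by omega) ?_ ?_ (Set.Subset.refl _)
    · refine Set.union_subset ?_ (by exact_mod_cast hTs)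
      exact_mod_cast dF_sub (b := b) (R' := R) hrr le_rfl (by omega)
    · rintro u ⟨u1, u2, u3, u4⟩
      refine ⟨?_, ?_, ?_, ?_, ?_, u4⟩ <;> omega
  have n1 : 0 ≤ Ex Q D η (fun ω => F ω *
      (Jn e (dF b r R : Set Pt) (So e b R) (fl e b r (2 * r))).indicator 1 ω) :=
    Ex_nn hQ fun ω => mul_nonneg (hF0 _) (ind_nn _ _)
  calc κ₁ * (κ₂ * κ₃) * Ex Q D η (fun ω => F ω * (Xc e b r R).indicator 1 ω)
      ≤ (κ₂ * κ₃) * Ex Q D η (fun ω => F ω * (Xc e b r R).indicator 1 ω) :=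
        mul_le_mul_of_nonneg_right (mul_le_of_le_one_left (by positivity) h1') hE
    _ = κ₃ * (κ₂ * Ex Q D η (fun ω => F ω * (Xc e b r R).indicator 1 ω)) := by ring
    _ ≤ κ₃ * Ex Q D η (fun ω => F ω *
        (Jn e (dF b r R : Set Pt) (So e b R) (fl e b r (2 * r))).indicator 1 ω) :=
        mul_le_mul_of_nonneg_left ((mul_le_mul_of_nonneg_right k2 hE).trans k1) h3.le
    _ ≤ _ := (mul_le_mul_of_nonneg_right k3 n1).trans (k4.trans k5)

theorem ind_inter (U V : Set Cfg) (ω : Cfg) : (U ∩ V).indicator (1 : Cfg → ℝ) ω =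
    U.indicator 1 ω * V.indicator 1 ω := by
  rw [Set.inter_indicator_one]
  rfl

/-- **Gluing.** -/
theorem glue_F (hQ : 0 < Q) (hQ1 : Q ≤ 1) (hV : VRS Q) (M : ℕ) : ∃ κ : ℝ, 0 < κ ∧ κ ≤ 1 ∧
    ∀ (e : Bool) (b : Pt) (r s s' R : ℤ) (D : Finset Pt) (η : Cfg) (F : Cfg → ℝ), 1 ≤ r → r ≤ s →
      s < s' → s' ≤ R → s' ≤ M * s → Good η → dF b r R ⊆ D → (∀ ω, 0 ≤ F ω) →
      Ind (dF b r R) F →
      κ * Ex Q D η (fun ω => F ω * (Xc e b r s ∩ Xc e b s' R).indicator 1 ω) ≤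
        Ex Q D η (fun ω => F ω * (Xc e b r R).indicator 1 ω) := by
  obtain ⟨κ₁, h1, h1', H1⟩ := inn_F hQ hQ1 hV (4 * M)
  obtain ⟨κ₂, h2, h2', H2⟩ := out_F hQ hQ1 hV (4 * M)
  obtain ⟨κ₃, h3, h3', H3⟩ := VT_dF hQ hQ1 hV 4
  obtain ⟨κ₄, h4, h4', H4⟩ := VT_arch hQ hQ1 hV (12 * M + 2)
  refine ⟨κ₁ * κ₂ * (κ₃ * κ₃ * κ₄), by positivity, ?_, fun e b r s s' R D η F hr hrs hss hsR hM hη hD
    hF0 hF => ?_⟩
  · exact mul_le_one₀ (mul_le_one₀ h1' h2.le h2') (by positivity)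
      (mul_le_one₀ (mul_le_one₀ h3' h3.le h3') h4.le h4')
  have hl : κ₃ * κ₃ * κ₄ ≤ 1 := mul_le_one₀ (mul_le_one₀ h3' h3.le h3') h4.le h4'
  have hXn : ∀ ω, 0 ≤ F ω * (Xc e b r s ∩ Xc e b s' R).indicator 1 ω :=
    fun ω => mul_nonneg (hF0 _) (ind_nn _ _)
  have hE := Ex_nn (D := D) (η := η) hQ hXn
  have hM0 : (0 : ℤ) ≤ M := by positivity
  by_cases c1 : s < 4 * r
  · have k1 := H1 e b s' r R D η F hr (by omega) hsR (by push_cast; nlinarith) hη hD hF0 hF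
    have k2 : Ex Q D η (fun ω => F ω * (Xc e b r s ∩ Xc e b s' R).indicator 1 ω) ≤
        Ex Q D η (fun ω => F ω * (Xc e b s' R).indicator 1 ω) :=
      Ex_sub hQ hF0 Set.inter_subset_right
    calc _ ≤ κ₁ * Ex Q D η (fun ω => F ω * (Xc e b r s ∩ Xc e b s' R).indicator 1 ω) :=
          mul_le_mul_of_nonneg_right (by
            rw [mul_assoc]
            exact mul_le_of_le_one_right h1.le (mul_le_one₀ h2' (by positivity) hl)) hE
      _ ≤ κ₁ * Ex Q D η (fun ω => F ω * (Xc e b s' R).indicator 1 ω) :=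
          mul_le_mul_of_nonneg_left k2 h1.le
      _ ≤ _ := k1
  by_cases c2 : R < 4 * s'
  · have k1 := H2 e b r s R D η F hr hrs (by omega) (by push_cast; nlinarith) hη hD hF0 hF
    have k2 : Ex Q D η (fun ω => F ω * (Xc e b r s ∩ Xc e b s' R).indicator 1 ω) ≤
        Ex Q D η (fun ω => F ω * (Xc e b r s).indicator 1 ω) :=
      Ex_sub hQ hF0 Set.inter_subset_left
    calc _ ≤ κ₂ * Ex Q D η (fun ω => F ω * (Xc e b r s ∩ Xc e b s' R).indicator 1 ω) :=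
          mul_le_mul_of_nonneg_right (by
            rw [mul_comm κ₁, mul_assoc]
            exact mul_le_of_le_one_right h2.le (mul_le_one₀ h1' (by positivity) hl)) hE
      _ ≤ κ₂ * Ex Q D η (fun ω => F ω * (Xc e b r s).indicator 1 ω) :=
          mul_le_mul_of_nonneg_left k2 h2.le
      _ ≤ _ := k1
  -- both annuli are thick
  obtain ⟨m, hm1, hm2⟩ : ∃ m : ℤ, 2 * m ≤ s ∧ s ≤ 2 * m + 1 := ⟨s / 2, by omega, by omega⟩
  have hD1 : dF b r s ⊆ dF b r R := dF_sub le_rfl (by omega) (by omega)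
  have hD2 : dF b s' R ⊆ dF b r R := dF_sub (by omega) le_rfl (by omega)
  have hdj : Disjoint (dF b r s) (dF b s' R) := dF_disj hss.le
  obtain ⟨J₁, hJ₁⟩ : ∃ J : Set Cfg, J = Jn e (dF b r s : Set Pt) (So e b r) (fl e b m s) := ⟨_, rfl⟩
  obtain ⟨J₂, hJ₂⟩ : ∃ J : Set Cfg, J = Jn e (dF b s' R : Set Pt) (So e b R)
    (fl e b s' (2 * s')) := ⟨_, rfl⟩
  have q1 := land_out (e := e) (b := b) (D := D) (F := fun ω => F ω * (Xc e b s' R).indicator 1 ω)
    (m := m) hQ hQ1 hη hr (show r ≤ m by omega) (show m < s by omega) (hD1.trans hD)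
    (fun ω => mul_nonneg (hF0 _) (ind_nn _ _)) (Ind.mul' (Ind.sub' hF
      ((dF_sub (by omega) le_rfl (by omega)).trans hD1)) (by
        rw [Xc_eq (show 1 ≤ s' by omega) (show s' < R by omega)]
        exact Ind.sub' (ind_Jn hdj.symm) (dF_sub (by omega) le_rfl (by omega))))
  have q2 := land_in (e := e) (b := b) (D := D) (F := fun ω => F ω * J₁.indicator 1 ω)
    (m := 2 * s') hQ hQ1 hη (show 1 ≤ s' by omega) (show s' < 2 * s' by omega)
    (show 2 * s' ≤ R by omega) (hD2.trans hD) (fun ω => mul_nonneg (hF0 _) (ind_nn _ _))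
    (Ind.mul' (Ind.sub' hF ((dF_sub le_rfl (by omega) (by omega)).trans hD2)) (by
        rw [hJ₁]
        exact Ind.sub' (ind_Jn hdj) (dF_sub le_rfl (by omega) (by omega))))
  rw [← hJ₁] at q1
  rw [← hJ₂] at q2
  obtain ⟨T, hT⟩ : ∃ T : Finset Pt, T = arch (b.1 + r) (b.1 + m) (b.1 + 2 * s') (b.1 + 4 * s')
    b.2 b.2 b.2 (b.2 + m) := ⟨_, rfl⟩
  have hmT : ∀ t ∈ T, b.1 + r ≤ t.1 ∧ t.1 < b.1 + 4 * s' ∧ b.2 ≤ t.2 ∧ t.2 < b.2 + m := by
    intro t ht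
    rw [hT, mem_arch] at ht
    omega
  have hTs : T ⊆ dF b r R := by
    intro t ht
    have := hmT t ht
    rw [← mem_coe, mem_dFc]
    omega
  have k4 := (H4 e (b.1 + r) (b.1 + m) (b.1 + 2 * s') (b.1 + 4 * s') b.2 b.2 b.2 (b.2 + m)
    (by omega) (by omega) (by omega) le_rfl le_rfl (by omega) (by
      have e1 : b.2 + m - b.2 = m := by ring
      have e2 : b.1 + m - (b.1 + r) = m - r := by ring
      rw [e1, e2]
      push_cast
      nlinarith) (by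
      have e1 : b.2 + m - b.2 = m := by ring
      have e2 : b.1 + 4 * s' - (b.1 + 2 * s') = 2 * s' := by ring
      rw [e1, e2]
      push_cast
      nlinarith) (by
      have e1 : b.2 + m - b.2 = m := by ring
      have e2 : b.1 + 4 * s' - (b.1 + r) = 4 * s' - r := by ring
      rw [e1, e2]
      push_cast
      nlinarith)).1
  rw [← hT] at k4
  have q3 := glue_h (e := e) (b := b) (D := D) (T := T) (F := F) (x := r) (y := m) (x' := 2 * s')
    (y' := 4 * s') hQ hQ1 hη hr (show r < m by omega) (show m ≤ s by omega) hss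
    (show s' ≤ 2 * s' by omega) (show 2 * s' < R by omega) le_rfl le_rfl le_rfl (by omega) hD hTs
    hF0 (Ind.sub' hF hTs)
  rw [← hJ₁, ← hJ₂] at q3
  have k2 := H3 e b m s (by omega) (by omega) (by push_cast; omega)
  have k3 := H3 e b s' (2 * s') (by omega) (by omega) (by push_cast; omega)
  -- rewriting of the indicators
  have w1 : Ex Q D η (fun ω => F ω * (Xc e b r s ∩ Xc e b s' R).indicator 1 ω) =
      Ex Q D η (fun ω => F ω * (Xc e b s' R).indicator 1 ω * (Xc e b r s).indicator 1 ω) := by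
    refine congrArg (Ex Q D η) (funext fun ω => ?_)
    rw [ind_inter]
    ring
  have w2 : Ex Q D η (fun ω => F ω * (Xc e b s' R).indicator 1 ω * J₁.indicator 1 ω) =
      Ex Q D η (fun ω => F ω * J₁.indicator 1 ω * (Xc e b s' R).indicator 1 ω) :=
    congrArg (Ex Q D η) (funext fun ω => by ring)
  have w3 : Ex Q D η (fun ω => F ω * J₁.indicator 1 ω * J₂.indicator 1 ω) =
      Ex Q D η (fun ω => F ω * (J₁ ∩ J₂).indicator 1 ω) := by
    refine congrArg (Ex Q D η) (funext fun ω => ?_)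
    rw [ind_inter]
    ring
  have n1 : 0 ≤ Ex Q D η (fun ω => F ω * J₁.indicator 1 ω * (Xc e b s' R).indicator 1 ω) :=
    Ex_nn hQ fun ω => mul_nonneg (mul_nonneg (hF0 _) (ind_nn _ _)) (ind_nn _ _)
  have n2 : 0 ≤ Ex Q D η (fun ω => F ω * (J₁ ∩ J₂).indicator 1 ω) :=
    Ex_nn hQ fun ω => mul_nonneg (hF0 _) (ind_nn _ _)
  calc κ₁ * κ₂ * (κ₃ * κ₃ * κ₄) *
        Ex Q D η (fun ω => F ω * (Xc e b r s ∩ Xc e b s' R).indicator 1 ω)
      ≤ (κ₃ * κ₃ * κ₄) * Ex Q D η (fun ω => F ω * (Xc e b r s ∩ Xc e b s' R).indicator 1 ω) :=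
        mul_le_mul_of_nonneg_right (mul_le_of_le_one_left (by positivity)
          (mul_le_one₀ h1' h2.le h2')) hE
    _ = κ₄ * (κ₃ * (κ₃ *
        Ex Q D η (fun ω => F ω * (Xc e b r s ∩ Xc e b s' R).indicator 1 ω))) := by ring
    _ ≤ κ₄ * (κ₃ * Ex Q D η (fun ω => F ω * J₁.indicator 1 ω *
        (Xc e b s' R).indicator 1 ω)) := by
        refine mul_le_mul_of_nonneg_left (mul_le_mul_of_nonneg_left ?_ h3.le) h4.le
        rw [← w2]
        refine le_trans ?_ q1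
        rw [w1]
        exact mul_le_mul_of_nonneg_right k2 (by rw [← w1]; exact hE)
    _ ≤ κ₄ * Ex Q D η (fun ω => F ω * (J₁ ∩ J₂).indicator 1 ω) := by
        refine mul_le_mul_of_nonneg_left ?_ h4.le
        rw [← w3]
        exact (mul_le_mul_of_nonneg_right k3 n1).trans q2
    _ ≤ _ := (mul_le_mul_of_nonneg_right k4 n2).trans q3

end Vale.Agent.P167.N.NET
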