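import Vale.Agent.P167.N.NET.Net
import Vale.Agent.P167.H704.Q.Rs

/-!
# P167, nets for `q < 1`: rectangles

`quad_V`, `quad_H`: planar duality of a rectangle. `VT_glue`: a tube `T` which crosses `G` from the
second arc to the fourth arc is extended by a crossing of `G`. `turn_*`: the same for rectangles.
-/

set_option autoImplicit false
set_option linter.unusedSectionVars false

namespace Vale.Agent.P167.N.NET

open Finset Vale.Agent.P167 Vale.Agent.P167.FK Vale.Agent.P167.H816 Vale.Agent.P167.H262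
  Vale.Agent.P167.H632 Vale.Agent.P167.H871 Vale.Agent.P167.H192.TA
open Vale.Agent.P145.FB (PStep PConn)
open Vale.Agent.P153.Topo (Rect mem_rect)
open Relation (ReflTransGen)

variable {Q : ℝ} {D T : Finset Pt} {η : Cfg} {e : Bool}

/-- Vertical segments: the sites of the colour `e` with the first coordinate `a`. -/
def Vs (e : Bool) (a c d : ℤ) : Set Pt := {x | x.1 = a ∧ c ≤ x.2 ∧ x.2 ≤ d ∧ (x.1 + x.2) % 2 = pr e}

/-- Horizontal segments: the sites of the colour `e` with the second coordinate `c`. -/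
def Hs (e : Bool) (c a b : ℤ) : Set Pt := {x | x.2 = c ∧ a ≤ x.1 ∧ x.1 ≤ b ∧ (x.1 + x.2) % 2 = pr e}

theorem Rsi_eq (a b c d : ℤ) : Rsi a b c d = Rect a b c d := rfl

/-- Exclusion in a rectangle. -/
theorem excl_rect {F : Set Pt} {e a b c d : ℤ} (he : e = 0 ∨ e = 1) {s t s' t' : Pt}
    (h : PConn F (Rect a b c d) s t) (hs : s.1 = a) (ht : t.1 = b) (hp : (s.1 + s.2) % 2 = e)
    (h' : PConn Fᶜ (Rect a b c d) s' t') (hs' : s'.2 = c) (ht' : t'.2 = d)
    (hp' : (s'.1 + s'.2) % 2 = 1 - e) : False := by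
  have k := Vale.Agent.P145.FB.lift h hp
  have k' := Vale.Agent.P145.FB.lift h' hp'
  obtain ⟨z, hz, hz'⟩ := Vale.Agent.P153.Topo.cross
    (A := Vale.Agent.P145.FB.Sc e F ∩ Rect (2 * a) (2 * b) (2 * c) (2 * d))
    (B := Vale.Agent.P145.FB.Sc (1 - e) Fᶜ ∩ Rect (2 * a) (2 * b) (2 * c) (2 * d))
    (a := 2 * a) (b := 2 * b) (c := 2 * c) (d := 2 * d)
    (fun z hz => hz.2) (fun z hz => hz.2) k (by dsimp only; omega) (by dsimp only; omega)
    k' (by dsimp only; omega) (by dsimp only; omega)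
  have h1 := hz'.1
  rw [mem_Sc_compl he] at h1
  exact h1 hz.1

theorem pw_rect {F : Set Pt} {a b c d : ℤ} {u v : Pt} (hu : u ∈ Rsi a b c d) :
    Pw (F ∩ ↑(Rsq a b c d)) u v ↔ PConn F (Rect a b c d) u v := rtg_rect hu

/-- Duality, horizontal crossings of the colour `e`. -/
theorem quad_H (e : Bool) {a b c d : ℤ} (hab : a ≤ b) (hcd : c ≤ d) :
    Quad e ↑(Rsq a b c d) (Vs e a c d) (Vs e b c d) (Hs (!e) c a b) (Hs (!e) d a b) := by
  refine ⟨fun u hu => hu.2.2.2, fun u hu => hu.2.2.2, fun u hu => hu.2.2.2, fun u hu => hu.2.2.2,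
    fun ω => ⟨?_, fun h => ?_⟩⟩
  · rintro ⟨u, ⟨u1, u2, u3, u4⟩, v, ⟨v1, v2, v3, v4⟩, h⟩ ⟨s, ⟨s1, s2, s3, s4⟩, t, ⟨t1, t2, t3, t4⟩, h'⟩
    rw [pw_rect (by simp only [Rsi, Set.mem_ofPred_eq]; omega)] at h
    rw [pw_rect (by simp only [Rsi, Set.mem_ofPred_eq]; omega), ← cs_compl] at h'
    exact excl_rect (pr_or e) h u1 v1 u4 h' s1 t1 (by rw [s4, pr_not])
  · rcases H704.Q.alt_H e hab hcd ω with ⟨s, t, h1, h2, h3, h4⟩ | ⟨s, t, h1, h2, h3, h4⟩
    · have m1 := h4.left_mem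
      have m2 := h4.right_mem
      rw [mem_rect] at m1 m2
      refine ⟨s, ⟨h1, by omega, by omega, h3⟩, t, ⟨h2, by omega, by omega, by rw [← h4.parity, h3]⟩,
        (pw_rect ?_).2 h4⟩
      exact h4.left_mem
    · exfalso
      have m1 := h4.left_mem
      have m2 := h4.right_mem
      rw [mem_rect] at m1 m2
      refine h ⟨s, ⟨h1, by omega, by omega, h3⟩, t, ⟨h2, by omega, by omega,
        by rw [← h4.parity, h3]⟩, (pw_rect ?_).2 h4⟩
      exact h4.left_mem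

/-- Duality, vertical crossings of the colour `e`. -/
theorem quad_V (e : Bool) {a b c d : ℤ} (hab : a ≤ b) (hcd : c ≤ d) :
    Quad e ↑(Rsq a b c d) (Hs e c a b) (Hs e d a b) (Vs (!e) a c d) (Vs (!e) b c d) := by
  have h := (quad_H (!e) hab hcd).other
  simp only [Bool.not_not] at h
  exact h

theorem fan_rect (e : Bool) (a b c d : ℤ) : Fan e ↑(Rsq a b c d) := by
  refine fan_of ?_ ?_
  · intro m n h1 h2
    left
    rw [mem_coe, mem_Rsq] at *
    dsimp only at *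
    omega
  · intro m n h1 h2
    left
    rw [mem_coe, mem_Rsq] at *
    dsimp only at *
    omega

/-! ### Gluing tubes -/

open Classical in
/-- A connection inside a part of the domain, arbitrary exterior relation. -/
theorem VT_le_r (hQ : 0 < Q) (hQ1 : Q ≤ 1) (hT : T ⊆ D) {A B : Set Pt} (hA : A ⊆ Bd e T)
    (hB : B ⊆ Bd e T) {r : Setoid Pt} (hr : r ≤ wir (Bd e D)) (η : Cfg) :
    VT Q e T A B ≤ GP (ea e) (eb e) (fun _ => Q) (Q ^ 2) D r
      (fun S => cc e D η S ∈ Jn e ↑T A B) := by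
  have h := net_core (e := e) hQ hQ1 hT (K₁ := fun _ => ∅) (K₂ := fun _ => ∅) stop_empty stop_empty
    (fun _ => empty_subset _) (fun _ => empty_subset _) hA hB hr η (F := fun _ => 1)
    (fun _ => zero_le_one) (fun _ _ _ => rfl) (𝒜 := Jn e ↑T A B) (fun ω _ hJ => by
      refine Jn.mono ?_ ?_ ?_ hJ
      · simp
      · refine Set.union_subset (Set.Subset.refl _) ?_
        rintro x ⟨v, hv, -⟩
        simp at hv
      · refine Set.union_subset (Set.Subset.refl _) ?_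
        rintro x ⟨v, hv, -⟩
        simp at hv)
  rw [GE_const (fun _ => hQ.le) (pow_pos hQ 2), mul_one] at h
  refine h.trans (le_of_eq ?_)
  rw [GP]
  refine GE_congr (pow_pos hQ 2) (fun _ _ _ _ => Iff.rfl) fun S _ => ?_
  rw [one_mul]

theorem HK1_sub {e : Bool} {G T A₁ A₃ B : Set Pt} : HK1 e G T A₁ A₃ B ⊆ Jn e (G ∪ T) A₁ B := by
  rintro ω ⟨a, ⟨u, hu, v, -, h1, -⟩, z, hz, h2⟩
  exact ⟨u, hu, z, hz, (h1.mono (Set.inter_subset_inter_right _ Set.subset_union_left)).trans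
    (h2.mono (Set.inter_subset_inter_right _ Set.subset_union_right))⟩

/-- **Gluing.** -/
theorem VT_glue (hQ : 0 < Q) (hQ1 : Q ≤ 1) {G : Finset Pt} {A₁ A₃ S₂ S₄ A B : Set Pt}
    (H : Quad e ↑G A₁ A₃ S₂ S₄) (hG : Fan e ↑G) (h1 : A₁ ⊆ Bd e G) (h3 : A₃ ⊆ Bd e G)
    (hA : A ⊆ Bd e T) (hAG : Beg e ↑G S₂ A) (hTG : Exi e ↑G S₄ ↑T) (hB : B ⊆ Bd e T)
    (hBG : ∀ z ∈ B, z ∈ Vc e ↑G → Nx e ↑G S₄ z) :
    VT Q e T A B * VT Q e G A₁ A₃ ≤ VT Q e (G ∪ T) A₁ B := by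
  classical
  have hq : 0 < Q ^ 2 := pow_pos hQ 2
  have k1 := VT_le_r (e := e) hQ hQ1 (subset_union_left (s₁ := G) (s₂ := T)) h1 h3
    (le_refl (wir (Bd e (G ∪ T)))) eta0
  have k2 := net1_r (e := e) hQ hQ1 (subset_union_right (s₁ := G) (s₂ := T))
    (subset_union_left (s₁ := G) (s₂ := T)) H hG hA hAG hTG hB hBG (le_refl (wir (Bd e (G ∪ T))))
    eta0 (F := fun _ => 1) (fun _ => zero_le_one) (fun _ _ _ => rfl)
  simp only [one_mul] at k2
  have k3 : VT Q e T A B * VT Q e G A₁ A₃ ≤ VT Q e T A B *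
      GE (ea e) (eb e) (fun _ => Q) (Q ^ 2) (G ∪ T) (wir (Bd e (G ∪ T)))
        (fun S => if cc e (G ∪ T) eta0 S ∈ Jn e ↑G A₁ A₃ then 1 else 0) :=
    mul_le_mul_of_nonneg_left k1 (VT_nonneg hQ e T A B)
  refine k3.trans (k2.trans ?_)
  unfold VT VG GP
  refine GE_mono (fun _ => hQ.le) hq fun S hS => ?_
  by_cases h : cc e (G ∪ T) eta0 S ∈ HK1 e ↑G ↑T A₁ A₃ B
  · have h4 := HK1_sub h
    rw [← coe_union, Jn_iff H.p1 hS] at h4
    rw [if_pos h, if_pos h4]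
  · rw [if_neg h]
    split_ifs <;> norm_num

end Vale.Agent.P167.N.NET
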