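import Vale.Agent.P167.N.NET.QuadP
import Vale.Agent.P167.N.NET.Rect
import Vale.Agent.P167.H192.TA.Stage

/-!
# P167, nets for `q < 1`: the polygon of a half annulus
-/

set_option autoImplicit false
set_option linter.unusedVariables false

namespace Vale.Agent.P167.N.NET

open Vale.Agent.P145.FB Vale.Agent.P167 Vale.Agent.P167.H871 Vale.Agent.P167.H632
  Vale.Agent.P167.H192.TA Vale.Agent.P167.H531
open Vale.Agent.P167.E6 (IsPolygon Encloses dir face)
open Relation (ReflTransGen)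

/-- The boundary of the half annulus, counterclockwise from the site `(b.1 + r, b.2)`. -/
def hv (b : Pt) (r R k : ℤ) : Pt :=
  if k ≤ R - r then (b.1 + r + k, b.2)
  else if k ≤ 2 * R - r then (b.1 + R, b.2 + (k + r - R))
  else if k ≤ 4 * R - r then (b.1 + (3 * R - r - k), b.2 + R)
  else if k ≤ 5 * R - r then (b.1 - R, b.2 + (5 * R - r - k))
  else if k ≤ 6 * R - 2 * r then (b.1 + (k + r - 6 * R), b.2)
  else if k ≤ 6 * R - r then (b.1 - r, b.2 + (k + 2 * r - 6 * R))
  else if k ≤ 6 * R + r then (b.1 + (k - 6 * R), b.2 + r)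
  else (b.1 + r, b.2 + (6 * R + 2 * r - k))

variable {b : Pt} {r R : ℤ} {e : Bool}

theorem hv_a (hr : 1 ≤ r) (hR : r < R) {k : ℤ} (h1 : 0 ≤ k) (h2 : k ≤ R - r) :
    hv b r R k = (b.1 + r + k, b.2) := by
  unfold hv
  rw [if_pos h2]

theorem hv_b (hr : 1 ≤ r) (hR : r < R) {k : ℤ} (h1 : R - r ≤ k) (h2 : k ≤ 2 * R - r) :
    hv b r R k = (b.1 + R, b.2 + (k + r - R)) := by
  rcases h1.eq_or_lt with h | h
  · unfold hv
    rw [if_pos (by omega)]
    exact Prod.ext (by simp only; omega) (by simp only; omega)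
  · unfold hv
    rw [if_neg (by omega), if_pos h2]

theorem hv_c (hr : 1 ≤ r) (hR : r < R) {k : ℤ} (h1 : 2 * R - r ≤ k) (h2 : k ≤ 4 * R - r) :
    hv b r R k = (b.1 + (3 * R - r - k), b.2 + R) := by
  rcases h1.eq_or_lt with h | h
  · unfold hv
    rw [if_neg (by omega), if_pos (by omega)]
    exact Prod.ext (by simp only; omega) (by simp only; omega)
  · unfold hv
    rw [if_neg (by omega), if_neg (by omega), if_pos h2]

theorem hv_d (hr : 1 ≤ r) (hR : r < R) {k : ℤ} (h1 : 4 * R - r ≤ k) (h2 : k ≤ 5 * R - r) :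
    hv b r R k = (b.1 - R, b.2 + (5 * R - r - k)) := by
  rcases h1.eq_or_lt with h | h
  · unfold hv
    rw [if_neg (by omega), if_neg (by omega), if_pos (by omega)]
    exact Prod.ext (by simp only; omega) (by simp only; omega)
  · unfold hv
    rw [if_neg (by omega), if_neg (by omega), if_neg (by omega), if_pos h2]

theorem hv_e (hr : 1 ≤ r) (hR : r < R) {k : ℤ} (h1 : 5 * R - r ≤ k) (h2 : k ≤ 6 * R - 2 * r) :
    hv b r R k = (b.1 + (k + r - 6 * R), b.2) := by
  rcases h1.eq_or_lt with h | h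
  · unfold hv
    rw [if_neg (by omega), if_neg (by omega), if_neg (by omega), if_pos (by omega)]
    exact Prod.ext (by simp only; omega) (by simp only; omega)
  · unfold hv
    rw [if_neg (by omega), if_neg (by omega), if_neg (by omega), if_neg (by omega), if_pos h2]

theorem hv_f (hr : 1 ≤ r) (hR : r < R) {k : ℤ} (h1 : 6 * R - 2 * r ≤ k) (h2 : k ≤ 6 * R - r) :
    hv b r R k = (b.1 - r, b.2 + (k + 2 * r - 6 * R)) := by
  rcases h1.eq_or_lt with h | h
  · unfold hv
    rw [if_neg (by omega), if_neg (by omega), if_neg (by omega), if_neg (by omega), if_pos (by omega)]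
    exact Prod.ext (by simp only; omega) (by simp only; omega)
  · unfold hv
    rw [if_neg (by omega), if_neg (by omega), if_neg (by omega), if_neg (by omega), if_neg (by omega), if_pos h2]

theorem hv_g (hr : 1 ≤ r) (hR : r < R) {k : ℤ} (h1 : 6 * R - r ≤ k) (h2 : k ≤ 6 * R + r) :
    hv b r R k = (b.1 + (k - 6 * R), b.2 + r) := by
  rcases h1.eq_or_lt with h | h
  · unfold hv
    rw [if_neg (by omega), if_neg (by omega), if_neg (by omega), if_neg (by omega), if_neg (by omega), if_pos (by omega)]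
    exact Prod.ext (by simp only; omega) (by simp only; omega)
  · unfold hv
    rw [if_neg (by omega), if_neg (by omega), if_neg (by omega), if_neg (by omega), if_neg (by omega), if_neg (by omega), if_pos h2]

theorem hv_h (hr : 1 ≤ r) (hR : r < R) {k : ℤ} (h1 : 6 * R + r ≤ k) (h2 : k ≤ 6 * R + 2 * r) :
    hv b r R k = (b.1 + r, b.2 + (6 * R + 2 * r - k)) := by
  rcases h1.eq_or_lt with h | h
  · unfold hv
    rw [if_neg (by omega), if_neg (by omega), if_neg (by omega), if_neg (by omega), if_neg (by omega), if_neg (by omega), if_pos (by omega)]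
    exact Prod.ext (by simp only; omega) (by simp only; omega)
  · unfold hv
    rw [if_neg (by omega), if_neg (by omega), if_neg (by omega), if_neg (by omega), if_neg (by omega), if_neg (by omega), if_neg (by omega)]

/-- The index of a boundary site. -/
def hix (b : Pt) (r R : ℤ) (v : Pt) : ℤ :=
  if v.2 = b.2 ∧ b.1 + r ≤ v.1 then v.1 - b.1 - r
  else if v.1 = b.1 + R then v.2 - b.2 + R - r
  else if v.2 = b.2 + R then 3 * R - r - (v.1 - b.1)
  else if v.1 = b.1 - R then 5 * R - r - (v.2 - b.2)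
  else if v.2 = b.2 then v.1 - b.1 + 6 * R - r
  else if v.1 = b.1 - r then v.2 - b.2 + 6 * R - 2 * r
  else if v.2 = b.2 + r then v.1 - b.1 + 6 * R
  else 6 * R + 2 * r - (v.2 - b.2)

theorem hix_a (hr : 1 ≤ r) (hR : r < R) {k : ℤ} (h1 : 0 ≤ k) (h2 : k ≤ R - r)
    (h3 : k < 6 * R + 2 * r) {v : Pt} (hx : v.1 = b.1 + r + k) (hy : v.2 = b.2) :
    hix b r R v = k := by
  unfold hix
  rw [if_pos (by omega)]
  omega

theorem hix_b (hr : 1 ≤ r) (hR : r < R) {k : ℤ} (h1 : R - r < k) (h2 : k ≤ 2 * R - r)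
    (h3 : k < 6 * R + 2 * r) {v : Pt} (hx : v.1 = b.1 + R) (hy : v.2 = b.2 + (k + r - R)) :
    hix b r R v = k := by
  unfold hix
  rw [if_neg (by omega), if_pos (by omega)]
  omega

theorem hix_c (hr : 1 ≤ r) (hR : r < R) {k : ℤ} (h1 : 2 * R - r < k) (h2 : k ≤ 4 * R - r)
    (h3 : k < 6 * R + 2 * r) {v : Pt} (hx : v.1 = b.1 + (3 * R - r - k)) (hy : v.2 = b.2 + R) :
    hix b r R v = k := by
  unfold hix
  rw [if_neg (by omega), if_neg (by omega), if_pos (by omega)]
  omega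

theorem hix_d (hr : 1 ≤ r) (hR : r < R) {k : ℤ} (h1 : 4 * R - r < k) (h2 : k ≤ 5 * R - r)
    (h3 : k < 6 * R + 2 * r) {v : Pt} (hx : v.1 = b.1 - R) (hy : v.2 = b.2 + (5 * R - r - k)) :
    hix b r R v = k := by
  unfold hix
  rw [if_neg (by omega), if_neg (by omega), if_neg (by omega), if_pos (by omega)]
  omega

theorem hix_e (hr : 1 ≤ r) (hR : r < R) {k : ℤ} (h1 : 5 * R - r < k) (h2 : k ≤ 6 * R - 2 * r)
    (h3 : k < 6 * R + 2 * r) {v : Pt} (hx : v.1 = b.1 + (k + r - 6 * R)) (hy : v.2 = b.2) :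
    hix b r R v = k := by
  unfold hix
  rw [if_neg (by omega), if_neg (by omega), if_neg (by omega), if_neg (by omega), if_pos (by omega)]
  omega

theorem hix_f (hr : 1 ≤ r) (hR : r < R) {k : ℤ} (h1 : 6 * R - 2 * r < k) (h2 : k ≤ 6 * R - r)
    (h3 : k < 6 * R + 2 * r) {v : Pt} (hx : v.1 = b.1 - r) (hy : v.2 = b.2 + (k + 2 * r - 6 * R)) :
    hix b r R v = k := by
  unfold hix
  rw [if_neg (by omega), if_neg (by omega), if_neg (by omega), if_neg (by omega), if_neg (by omega), if_pos (by omega)]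
  omega

theorem hix_g (hr : 1 ≤ r) (hR : r < R) {k : ℤ} (h1 : 6 * R - r < k) (h2 : k ≤ 6 * R + r)
    (h3 : k < 6 * R + 2 * r) {v : Pt} (hx : v.1 = b.1 + (k - 6 * R)) (hy : v.2 = b.2 + r) :
    hix b r R v = k := by
  unfold hix
  rw [if_neg (by omega), if_neg (by omega), if_neg (by omega), if_neg (by omega), if_neg (by omega), if_neg (by omega), if_pos (by omega)]
  omega

theorem hix_h (hr : 1 ≤ r) (hR : r < R) {k : ℤ} (h1 : 6 * R + r < k) (h2 : k ≤ 6 * R + 2 * r)
    (h3 : k < 6 * R + 2 * r) {v : Pt} (hx : v.1 = b.1 + r) (hy : v.2 = b.2 + (6 * R + 2 * r - k)) :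
    hix b r R v = k := by
  unfold hix
  rw [if_neg (by omega), if_neg (by omega), if_neg (by omega), if_neg (by omega), if_neg (by omega), if_neg (by omega), if_neg (by omega)]
  omega

theorem hix_hv (hr : 1 ≤ r) (hR : r < R) {k : ℤ} (hk0 : 0 ≤ k) (hk : k < 6 * R + 2 * r) :
    hix b r R (hv b r R k) = k := by
  by_cases ca : k ≤ R - r
  · rw [hv_a hr hR (by omega) ca]
    exact hix_a hr hR (by omega) ca hk rfl rfl
  by_cases cb : k ≤ 2 * R - r
  · rw [hv_b hr hR (by omega) cb]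
    exact hix_b hr hR (by omega) cb hk rfl rfl
  by_cases cc : k ≤ 4 * R - r
  · rw [hv_c hr hR (by omega) cc]
    exact hix_c hr hR (by omega) cc hk rfl rfl
  by_cases cd : k ≤ 5 * R - r
  · rw [hv_d hr hR (by omega) cd]
    exact hix_d hr hR (by omega) cd hk rfl rfl
  by_cases ce : k ≤ 6 * R - 2 * r
  · rw [hv_e hr hR (by omega) ce]
    exact hix_e hr hR (by omega) ce hk rfl rfl
  by_cases cf : k ≤ 6 * R - r
  · rw [hv_f hr hR (by omega) cf]
    exact hix_f hr hR (by omega) cf hk rfl rfl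
  by_cases cg : k ≤ 6 * R + r
  · rw [hv_g hr hR (by omega) cg]
    exact hix_g hr hR (by omega) cg hk rfl rfl
  rw [hv_h hr hR (by omega) (by omega)]
  exact hix_h hr hR (by omega) (by omega) hk rfl rfl

theorem hv_inj (hr : 1 ≤ r) (hR : r < R) {k l : ℤ} (hk0 : 0 ≤ k) (hk : k < 6 * R + 2 * r)
    (hl0 : 0 ≤ l) (hl : l < 6 * R + 2 * r) (h : hv b r R k = hv b r R l) : k = l := by
  rw [← hix_hv (b := b) hr hR hk0 hk, h, hix_hv hr hR hl0 hl]

theorem st_a (hr : 1 ≤ r) (hR : r < R) {k : ℤ} (h1 : 0 ≤ k) (h2 : k < R - r) :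
    hv b r R (k + 1) = hv b r R k + (1, 0) := by
  rw [hv_a hr hR (by omega : 0 ≤ k + 1) (by omega), hv_a hr hR h1 h2.le]
  exact Prod.ext (by simp only [Prod.fst_add]; omega) (by simp only [Prod.snd_add]; omega)

theorem st_b (hr : 1 ≤ r) (hR : r < R) {k : ℤ} (h1 : R - r ≤ k) (h2 : k < 2 * R - r) :
    hv b r R (k + 1) = hv b r R k + (0, 1) := by
  rw [hv_b hr hR (by omega : R - r ≤ k + 1) (by omega), hv_b hr hR h1 h2.le]
  exact Prod.ext (by simp only [Prod.fst_add]; omega) (by simp only [Prod.snd_add]; omega)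

theorem st_c (hr : 1 ≤ r) (hR : r < R) {k : ℤ} (h1 : 2 * R - r ≤ k) (h2 : k < 4 * R - r) :
    hv b r R (k + 1) = hv b r R k + (-1, 0) := by
  rw [hv_c hr hR (by omega : 2 * R - r ≤ k + 1) (by omega), hv_c hr hR h1 h2.le]
  exact Prod.ext (by simp only [Prod.fst_add]; omega) (by simp only [Prod.snd_add]; omega)

theorem st_d (hr : 1 ≤ r) (hR : r < R) {k : ℤ} (h1 : 4 * R - r ≤ k) (h2 : k < 5 * R - r) :
    hv b r R (k + 1) = hv b r R k + (0, -1) := by
  rw [hv_d hr hR (by omega : 4 * R - r ≤ k + 1) (by omega), hv_d hr hR h1 h2.le]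
  exact Prod.ext (by simp only [Prod.fst_add]; omega) (by simp only [Prod.snd_add]; omega)

theorem st_e (hr : 1 ≤ r) (hR : r < R) {k : ℤ} (h1 : 5 * R - r ≤ k) (h2 : k < 6 * R - 2 * r) :
    hv b r R (k + 1) = hv b r R k + (1, 0) := by
  rw [hv_e hr hR (by omega : 5 * R - r ≤ k + 1) (by omega), hv_e hr hR h1 h2.le]
  exact Prod.ext (by simp only [Prod.fst_add]; omega) (by simp only [Prod.snd_add]; omega)

theorem st_f (hr : 1 ≤ r) (hR : r < R) {k : ℤ} (h1 : 6 * R - 2 * r ≤ k) (h2 : k < 6 * R - r) :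
    hv b r R (k + 1) = hv b r R k + (0, 1) := by
  rw [hv_f hr hR (by omega : 6 * R - 2 * r ≤ k + 1) (by omega), hv_f hr hR h1 h2.le]
  exact Prod.ext (by simp only [Prod.fst_add]; omega) (by simp only [Prod.snd_add]; omega)

theorem st_g (hr : 1 ≤ r) (hR : r < R) {k : ℤ} (h1 : 6 * R - r ≤ k) (h2 : k < 6 * R + r) :
    hv b r R (k + 1) = hv b r R k + (1, 0) := by
  rw [hv_g hr hR (by omega : 6 * R - r ≤ k + 1) (by omega), hv_g hr hR h1 h2.le]
  exact Prod.ext (by simp only [Prod.fst_add]; omega) (by simp only [Prod.snd_add]; omega)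

theorem st_h (hr : 1 ≤ r) (hR : r < R) {k : ℤ} (h1 : 6 * R + r ≤ k) (h2 : k < 6 * R + 2 * r) :
    hv b r R (k + 1) = hv b r R k + (0, -1) := by
  rw [hv_h hr hR (by omega : 6 * R + r ≤ k + 1) (by omega), hv_h hr hR h1 h2.le]
  exact Prod.ext (by simp only [Prod.fst_add]; omega) (by simp only [Prod.snd_add]; omega)


theorem hv_step (hr : 1 ≤ r) (hR : r < R) {k : ℤ} (hk0 : 0 ≤ k) (hk : k < 6 * R + 2 * r) :
    (hv b r R (k + 1) = hv b r R k + (1, 0) ∧ (k < R - r ∨ (5 * R - r ≤ k ∧ k < 6 * R - 2 * r) ∨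
      (6 * R - r ≤ k ∧ k < 6 * R + r))) ∨
    (hv b r R (k + 1) = hv b r R k + (0, 1) ∧ ((R - r ≤ k ∧ k < 2 * R - r) ∨
      (6 * R - 2 * r ≤ k ∧ k < 6 * R - r))) ∨
    (hv b r R (k + 1) = hv b r R k + (-1, 0) ∧ (2 * R - r ≤ k ∧ k < 4 * R - r)) ∨
    (hv b r R (k + 1) = hv b r R k + (0, -1) ∧ ((4 * R - r ≤ k ∧ k < 5 * R - r) ∨
      6 * R + r ≤ k)) := by
  by_cases c1 : k < R - r
  · exact Or.inl ⟨st_a hr hR hk0 c1, Or.inl c1⟩
  by_cases c2 : k < 2 * R - r
  · exact Or.inr (Or.inl ⟨st_b hr hR (by omega) c2, Or.inl (by omega)⟩)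
  by_cases c3 : k < 4 * R - r
  · exact Or.inr (Or.inr (Or.inl ⟨st_c hr hR (by omega) c3, by omega⟩))
  by_cases c4 : k < 5 * R - r
  · exact Or.inr (Or.inr (Or.inr ⟨st_d hr hR (by omega) c4, Or.inl (by omega)⟩))
  by_cases c5 : k < 6 * R - 2 * r
  · exact Or.inl ⟨st_e hr hR (by omega) c5, Or.inr (Or.inl (by omega))⟩
  by_cases c6 : k < 6 * R - r
  · exact Or.inr (Or.inl ⟨st_f hr hR (by omega) c6, Or.inr (by omega)⟩)
  by_cases c7 : k < 6 * R + r
  · exact Or.inl ⟨st_g hr hR (by omega) c7, Or.inr (Or.inr (by omega))⟩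
  · exact Or.inr (Or.inr (Or.inr ⟨st_h hr hR (by omega) hk, Or.inr (by omega)⟩))

/-- The number of sites of the boundary. -/
def hn (r R : ℤ) : ℕ := (6 * R + 2 * r).toNat

theorem hn_eq (hr : 1 ≤ r) (hR : r < R) : ((hn r R : ℕ) : ℤ) = 6 * R + 2 * r := by
  unfold hn
  omega

/-- The polygon of the half annulus. -/
def hP (b : Pt) (r R : ℤ) (i : ZMod (hn r R)) : Pt := hv b r R ((i.val : ℕ) : ℤ)

theorem hP_nat (hr : 1 ≤ r) (hR : r < R) {k : ℕ} (hk : (k : ℤ) ≤ 6 * R + 2 * r) :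
    hP b r R (k : ZMod (hn r R)) = hv b r R k := by
  have hn := hn_eq hr hR
  have : NeZero (NET.hn r R) := ⟨by omega⟩
  unfold hP
  rcases hk.lt_or_eq with h | h
  · rw [ZMod.val_natCast, Nat.mod_eq_of_lt (by omega)]
  · have h2 : k = NET.hn r R := by omega
    rw [h2, ZMod.val_natCast, Nat.mod_self, hn]
    unfold hv
    rw [if_pos (by push_cast; omega), if_neg (by omega), if_neg (by omega), if_neg (by omega),
      if_neg (by omega), if_neg (by omega), if_neg (by omega), if_neg (by omega)]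
    ext <;> simp

theorem hP_add (hr : 1 ≤ r) (hR : r < R) {k : ℕ} (hk : (k : ℤ) ≤ 6 * R + 2 * r) :
    hP b r R ((k + hn r R : ℕ) : ZMod (hn r R)) = hv b r R k := by
  rw [← hP_nat hr hR hk]
  congr 1
  simp

theorem hP_succ (hr : 1 ≤ r) (hR : r < R) (i : ZMod (hn r R)) :
    hP b r R (i + 1) = hv b r R (((i.val : ℕ) : ℤ) + 1) := by
  have hn := hn_eq hr hR
  have : NeZero (NET.hn r R) := ⟨by omega⟩
  have h1 := ZMod.val_lt i
  have := hP_nat (b := b) hr hR (k := i.val + 1) (by push_cast; omega)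
  rw [Nat.cast_succ, ZMod.natCast_zmod_val] at this
  rw [this]
  push_cast
  rfl

theorem hP_polygon (hr : 1 ≤ r) (hR : r < R) : IsPolygon (hP b r R) := by
  have hn := hn_eq hr hR
  have : NeZero (NET.hn r R) := ⟨by omega⟩
  refine ⟨by omega, fun i j h => ?_, fun i => ?_⟩
  · have h1 := ZMod.val_lt i
    have h2 := ZMod.val_lt j
    apply ZMod.val_injective
    have := hv_inj (b := b) hr hR (k := ((i.val : ℕ) : ℤ)) (l := ((j.val : ℕ) : ℤ)) (by omega)
      (by omega) (by omega) (by omega) h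
    omega
  · have h1 := ZMod.val_lt i
    rw [hP_succ hr hR]
    rcases hv_step (b := b) hr hR (k := ((i.val : ℕ) : ℤ)) (by omega) (by omega) with
      ⟨h, -⟩ | ⟨h, -⟩ | ⟨h, -⟩ | ⟨h, -⟩
    · exact ⟨0, by rw [h]; rfl⟩
    · exact ⟨1, by rw [h]; rfl⟩
    · exact ⟨2, by rw [h]; rfl⟩
    · exact ⟨3, by rw [h]; rfl⟩

theorem ex_side (hr : 1 ≤ r) (hR : r < R) {k : ℤ} (h0 : 0 ≤ k) (hk : k < 6 * R + 2 * r) :
    ∃ i : ZMod (hn r R), hP b r R i = hv b r R k ∧ hP b r R (i + 1) = hv b r R (k + 1) := by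
  have hn := hn_eq hr hR
  obtain ⟨m, rfl⟩ : ∃ m : ℕ, k = m := ⟨k.toNat, by omega⟩
  refine ⟨(m : ZMod _), hP_nat hr hR (by omega), ?_⟩
  have := hP_nat (b := b) hr hR (k := m + 1) (by push_cast; omega)
  rw [Nat.cast_succ] at this
  rw [this]
  push_cast
  rfl

theorem inv_a (hr : 1 ≤ r) (hR : r < R) {v : Pt} (h : v.2 = b.2) (h1 : b.1 + r ≤ v.1)
    (h2 : v.1 ≤ b.1 + R) : hv b r R (v.1 - b.1 - r) = v := by
  rw [hv_a hr hR (by omega) (by omega)]
  exact Prod.ext (by simp only; omega) (by simp only; omega)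

theorem inv_b (hr : 1 ≤ r) (hR : r < R) {v : Pt} (h : v.1 = b.1 + R) (h1 : b.2 ≤ v.2)
    (h2 : v.2 ≤ b.2 + R) : hv b r R (v.2 - b.2 + R - r) = v := by
  rw [hv_b hr hR (by omega) (by omega)]
  exact Prod.ext (by simp only; omega) (by simp only; omega)

theorem inv_c (hr : 1 ≤ r) (hR : r < R) {v : Pt} (h : v.2 = b.2 + R) (h1 : b.1 - R ≤ v.1)
    (h2 : v.1 ≤ b.1 + R) : hv b r R (3 * R - r - (v.1 - b.1)) = v := by
  rw [hv_c hr hR (by omega) (by omega)]
  exact Prod.ext (by simp only; omega) (by simp only; omega)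

theorem inv_d (hr : 1 ≤ r) (hR : r < R) {v : Pt} (h : v.1 = b.1 - R) (h1 : b.2 ≤ v.2)
    (h2 : v.2 ≤ b.2 + R) : hv b r R (5 * R - r - (v.2 - b.2)) = v := by
  rw [hv_d hr hR (by omega) (by omega)]
  exact Prod.ext (by simp only; omega) (by simp only; omega)

theorem inv_e (hr : 1 ≤ r) (hR : r < R) {v : Pt} (h : v.2 = b.2) (h1 : b.1 - R ≤ v.1)
    (h2 : v.1 ≤ b.1 - r) : hv b r R (v.1 - b.1 + 6 * R - r) = v := by
  rw [hv_e hr hR (by omega) (by omega)]
  exact Prod.ext (by simp only; omega) (by simp only; omega)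

theorem inv_f (hr : 1 ≤ r) (hR : r < R) {v : Pt} (h : v.1 = b.1 - r) (h1 : b.2 ≤ v.2)
    (h2 : v.2 ≤ b.2 + r) : hv b r R (v.2 - b.2 + 6 * R - 2 * r) = v := by
  rw [hv_f hr hR (by omega) (by omega)]
  exact Prod.ext (by simp only; omega) (by simp only; omega)

theorem inv_g (hr : 1 ≤ r) (hR : r < R) {v : Pt} (h : v.2 = b.2 + r) (h1 : b.1 - r ≤ v.1)
    (h2 : v.1 ≤ b.1 + r) : hv b r R (v.1 - b.1 + 6 * R) = v := by
  rw [hv_g hr hR (by omega) (by omega)]
  exact Prod.ext (by simp only; omega) (by simp only; omega)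

theorem inv_h (hr : 1 ≤ r) (hR : r < R) {v : Pt} (h : v.1 = b.1 + r) (h1 : b.2 ≤ v.2)
    (h2 : v.2 ≤ b.2 + r) : hv b r R (6 * R + 2 * r - (v.2 - b.2)) = v := by
  rw [hv_h hr hR (by omega) (by omega)]
  exact Prod.ext (by simp only; omega) (by simp only; omega)

theorem face_e0 (v : Pt) : face v 0 = v := by simp [face]
theorem face_e1 (v : Pt) : face v 1 = (v.1 - 1, v.2) := by
  simp [face, Prod.ext_iff]; ring
theorem face_e2 (v : Pt) : face v 2 = (v.1 - 1, v.2 - 1) := by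
  simp [face, Prod.ext_iff]; constructor <;> ring
theorem face_e3 (v : Pt) : face v 3 = (v.1, v.2 - 1) := by
  simp [face, Prod.ext_iff]; ring

theorem dirs (s : Fin 4) : s = 0 ∨ s = 1 ∨ s = 2 ∨ s = 3 := by
  revert s; decide

theorem hP_enc (hr : 1 ≤ r) (hR : r < R) : Encloses (hP b r R) (dF b r R) := by
  have hn := hn_eq hr hR
  have : NeZero (NET.hn r R) := ⟨by omega⟩
  intro v s
  constructor
  · rintro ⟨i, h1, h2⟩
    have hi := ZMod.val_lt i
    rw [hP_succ hr hR] at h2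
    have h1' : hv b r R ((i.val : ℕ) : ℤ) = v := h1
    have hst := hv_step (b := b) hr hR (k := ((i.val : ℕ) : ℤ)) (by omega) (by omega)
    rw [h2, h1'] at hst
    simp only [add_right_inj] at hst
    obtain ⟨k, hk⟩ : ∃ k : ℤ, k = ((i.val : ℕ) : ℤ) := ⟨_, rfl⟩
    rw [← hk] at h1' hst
    have hk0 : 0 ≤ k := by omega
    have hk1 : k < 6 * R + 2 * r := by omega
    rcases dirs s with rfl | rfl | rfl | rfl
    · rw [show (0 - 1 : Fin 4) = 3 from rfl, face_e0, face_e3, mem_dF, mem_dF]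
      simp only [dq, Set.mem_ofPred_eq]
      rcases hst with ⟨-, h | h | h⟩ | ⟨h, -⟩ | ⟨h, -⟩ | ⟨h, -⟩
      · rw [hv_a hr hR hk0 h.le] at h1'
        rw [Prod.ext_iff] at h1'
        simp only at h1'
        omega
      · rw [hv_e hr hR h.1 h.2.le] at h1'
        rw [Prod.ext_iff] at h1'
        simp only at h1'
        omega
      · rw [hv_g hr hR h.1 h.2.le] at h1'
        rw [Prod.ext_iff] at h1'
        simp only at h1'
        omega
      · exact absurd h (by simp [dir])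
      · exact absurd h (by simp [dir])
      · exact absurd h (by simp [dir])
    · rw [show (1 - 1 : Fin 4) = 0 from rfl, face_e0, face_e1, mem_dF, mem_dF]
      simp only [dq, Set.mem_ofPred_eq]
      rcases hst with ⟨h, -⟩ | ⟨-, h | h⟩ | ⟨h, -⟩ | ⟨h, -⟩
      · exact absurd h (by simp [dir])
      · rw [hv_b hr hR h.1 h.2.le] at h1'
        rw [Prod.ext_iff] at h1'
        simp only at h1'
        omega
      · rw [hv_f hr hR h.1 h.2.le] at h1'
        rw [Prod.ext_iff] at h1'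
        simp only at h1'
        omega
      · exact absurd h (by simp [dir])
      · exact absurd h (by simp [dir])
    · rw [show (2 - 1 : Fin 4) = 1 from rfl, face_e1, face_e2, mem_dF, mem_dF]
      simp only [dq, Set.mem_ofPred_eq]
      rcases hst with ⟨h, -⟩ | ⟨h, -⟩ | ⟨-, h⟩ | ⟨h, -⟩
      · exact absurd h (by simp [dir])
      · exact absurd h (by simp [dir])
      · rw [hv_c hr hR h.1 h.2.le] at h1'
        rw [Prod.ext_iff] at h1'
        simp only at h1'
        omega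
      · exact absurd h (by simp [dir])
    · rw [show (3 - 1 : Fin 4) = 2 from rfl, face_e2, face_e3, mem_dF, mem_dF]
      simp only [dq, Set.mem_ofPred_eq]
      rcases hst with ⟨h, -⟩ | ⟨h, -⟩ | ⟨h, -⟩ | ⟨-, h | h⟩
      · exact absurd h (by simp [dir])
      · exact absurd h (by simp [dir])
      · exact absurd h (by simp [dir])
      · rw [hv_d hr hR h.1 h.2.le] at h1'
        rw [Prod.ext_iff] at h1'
        simp only at h1'
        omega
      · rw [hv_h hr hR h hk1.le] at h1'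
        rw [Prod.ext_iff] at h1'
        simp only at h1'
        omega
  · rintro ⟨h1, h2⟩
    rcases dirs s with rfl | rfl | rfl | rfl
    · rw [face_e0, mem_dF] at h1
      rw [show (0 - 1 : Fin 4) = 3 from rfl, face_e3, mem_dF] at h2
      simp only [dq, Set.mem_ofPred_eq] at h1 h2
      by_cases c1 : v.2 = b.2
      · by_cases c2 : b.1 + r ≤ v.1
        · obtain ⟨i, g1, g2⟩ := ex_side (b := b) hr hR (k := v.1 - b.1 - r) (by omega) (by omega)
          exact ⟨i, by rw [g1, inv_a hr hR c1 c2 (by omega)], by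
            rw [g2, st_a hr hR (by omega) (by omega), inv_a hr hR c1 c2 (by omega)]; rfl⟩
        · obtain ⟨i, g1, g2⟩ := ex_side (b := b) hr hR (k := v.1 - b.1 + 6 * R - r) (by omega)
            (by omega)
          exact ⟨i, by rw [g1, inv_e hr hR c1 (by omega) (by omega)], by
            rw [g2, st_e hr hR (by omega) (by omega), inv_e hr hR c1 (by omega) (by omega)]; rfl⟩
      · obtain ⟨i, g1, g2⟩ := ex_side (b := b) hr hR (k := v.1 - b.1 + 6 * R) (by omega)
            (by omega)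
        exact ⟨i, by rw [g1, inv_g hr hR (by omega) (by omega) (by omega)], by
          rw [g2, st_g hr hR (by omega) (by omega), inv_g hr hR (by omega) (by omega) (by omega)]
          rfl⟩
    · rw [face_e1, mem_dF] at h1
      rw [show (1 - 1 : Fin 4) = 0 from rfl, face_e0, mem_dF] at h2
      simp only [dq, Set.mem_ofPred_eq] at h1 h2
      by_cases c1 : v.1 = b.1 + R
      · obtain ⟨i, g1, g2⟩ := ex_side (b := b) hr hR (k := v.2 - b.2 + R - r) (by omega) (by omega)
        exact ⟨i, by rw [g1, inv_b hr hR c1 (by omega) (by omega)], by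
          rw [g2, st_b hr hR (by omega) (by omega), inv_b hr hR c1 (by omega) (by omega)]; rfl⟩
      · obtain ⟨i, g1, g2⟩ := ex_side (b := b) hr hR (k := v.2 - b.2 + 6 * R - 2 * r) (by omega)
          (by omega)
        exact ⟨i, by rw [g1, inv_f hr hR (by omega) (by omega) (by omega)], by
          rw [g2, st_f hr hR (by omega) (by omega), inv_f hr hR (by omega) (by omega) (by omega)]
          rfl⟩
    · rw [face_e2, mem_dF] at h1
      rw [show (2 - 1 : Fin 4) = 1 from rfl, face_e1, mem_dF] at h2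
      simp only [dq, Set.mem_ofPred_eq] at h1 h2
      obtain ⟨i, g1, g2⟩ := ex_side (b := b) hr hR (k := 3 * R - r - (v.1 - b.1)) (by omega)
        (by omega)
      exact ⟨i, by rw [g1, inv_c hr hR (by omega) (by omega) (by omega)], by
        rw [g2, st_c hr hR (by omega) (by omega), inv_c hr hR (by omega) (by omega) (by omega)]
        rfl⟩
    · rw [face_e3, mem_dF] at h1
      rw [show (3 - 1 : Fin 4) = 2 from rfl, face_e2, mem_dF] at h2
      simp only [dq, Set.mem_ofPred_eq] at h1 h2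
      by_cases c1 : v.1 = b.1 - R
      · obtain ⟨i, g1, g2⟩ := ex_side (b := b) hr hR (k := 5 * R - r - (v.2 - b.2)) (by omega)
          (by omega)
        exact ⟨i, by rw [g1, inv_d hr hR c1 (by omega) (by omega)], by
          rw [g2, st_d hr hR (by omega) (by omega), inv_d hr hR c1 (by omega) (by omega)]; rfl⟩
      · obtain ⟨i, g1, g2⟩ := ex_side (b := b) hr hR (k := 6 * R + 2 * r - (v.2 - b.2)) (by omega)
          (by omega)
        exact ⟨i, by rw [g1, inv_h hr hR (by omega) (by omega) (by omega)], by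
          rw [g2, st_h hr hR (by omega) (by omega), inv_h hr hR (by omega) (by omega) (by omega)]
          rfl⟩

theorem arcQ_union {n : ℕ} (e : Bool) (q : ZMod n → ℤ × ℤ) {i j k : ℕ} (h1 : i ≤ j) (h2 : j ≤ k) :
    arcQ e q i j ∪ arcQ e q j k = arcQ e q i k := by
  ext x
  constructor
  · rintro (⟨l, g1, g2, g3, g4⟩ | ⟨l, g1, g2, g3, g4⟩)
    · exact ⟨l, g1, by omega, g3, g4⟩
    · exact ⟨l, by omega, g2, g3, g4⟩
  · rintro ⟨l, g1, g2, g3, g4⟩
    rcases le_total l j with h | h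
    · exact Or.inl ⟨l, g1, h, g3, g4⟩
    · exact Or.inr ⟨l, h, g2, g3, g4⟩

/-! ### The arcs -/

/-- Sites of the colour `e` of the flat line. -/
abbrev fl (e : Bool) (b : Pt) (x y : ℤ) : Set Pt := Hs e b.2 (b.1 + x) (b.1 + y)

/-- Sites of the colour `e` of the half square. -/
def So (e : Bool) (b : Pt) (R : ℤ) : Set Pt :=
  {u | b.1 - R ≤ u.1 ∧ u.1 ≤ b.1 + R ∧ b.2 ≤ u.2 ∧ u.2 ≤ b.2 + R ∧
    (u.1 = b.1 - R ∨ u.1 = b.1 + R ∨ u.2 = b.2 + R) ∧ (u.1 + u.2) % 2 = pr e}

theorem mem_arc (hr : 1 ≤ r) (hR : r < R) {i j : ℕ} (hj : (j : ℤ) ≤ 6 * R + 2 * r) {x : Pt} :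
    x ∈ arcQ e (hP b r R) i j ↔ ∃ k : ℤ, (i : ℤ) ≤ k ∧ k ≤ j ∧ x = hv b r R k ∧
      (x.1 + x.2) % 2 = pr e := by
  constructor
  · rintro ⟨k, h1, h2, h3, h4⟩
    exact ⟨k, by omega, by omega, by rw [h3, hP_nat hr hR (by omega)], h4⟩
  · rintro ⟨k, h1, h2, h3, h4⟩
    obtain ⟨m, rfl⟩ : ∃ m : ℕ, k = m := ⟨k.toNat, by omega⟩
    exact ⟨m, by omega, by omega, by rw [h3, hP_nat hr hR (by omega)], h4⟩

theorem arc_flR (hr : 1 ≤ r) (hR : r < R) {x y : ℤ} (h1 : r ≤ x) (h2 : x ≤ y) (h3 : y ≤ R) :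
    arcQ e (hP b r R) (x - r).toNat (y - r).toNat = fl e b x y := by
  ext v
  rw [mem_arc hr hR (by omega)]
  constructor
  · rintro ⟨k, g1, g2, g3, g4⟩
    rw [hv_a hr hR (by omega) (by omega), Prod.ext_iff] at g3
    simp only at g3
    exact ⟨by omega, by omega, by omega, g4⟩
  · rintro ⟨g1, g2, g3, g4⟩
    exact ⟨_, by omega, by omega, (inv_a hr hR g1 (by omega) (by omega)).symm, g4⟩

theorem arc_flL (hr : 1 ≤ r) (hR : r < R) {x y : ℤ} (h1 : r ≤ y) (h2 : y ≤ x) (h3 : x ≤ R) :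
    arcQ e (hP b r R) (6 * R - r - x).toNat (6 * R - r - y).toNat = fl e b (-x) (-y) := by
  ext v
  rw [mem_arc hr hR (by omega)]
  constructor
  · rintro ⟨k, g1, g2, g3, g4⟩
    rw [hv_e hr hR (by omega) (by omega), Prod.ext_iff] at g3
    simp only at g3
    exact ⟨by omega, by omega, by omega, g4⟩
  · rintro ⟨g1, g2, g3, g4⟩
    exact ⟨_, by omega, by omega, (inv_e hr hR g1 (by omega) (by omega)).symm, g4⟩

theorem arc_out (hr : 1 ≤ r) (hR : r < R) :
    arcQ e (hP b r R) (R - r).toNat (5 * R - r).toNat = So e b R := by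
  ext v
  rw [mem_arc hr hR (by omega)]
  constructor
  · rintro ⟨k, g1, g2, g3, g4⟩
    by_cases c1 : k ≤ 2 * R - r
    · rw [hv_b hr hR (by omega) (by omega), Prod.ext_iff] at g3
      simp only at g3
      exact ⟨by omega, by omega, by omega, by omega, by omega, g4⟩
    by_cases c2 : k ≤ 4 * R - r
    · rw [hv_c hr hR (by omega) (by omega), Prod.ext_iff] at g3
      simp only at g3
      exact ⟨by omega, by omega, by omega, by omega, by omega, g4⟩
    · rw [hv_d hr hR (by omega) (by omega), Prod.ext_iff] at g3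
      simp only at g3
      exact ⟨by omega, by omega, by omega, by omega, by omega, g4⟩
  · rintro ⟨g1, g2, g3, g4, g5 | g5 | g5, g6⟩
    · exact ⟨_, by omega, by omega, (inv_d hr hR g5 (by omega) (by omega)).symm, g6⟩
    · exact ⟨_, by omega, by omega, (inv_b hr hR g5 (by omega) (by omega)).symm, g6⟩
    · exact ⟨_, by omega, by omega, (inv_c hr hR g5 (by omega) (by omega)).symm, g6⟩

theorem arc_in (hr : 1 ≤ r) (hR : r < R) :
    arcQ e (hP b r R) (6 * R - 2 * r).toNat (hn r R) = So e b r := by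
  have hn := hn_eq hr hR
  ext v
  rw [mem_arc hr hR (by omega)]
  constructor
  · rintro ⟨k, g1, g2, g3, g4⟩
    by_cases c1 : k ≤ 6 * R - r
    · rw [hv_f hr hR (by omega) (by omega), Prod.ext_iff] at g3
      simp only at g3
      exact ⟨by omega, by omega, by omega, by omega, by omega, g4⟩
    by_cases c2 : k ≤ 6 * R + r
    · rw [hv_g hr hR (by omega) (by omega), Prod.ext_iff] at g3
      simp only at g3
      exact ⟨by omega, by omega, by omega, by omega, by omega, g4⟩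
    · rw [hv_h hr hR (by omega) (by omega), Prod.ext_iff] at g3
      simp only at g3
      exact ⟨by omega, by omega, by omega, by omega, by omega, g4⟩
  · rintro ⟨g1, g2, g3, g4, g5 | g5 | g5, g6⟩
    · exact ⟨_, by omega, by omega, (inv_f hr hR g5 (by omega) (by omega)).symm, g6⟩
    · exact ⟨_, by omega, by omega, (inv_h hr hR g5 (by omega) (by omega)).symm, g6⟩
    · exact ⟨_, by omega, by omega, (inv_g hr hR g5 (by omega) (by omega)).symm, g6⟩

theorem fan_dF (hr : 1 ≤ r) (hR : r < R) (e : Bool) : Fan e (dF b r R : Set Pt) :=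
  fan_poly (hP_polygon hr hR) (hP_enc hr hR) e

theorem fl_par {x y : ℤ} : ∀ u ∈ fl e b x y, (u.1 + u.2) % 2 = pr e := fun _ h => h.2.2.2

theorem So_par : ∀ u ∈ So e b R, (u.1 + u.2) % 2 = pr e := fun _ h => h.2.2.2.2.2

theorem arc_flR0 (hr : 1 ≤ r) (hR : r < R) {y : ℤ} (h2 : r ≤ y) (h3 : y ≤ R) :
    arcQ e (hP b r R) (hn r R) ((y - r).toNat + hn r R) = fl e b r y := by
  have := arcQ_per e (hP b r R) 0 (y - r).toNat
  rw [zero_add] at this
  rw [this, ← arc_flR hr hR le_rfl h2 h3]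
  congr 1
  omega

theorem arc_flL0 (hr : 1 ≤ r) (hR : r < R) {x : ℤ} (h1 : r ≤ x) (h3 : x ≤ R) :
    arcQ e (hP b r R) (6 * R - r - x).toNat (6 * R - 2 * r).toNat = fl e b (-x) (-r) := by
  rw [← arc_flL hr hR le_rfl h1 h3]
  congr 1
  omega

theorem arc_flL1 (hr : 1 ≤ r) (hR : r < R) :
    arcQ e (hP b r R) (5 * R - r).toNat (6 * R - 2 * r).toNat = fl e b (-R) (-r) := by
  rw [← arc_flL0 hr hR hR.le le_rfl]
  congr 1
  omega

/-- **Basic duality**: the two half squares, the two flat sides. -/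
theorem quad0 (hr : 1 ≤ r) (hR : r < R) (e : Bool) (b : Pt) :
    Quad e (dF b r R : Set Pt) (So e b r) (So e b R) (fl (!e) b r R) (fl (!e) b (-R) (-r)) := by
  have h0 := hn_eq hr hR
  have h := quad_poly (hP_polygon (b := b) hr hR) (hP_enc hr hR) e (i := (6 * R - 2 * r).toNat)
    (j := hn r R) (k := (R - r).toNat + hn r R) (l := (5 * R - r).toNat + hn r R)
    (by omega) (by omega) (by omega) (by omega)
  rw [arc_in hr hR, arcQ_per, arc_out hr hR, arcQ_per, arc_flR0 hr hR hR.le le_rfl,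
    arc_flL1 hr hR] at h
  exact h

/-- The inner half square and the outer part of the right flat side. -/
theorem quad1 (hr : 1 ≤ r) (hR : r < R) (e : Bool) (b : Pt) {m : ℤ} (h1 : r ≤ m) (h2 : m ≤ R) :
    Quad e (dF b r R : Set Pt) (So e b r) (fl e b m R) (fl (!e) b r m)
      (So (!e) b R ∪ fl (!e) b (-R) (-r)) := by
  have h0 := hn_eq hr hR
  have h := quad_poly (hP_polygon (b := b) hr hR) (hP_enc hr hR) e (i := (6 * R - 2 * r).toNat)
    (j := hn r R) (k := (m - r).toNat + hn r R) (l := (R - r).toNat + hn r R)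
    (by omega) (by omega) (by omega) (by omega)
  rw [arc_in hr hR, arcQ_per, arcQ_per, arc_flR hr hR h1 h2 le_rfl, arc_flR0 hr hR h1 h2,
    ← arcQ_union (!e) _ (j := (5 * R - r).toNat) (by omega) (by omega), arc_out hr hR,
    arc_flL1 hr hR] at h
  exact h

/-- The outer half square and the inner part of the right flat side. -/
theorem quad2 (hr : 1 ≤ r) (hR : r < R) (e : Bool) (b : Pt) {m : ℤ} (h1 : r ≤ m) (h2 : m ≤ R) :
    Quad e (dF b r R : Set Pt) (So e b R) (fl e b r m) (fl (!e) b m R)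
      (fl (!e) b (-R) (-r) ∪ So (!e) b r) := by
  have h0 := hn_eq hr hR
  have h := quad_poly (hP_polygon (b := b) hr hR) (hP_enc hr hR) e (i := (R - r).toNat)
    (j := (5 * R - r).toNat) (k := hn r R) (l := (m - r).toNat + hn r R)
    (by omega) (by omega) (by omega) (by omega)
  rw [arcQ_per, arc_out hr hR, arc_flR0 hr hR h1 h2, arc_flR hr hR h1 h2 le_rfl,
    ← arcQ_union (!e) _ (j := (6 * R - 2 * r).toNat) (by omega) (by omega), arc_flL1 hr hR,
    arc_in hr hR] at h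
  exact h.swap24

end Vale.Agent.P167.N.NET
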