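import Vale.Agent.P167.N.NET.Rough

/-!
# P167, nets for `q < 1`: tubes attached to explored crossings

`net1`: a crossing of `G` (a set of squares with planar duality) is extended by a tube `T` which
starts at the second arc and leaves `G` through the fourth arc. `net2`: the same for a tube between
two sets of squares. `F ≥ 0` is any factor which does not read the squares of the tube which are not
revealed.
-/

set_option autoImplicit false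
set_option linter.unusedSectionVars false

namespace Vale.Agent.P167.N.NET

open Finset Vale.Agent.P167 Vale.Agent.P167.FK Vale.Agent.P167.H816 Vale.Agent.P167.H262
  Vale.Agent.P167.H632 Vale.Agent.P167.H871 Vale.Agent.P167.H192.TA
open Vale.Agent.P145.FB (PStep PConn)
open Relation (ReflTransGen)
open Vale.Agent.P167.H558 (StopSet Past)

variable {Q : ℝ} {D T : Finset Pt} {η : Cfg} {e : Bool}

theorem stop_empty : StopSet (fun _ : Cfg => (∅ : Finset Pt)) := fun _ _ _ => rfl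

open Classical in
/-- **The core**: two stopping sets, a tube between them. -/
theorem net_core (hQ : 0 < Q) (hQ1 : Q ≤ 1) (hT : T ⊆ D) {K₁ K₂ : Cfg → Finset Pt}
    (s1 : StopSet K₁) (s2 : StopSet K₂) (d1 : ∀ ω, K₁ ω ⊆ D) (d2 : ∀ ω, K₂ ω ⊆ D)
    {A B : Set Pt} (hA : A ⊆ Bd e T) (hB : B ⊆ Bd e T) {r : Setoid Pt} (hr : r ≤ wir (Bd e D))
    (η : Cfg) {F : Cfg → ℝ} (hF0 : ∀ ω, 0 ≤ F ω)
    (hF : ∀ ω ω' : Cfg, (∀ v, v ∉ T \ (K₁ ω ∪ K₂ ω) → ω' v = ω v) → F ω' = F ω)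
    {𝒜 : Set Cfg} (hdet : ∀ ω, F ω ≠ 0 → ω ∈ Jn e ↑(T \ (K₁ ω ∪ K₂ ω)) (A ∪ Vc e ↑(K₁ ω ∩ T))
      (B ∪ Vc e ↑(K₂ ω ∩ T)) → ω ∈ 𝒜) :
    VT Q e T A B * GE (ea e) (eb e) (fun _ => Q) (Q ^ 2) D r (fun S => F (cc e D η S)) ≤
      GE (ea e) (eb e) (fun _ => Q) (Q ^ 2) D r
        (fun S => F (cc e D η S) * if cc e D η S ∈ 𝒜 then 1 else 0) := by
  have hq : 0 < Q ^ 2 := pow_pos hQ 2
  obtain ⟨K, hK⟩ : ∃ K : Finset Pt → Finset Pt, K = fun S =>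
    (D \ T) ∪ (K₁ (cc e D η S) ∪ K₂ (cc e D η S)) := ⟨_, rfl⟩
  have cK : ∀ S, K S = (D \ T) ∪ (K₁ (cc e D η S) ∪ K₂ (cc e D η S)) := fun S => by rw [hK]
  -- agreement on `K`
  have hag : ∀ S S' : Finset Pt, (∀ v ∈ K S, (v ∈ S' ↔ v ∈ S)) →
      K₁ (cc e D η S') = K₁ (cc e D η S) ∧ K₂ (cc e D η S') = K₂ (cc e D η S) := by
    intro S S' h
    refine ⟨s1 _ _ fun v hv => cc_congr fun _ => h v ?_, s2 _ _ fun v hv => cc_congr fun _ => h v ?_⟩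
    · rw [cK]; exact mem_union_right _ (mem_union_left _ hv)
    · rw [cK]; exact mem_union_right _ (mem_union_right _ hv)
  have hKs : Stop D K := by
    refine ⟨fun S _ => ?_, fun S _ S' _ h => ?_⟩
    · rw [cK]
      exact union_subset sdiff_subset (union_subset (d1 _) (d2 _))
    · have h1 := hag S S' fun v hv => by
        have h2 := congrArg (fun X : Finset Pt => v ∈ X) h
        simp only [mem_inter, hv, and_true, eq_iff_iff] at h2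
        exact h2
      rw [cK S', cK S, h1.1, h1.2]
  have hU : ∀ S, D \ K S = T \ (K₁ (cc e D η S) ∪ K₂ (cc e D η S)) := by
    intro S
    rw [cK]
    ext v
    simp only [mem_sdiff, mem_union, not_or, not_and, not_not]
    constructor
    · rintro ⟨h1, h2, h3⟩
      exact ⟨h2 h1, h3⟩
    · rintro ⟨h1, h2⟩
      exact ⟨hT h1, fun _ => h1, h2⟩
  -- the new configuration
  have hnew : ∀ S S' : Finset Pt, S' ⊆ D \ K S → ∀ v ∈ K S, (v ∈ S ∩ K S ∪ S' ↔ v ∈ S) := by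
    intro S S' hS' v hv
    rw [mem_union, mem_inter]
    constructor
    · rintro (h | h)
      · exact h.1
      · exact absurd hv (mem_sdiff.1 (hS' h)).2
    · exact fun h => Or.inl ⟨h, hv⟩
  have hFn : ∀ S ⊆ D, ∀ S' ⊆ D \ K S, F (cc e D η (S ∩ K S ∪ S')) = F (cc e D η S) := by
    intro S _ S' hS'
    refine hF _ _ fun v hv => cc_congr fun hvD => ?_
    rw [← hU S, mem_sdiff, not_and, not_not] at hv
    exact hnew S S' hS' v (hv hvD)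
  have key := GE_ge (ea e) (eb e) (w := fun _ => Q) (q := Q ^ 2) (fun _ => hQ) hq r hKs
    (F := fun S => F (cc e D η S)) (c := VT Q e T A B) (fun S _ => hF0 _) hFn
    (E := fun _ => True) (A := fun S => cc e D η S ∈ 𝒜) ?_
  · simpa using key
  intro S hS _ hne
  have e1 : T \ (K₁ (cc e D η S) ∪ K₂ (cc e D η S)) =
      T \ (K₁ (cc e D η S) ∩ T ∪ K₂ (cc e D η S) ∩ T) := by
    ext v
    simp only [mem_sdiff, mem_union, mem_inter]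
    tauto
  have h1 := rough_r (e := e) (T := T) (K₁ := K₁ (cc e D η S) ∩ T) (K₂ := K₂ (cc e D η S) ∩ T)
    hQ hQ1 inter_subset_right inter_subset_right hA hB
    (r := con (ea e) (eb e) r (S ∩ K S)) (by
      rw [← e1, ← hU S]
      refine con_le_wir _ _ (hr.trans (wir_mono (Bd_anti sdiff_subset))) fun f hf => ?_
      have hf' : f ∉ D \ K S := fun h => (mem_sdiff.1 h).2 (mem_inter.1 hf).2
      exact ⟨⟨f, hf', cor_ea e f⟩, ⟨f, hf', cor_eb e f⟩⟩)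
  rw [← e1, ← hU S] at h1
  refine h1.trans (GP_mono _ _ _ (fun _ => hQ.le) hq fun S' hS' h2 => ?_)
  obtain ⟨ω', hω'⟩ : ∃ ω' : Cfg, ω' = cc e D η (S ∩ K S ∪ S') := ⟨_, rfl⟩
  have h3 := hag S (S ∩ K S ∪ S') (hnew S S' hS')
  rw [← hω'] at h3 ⊢
  refine hdet ω' ?_ ?_
  · rw [hω', hFn S hS S' hS']
    exact hne
  · rw [h3.1, h3.2, ← hU S]
    have h4 := (Jn_iff (e := e) (η := ω') (E := D \ K S) (S := S')
      (A := A ∪ Vc e ↑(K₁ (cc e D η S) ∩ T)) (B := B ∪ Vc e ↑(K₂ (cc e D η S) ∩ T)) (by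
        rintro u (hu | ⟨v, -, hu⟩)
        · exact Bd.par (hA hu)
        · exact hu.2.2) hS').2 h2
    obtain ⟨u, hu, v, hv, h5⟩ := h4
    refine ⟨u, hu, v, hv, h5.mono ?_⟩
    rintro t ⟨ht1, ht2⟩
    refine ⟨?_, ht2⟩
    have ht3 : t ∈ D \ K S := mem_coe.1 ht2
    have ht4 : t ∈ S' := (cc_in ht3).1 ht1
    show ω' t = e
    rw [hω', cc_in (mem_sdiff.1 ht3).1]
    exact mem_union_right _ ht4

/-- A crossing of `G` is an event of the past. -/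
theorem Quad.past {e : Bool} {G A₁ A₃ S₂ S₄ : Set Pt} (H : Quad e G A₁ A₃ S₂ S₄) {ω ω' : Cfg}
    (h : ∀ v ∈ Rs (!e) G S₂ ω, ω' v = ω v) : ω' ∈ Jn e G A₁ A₃ ↔ ω ∈ Jn e G A₁ A₃ := by
  rw [H.iff, H.iff]
  have h1 := Cl_congr H.p2 h
  refine not_congr ⟨?_, ?_⟩
  · rintro ⟨s, hs, x, hx, h2⟩
    have h3 : x ∈ Cl (!e) G S₂ ω' := ⟨s, hs, h2⟩
    rw [h1] at h3
    obtain ⟨s', hs', h4⟩ := h3
    exact ⟨s', hs', x, hx, h4⟩
  · rintro ⟨s, hs, x, hx, h2⟩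
    have h3 : x ∈ Cl (!e) G S₂ ω := ⟨s, hs, h2⟩
    rw [← h1] at h3
    obtain ⟨s', hs', h4⟩ := h3
    exact ⟨s', hs', x, hx, h4⟩

/-- The beginning of a tube: sites of the colour `e` next to the second arc. -/
def Beg (e : Bool) (G S₂ A : Set Pt) : Prop := ∀ a ∈ A, ∃ v ∈ G, Cor e v a ∧ ∃ s ∈ S₂, Cor (!e) v s

theorem Beg.sub {e : Bool} {G S₂ A : Set Pt} (h : Beg e G S₂ A) (ω : Cfg) :
    A ⊆ Vc e (Rs (!e) G S₂ ω) := by
  intro a ha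
  obtain ⟨v, hv, hva, s, hs, hvs⟩ := h a ha
  exact ⟨v, ⟨hv, s, Cl_seed hs, hvs⟩, hva⟩

/-- The exit of a tube: the squares of `T` outside of `G` touch `G` only next to the fourth arc. -/
def Exi (e : Bool) (G S₄ T : Set Pt) : Prop :=
  ∀ t ∈ T, t ∉ G → ∀ y, Cor e t y → y ∈ Vc e G → Nx e G S₄ y

/-- `a` is joined to the arcs `A₁` and `A₃` in `G`. -/
def At (e : Bool) (G A₁ A₃ : Set Pt) (ω : Cfg) (a : Pt) : Prop :=
  ∃ u ∈ A₁, ∃ v ∈ A₃, Pw (cs e ω ∩ G) u a ∧ Pw (cs e ω ∩ G) a v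

/-- A path of squares of `T` joins `B` to a crossing of `G`. -/
def HK1 (e : Bool) (G T A₁ A₃ B : Set Pt) : Set Cfg :=
  {ω | ∃ a, At e G A₁ A₃ ω a ∧ ∃ z ∈ B, Pw (cs e ω ∩ T) a z}

/-- A path of squares of `T` joins a crossing of `G` to a crossing of `G'`. -/
def HK2 (e : Bool) (G G' T A₁ A₃ A₁' A₃' : Set Pt) : Set Cfg :=
  {ω | ∃ a a', At e G A₁ A₃ ω a ∧ At e G' A₁' A₃' ω a' ∧ Pw (cs e ω ∩ T) a a'}

theorem det1 {G T A₁ A₃ S₂ S₄ A B : Set Pt} (H : Quad e G A₁ A₃ S₂ S₄) (hG : Fan e G)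
    (hA : Beg e G S₂ A) (hT : Exi e G S₄ T) (hB : ∀ z ∈ B, z ∈ Vc e G → Nx e G S₄ z)
    {ω : Cfg} (hω : ω ∈ Jn e G A₁ A₃)
    (h : ω ∈ Jn e (T \ Rs (!e) G S₂ ω) (A ∪ Vc e (Rs (!e) G S₂ ω)) B) :
    ω ∈ HK1 e G T A₁ A₃ B := by
  obtain ⟨x, hx, z, hz, h1⟩ := h
  have hx' : x ∈ Vc e (Rs (!e) G S₂ ω) := by
    rcases hx with hx | hx
    · exact hA.sub ω hx
    · exact hx
  obtain ⟨a, ha, h2, u, hu, v, hv, h3, h4⟩ := piv_end H hG hω hx' (fun t ht => ht.2)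
    (fun t ht => hT t ht.1) (hB z hz) h1
  exact ⟨a, ⟨u, hu, v, hv, h3, h4⟩, z, hz, h2.mono (Set.inter_subset_inter_right _ Set.sdiff_subset)⟩

theorem det2 {G G' T A₁ A₃ S₂ S₄ A₁' A₃' S₂' S₄' A B : Set Pt} (H : Quad e G A₁ A₃ S₂ S₄)
    (hG : Fan e G) (H' : Quad e G' A₁' A₃' S₂' S₄') (hG' : Fan e G')
    (hA : Beg e G S₂ A) (hT : Exi e G S₄ T) (hB : Beg e G' S₂' B) (hT' : Exi e G' S₄' T)
    (hsep : ∀ x, x ∈ Vc e G → x ∉ Vc e G')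
    {ω : Cfg} (hω : ω ∈ Jn e G A₁ A₃) (hω' : ω ∈ Jn e G' A₁' A₃')
    (h : ω ∈ Jn e (T \ (Rs (!e) G S₂ ω ∪ Rs (!e) G' S₂' ω)) (A ∪ Vc e (Rs (!e) G S₂ ω))
      (B ∪ Vc e (Rs (!e) G' S₂' ω))) :
    ω ∈ HK2 e G G' T A₁ A₃ A₁' A₃' := by
  obtain ⟨x, hx, z, hz, h1⟩ := h
  have hx' : x ∈ Vc e (Rs (!e) G S₂ ω) := by
    rcases hx with hx | hx
    · exact hA.sub ω hx
    · exact hx
  have hz' : z ∈ Vc e (Rs (!e) G' S₂' ω) := by
    rcases hz with hz | hz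
    · exact hB.sub ω hz
    · exact hz
  obtain ⟨a, ha, h2, u, hu, v, hv, h3, h4⟩ := piv_end H hG hω hx'
    (fun t ht h => ht.2 (Or.inl h)) (fun t ht => hT t ht.1)
    (fun hzG => absurd (Vc.mono Rs_sub hz') (hsep z hzG)) h1
  have haG' : a ∈ Vc e G' → Nx e G' S₄' a := fun h5 => absurd h5 (hsep a (Vc.mono Rs_sub ha))
  obtain ⟨a', -, h5, u', hu', v', hv', h6, h7⟩ := piv_end H' hG' hω' hz'
    (fun t ht h => ht.2 (Or.inr h)) (fun t ht => hT' t ht.1) haG' h2.symm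
  exact ⟨a, a', ⟨u, hu, v, hv, h3, h4⟩, ⟨u', hu', v', hv', h6, h7⟩,
    h5.symm.mono (Set.inter_subset_inter_right _ Set.sdiff_subset)⟩

/-! ### The nets -/

theorem Rs_eq {G : Finset Pt} {S : Set Pt} {ω : Cfg} :
    (Rv (!e) G S ω : Set Pt) = Rs (!e) (↑G) S ω := coe_Rv

open Classical in
/-- **One explored end**, arbitrary exterior relation. -/
theorem net1_r (hQ : 0 < Q) (hQ1 : Q ≤ 1) (hT : T ⊆ D) {G : Finset Pt} (hGD : G ⊆ D)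
    {A₁ A₃ S₂ S₄ A B : Set Pt} (H : Quad e ↑G A₁ A₃ S₂ S₄) (hG : Fan e ↑G)
    (hA : A ⊆ Bd e T) (hAG : Beg e ↑G S₂ A) (hTG : Exi e ↑G S₄ ↑T) (hB : B ⊆ Bd e T)
    (hBG : ∀ z ∈ B, z ∈ Vc e ↑G → Nx e ↑G S₄ z) {r : Setoid Pt} (hr : r ≤ wir (Bd e D))
    (η : Cfg) {F : Cfg → ℝ} (hF0 : ∀ ω, 0 ≤ F ω)
    (hF : ∀ ω ω' : Cfg, (∀ v, v ∉ T \ Rv (!e) G S₂ ω → ω' v = ω v) → F ω' = F ω) :
    VT Q e T A B * GE (ea e) (eb e) (fun _ => Q) (Q ^ 2) D r (fun S => F (cc e D η S) *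
      if cc e D η S ∈ Jn e ↑G A₁ A₃ then 1 else 0) ≤
      GE (ea e) (eb e) (fun _ => Q) (Q ^ 2) D r
        (fun S => F (cc e D η S) * if cc e D η S ∈ HK1 e ↑G ↑T A₁ A₃ B then 1 else 0) := by
  have h := net_core (e := e) hQ hQ1 hT (K₁ := Rv (!e) G S₂) (K₂ := fun _ => ∅) (stop_Rv H.p2)
    stop_empty (fun ω => Rv_sub.trans hGD) (fun _ => empty_subset _) hA hB hr η
    (F := fun ω => F ω * if ω ∈ Jn e ↑G A₁ A₃ then 1 else 0)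
    (fun ω => mul_nonneg (hF0 ω) (by split_ifs <;> norm_num)) (fun ω ω' h => by
      rw [union_empty] at h
      have h1 := H.past (ω := ω) (ω' := ω') fun v hv => h v fun h2 =>
        (mem_sdiff.1 h2).2 (mem_Rv.2 hv)
      simp only [hF ω ω' h, h1]) (𝒜 := HK1 e ↑G ↑T A₁ A₃ B) (fun ω hne hJ => by
      have h1 : ω ∈ Jn e ↑G A₁ A₃ := by
        by_contra hcon
        exact hne (by rw [if_neg hcon, mul_zero])
      refine det1 H hG hAG hTG hBG h1 (Jn.mono ?_ ?_ ?_ hJ)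
      · rw [union_empty, coe_sdiff, Rs_eq]
      · refine Set.union_subset_union_right _ ?_
        rw [coe_inter, Rs_eq]
        exact Vc.mono Set.inter_subset_left
      · refine Set.union_subset (Set.Subset.refl _) ?_
        rintro x ⟨v, hv, -⟩
        simp at hv)
  refine h.trans (GE_mono (fun _ => hQ.le) (pow_pos hQ 2) fun S _ => ?_)
  refine mul_le_mul_of_nonneg_right ?_ (by split_ifs <;> norm_num)
  split_ifs
  · rw [mul_one]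
  · rw [mul_zero]
    exact hF0 _

open Classical in
/-- **Two explored ends**, arbitrary exterior relation. -/
theorem net2_r (hQ : 0 < Q) (hQ1 : Q ≤ 1) (hT : T ⊆ D) {G G' : Finset Pt} (hGD : G ⊆ D)
    (hGD' : G' ⊆ D) {A₁ A₃ S₂ S₄ A₁' A₃' S₂' S₄' A B : Set Pt} (H : Quad e ↑G A₁ A₃ S₂ S₄)
    (hG : Fan e ↑G) (H' : Quad e ↑G' A₁' A₃' S₂' S₄') (hG' : Fan e ↑G')
    (hA : A ⊆ Bd e T) (hAG : Beg e ↑G S₂ A) (hTG : Exi e ↑G S₄ ↑T) (hB : B ⊆ Bd e T)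
    (hBG : Beg e ↑G' S₂' B) (hTG' : Exi e ↑G' S₄' ↑T) (hsep : ∀ x, x ∈ Vc e ↑G → x ∉ Vc e ↑G')
    {r : Setoid Pt} (hr : r ≤ wir (Bd e D)) (η : Cfg) {F : Cfg → ℝ} (hF0 : ∀ ω, 0 ≤ F ω)
    (hF : ∀ ω ω' : Cfg, (∀ v, v ∉ T \ (Rv (!e) G S₂ ω ∪ Rv (!e) G' S₂' ω) → ω' v = ω v) →
      F ω' = F ω) :
    VT Q e T A B * GE (ea e) (eb e) (fun _ => Q) (Q ^ 2) D r (fun S => F (cc e D η S) *
      if cc e D η S ∈ Jn e ↑G A₁ A₃ ∩ Jn e ↑G' A₁' A₃' then 1 else 0) ≤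
      GE (ea e) (eb e) (fun _ => Q) (Q ^ 2) D r (fun S => F (cc e D η S) *
        if cc e D η S ∈ HK2 e ↑G ↑G' ↑T A₁ A₃ A₁' A₃' then 1 else 0) := by
  have h := net_core (e := e) hQ hQ1 hT (K₁ := Rv (!e) G S₂) (K₂ := Rv (!e) G' S₂')
    (stop_Rv H.p2) (stop_Rv H'.p2) (fun ω => Rv_sub.trans hGD) (fun ω => Rv_sub.trans hGD') hA hB
    hr η (F := fun ω => F ω * if ω ∈ Jn e ↑G A₁ A₃ ∩ Jn e ↑G' A₁' A₃' then 1 else 0)
    (fun ω => mul_nonneg (hF0 ω) (by split_ifs <;> norm_num)) (fun ω ω' h => by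
      have h1 := H.past (ω := ω) (ω' := ω') fun v hv => h v fun h2 =>
        (mem_sdiff.1 h2).2 (mem_union_left _ (mem_Rv.2 hv))
      have h2 := H'.past (ω := ω) (ω' := ω') fun v hv => h v fun h2 =>
        (mem_sdiff.1 h2).2 (mem_union_right _ (mem_Rv.2 hv))
      simp only [hF ω ω' h, Set.mem_inter_iff, h1, h2])
    (𝒜 := HK2 e ↑G ↑G' ↑T A₁ A₃ A₁' A₃') (fun ω hne hJ => by
      have h1 : ω ∈ Jn e ↑G A₁ A₃ ∩ Jn e ↑G' A₁' A₃' := by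
        by_contra hcon
        exact hne (by rw [if_neg hcon, mul_zero])
      refine det2 H hG H' hG' hAG hTG hBG hTG' hsep h1.1 h1.2 (Jn.mono ?_ ?_ ?_ hJ)
      · rw [coe_sdiff, coe_union, Rs_eq, Rs_eq]
      · refine Set.union_subset_union_right _ ?_
        rw [coe_inter, Rs_eq]
        exact Vc.mono Set.inter_subset_left
      · refine Set.union_subset_union_right _ ?_
        rw [coe_inter, Rs_eq]
        exact Vc.mono Set.inter_subset_left)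
  refine h.trans (GE_mono (fun _ => hQ.le) (pow_pos hQ 2) fun S _ => ?_)
  refine mul_le_mul_of_nonneg_right ?_ (by split_ifs <;> norm_num)
  split_ifs
  · rw [mul_one]
  · rw [mul_zero]
    exact hF0 _

/-! ### Finite domains of the square lattice -/

theorem ind_ite (A : Set Cfg) (ω : Cfg) [Decidable (ω ∈ A)] :
    A.indicator (1 : Cfg → ℝ) ω = if ω ∈ A then 1 else 0 := by
  rw [Set.indicator_apply]
  rfl

/-- **One explored end.** -/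
theorem net1 (hQ : 0 < Q) (hQ1 : Q ≤ 1) (hη : Good η) (hT : T ⊆ D) {G : Finset Pt} (hGD : G ⊆ D)
    {A₁ A₃ S₂ S₄ A B : Set Pt} (H : Quad e ↑G A₁ A₃ S₂ S₄) (hG : Fan e ↑G)
    (hA : A ⊆ Bd e T) (hAG : Beg e ↑G S₂ A) (hTG : Exi e ↑G S₄ ↑T) (hB : B ⊆ Bd e T)
    (hBG : ∀ z ∈ B, z ∈ Vc e ↑G → Nx e ↑G S₄ z) {F : Cfg → ℝ} (hF0 : ∀ ω, 0 ≤ F ω)
    (hF : ∀ ω ω' : Cfg, (∀ v, v ∉ T \ Rv (!e) G S₂ ω → ω' v = ω v) → F ω' = F ω) :
    VT Q e T A B * Ex Q D η (fun ω => F ω * (Jn e ↑G A₁ A₃).indicator 1 ω) ≤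
      Ex Q D η (fun ω => F ω * (HK1 e ↑G ↑T A₁ A₃ B).indicator 1 ω) := by
  classical
  have h := net1_r (e := e) hQ hQ1 hT hGD H hG hA hAG hTG hB hBG (r0_le e D η) η hF0 hF
  rw [Ex_cc hQ hη e, Ex_cc hQ hη e]
  simp only [ind_ite]
  exact h

/-- **Two explored ends.** -/
theorem net2 (hQ : 0 < Q) (hQ1 : Q ≤ 1) (hη : Good η) (hT : T ⊆ D) {G G' : Finset Pt}
    (hGD : G ⊆ D) (hGD' : G' ⊆ D) {A₁ A₃ S₂ S₄ A₁' A₃' S₂' S₄' A B : Set Pt}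
    (H : Quad e ↑G A₁ A₃ S₂ S₄) (hG : Fan e ↑G) (H' : Quad e ↑G' A₁' A₃' S₂' S₄')
    (hG' : Fan e ↑G') (hA : A ⊆ Bd e T) (hAG : Beg e ↑G S₂ A) (hTG : Exi e ↑G S₄ ↑T)
    (hB : B ⊆ Bd e T) (hBG : Beg e ↑G' S₂' B) (hTG' : Exi e ↑G' S₄' ↑T)
    (hsep : ∀ x, x ∈ Vc e ↑G → x ∉ Vc e ↑G') {F : Cfg → ℝ} (hF0 : ∀ ω, 0 ≤ F ω)
    (hF : ∀ ω ω' : Cfg, (∀ v, v ∉ T \ (Rv (!e) G S₂ ω ∪ Rv (!e) G' S₂' ω) → ω' v = ω v) →
      F ω' = F ω) :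
    VT Q e T A B *
        Ex Q D η (fun ω => F ω * (Jn e ↑G A₁ A₃ ∩ Jn e ↑G' A₁' A₃').indicator 1 ω) ≤
      Ex Q D η (fun ω => F ω * (HK2 e ↑G ↑G' ↑T A₁ A₃ A₁' A₃').indicator 1 ω) := by
  classical
  have h := net2_r (e := e) hQ hQ1 hT hGD hGD' H hG H' hG' hA hAG hTG hB hBG hTG' hsep
    (r0_le e D η) η hF0 hF
  rw [Ex_cc hQ hη e, Ex_cc hQ hη e]
  simp only [ind_ite]
  exact h

/-- **One explored end**, probabilities. -/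
theorem net1_Pr (hQ : 0 < Q) (hQ1 : Q ≤ 1) (hη : Good η) (hT : T ⊆ D) {G : Finset Pt}
    (hGD : G ⊆ D) {A₁ A₃ S₂ S₄ A B : Set Pt} (H : Quad e ↑G A₁ A₃ S₂ S₄) (hG : Fan e ↑G)
    (hA : A ⊆ Bd e T) (hAG : Beg e ↑G S₂ A) (hTG : Exi e ↑G S₄ ↑T) (hB : B ⊆ Bd e T)
    (hBG : ∀ z ∈ B, z ∈ Vc e ↑G → Nx e ↑G S₄ z) :
    VT Q e T A B * Pr Q D η (Jn e ↑G A₁ A₃) ≤ Pr Q D η (HK1 e ↑G ↑T A₁ A₃ B) := by
  have h := net1 (e := e) hQ hQ1 hη hT hGD H hG hA hAG hTG hB hBG (F := fun _ => 1)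
    (fun _ => zero_le_one) (fun _ _ _ => rfl)
  simpa only [one_mul, Pr] using h

/-- **Two explored ends**, probabilities. -/
theorem net2_Pr (hQ : 0 < Q) (hQ1 : Q ≤ 1) (hη : Good η) (hT : T ⊆ D) {G G' : Finset Pt}
    (hGD : G ⊆ D) (hGD' : G' ⊆ D) {A₁ A₃ S₂ S₄ A₁' A₃' S₂' S₄' A B : Set Pt}
    (H : Quad e ↑G A₁ A₃ S₂ S₄) (hG : Fan e ↑G) (H' : Quad e ↑G' A₁' A₃' S₂' S₄')
    (hG' : Fan e ↑G') (hA : A ⊆ Bd e T) (hAG : Beg e ↑G S₂ A) (hTG : Exi e ↑G S₄ ↑T)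
    (hB : B ⊆ Bd e T) (hBG : Beg e ↑G' S₂' B) (hTG' : Exi e ↑G' S₄' ↑T)
    (hsep : ∀ x, x ∈ Vc e ↑G → x ∉ Vc e ↑G') :
    VT Q e T A B * Pr Q D η (Jn e ↑G A₁ A₃ ∩ Jn e ↑G' A₁' A₃') ≤
      Pr Q D η (HK2 e ↑G ↑G' ↑T A₁ A₃ A₁' A₃') := by
  have h := net2 (e := e) hQ hQ1 hη hT hGD hGD' H hG H' hG' hA hAG hTG hB hBG hTG' hsep
    (F := fun _ => 1) (fun _ => zero_le_one) (fun _ _ _ => rfl)
  simpa only [one_mul, Pr] using h

end Vale.Agent.P167.N.NET
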