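import Vale.Agent.P167.N.NET.GEM
import Vale.Agent.P167.N.NET.Piv
import Vale.Agent.P167.H262.WstFK

/-!
# P167, nets for `q < 1`: rough boxes

`VT Q e T A B`: the probability that `A` and `B` are joined by squares of `T` of the colour `e`, all
the corners of the colour `e` of the squares outside of `T` being identified. `rough`: the same bound
for `T \ (K₁ ∪ K₂)`, `A` together with the corners of `K₁` and `B` together with the corners of `K₂`,
for every configuration outside.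
-/

set_option autoImplicit false
set_option linter.unusedSectionVars false

namespace Vale.Agent.P167.N.NET

open Finset Vale.Agent.P167 Vale.Agent.P167.FK Vale.Agent.P167.H816 Vale.Agent.P167.H262
  Vale.Agent.P167.H632 Vale.Agent.P167.H871 Vale.Agent.P167.H192.TA
open Vale.Agent.P145.FB (PStep PConn)
open Relation (ReflTransGen)

variable {Q : ℝ} {D T K : Finset Pt} {η : Cfg} {e : Bool}

/-! ### Both colours -/

/-- The first corner of the colour `e`. -/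
def ea (e : Bool) (v : Pt) : Pt := if e then pa v else da v

/-- The second corner of the colour `e`. -/
def eb (e : Bool) (v : Pt) : Pt := if e then pb v else db v

theorem cor_iff {v x : Pt} : Cor e v x ↔ x = ea e v ∨ x = eb e v := by
  obtain ⟨x1, x2⟩ := x
  obtain ⟨v1, v2⟩ := v
  cases e
  · simp only [Cor, ea, eb, da, db, pr, Bool.false_eq_true, if_false]
    by_cases h : Even (v1 + v2)
    · simp only [h, if_true, Prod.mk.injEq]
      rw [Int.even_iff] at h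
      omega
    · simp only [h, if_false, Prod.mk.injEq]
      rw [Int.even_iff] at h
      omega
  · simp only [Cor, ea, eb, pa, pb, pr, if_true]
    by_cases h : Even (v1 + v2)
    · simp only [h, if_true, Prod.mk.injEq]
      rw [Int.even_iff] at h
      omega
    · simp only [h, if_false, Prod.mk.injEq]
      rw [Int.even_iff] at h
      omega

theorem cor_ea (e : Bool) (v : Pt) : Cor e v (ea e v) := cor_iff.2 (Or.inl rfl)

theorem cor_eb (e : Bool) (v : Pt) : Cor e v (eb e v) := cor_iff.2 (Or.inr rfl)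

theorem En_eq (K : Finset Pt) : En (ea e) (eb e) K = Vc e ↑K := by
  ext x
  constructor
  · rintro ⟨v, hv, h⟩
    exact ⟨v, hv, cor_iff.2 h⟩
  · rintro ⟨v, hv, h⟩
    exact ⟨v, hv, cor_iff.1 h⟩

/-- The configuration whose set of squares of colour `e` in `D` is `S`. -/
noncomputable def cc (e : Bool) (D : Finset Pt) (η : Cfg) (S : Finset Pt) : Cfg :=
  if e then cf D η S else cf D η (D \ S)

/-- The exterior relation. -/
noncomputable def r0 (e : Bool) (D : Finset Pt) (η : Cfg) : Setoid Pt :=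
  if e then PCs (cf D η ∅) else DCs (cf D η D)

theorem cc_in {S : Finset Pt} {v : Pt} (hv : v ∈ D) : cc e D η S v = e ↔ v ∈ S := by
  cases e
  · simp only [cc, Bool.false_eq_true, if_false, cf, hv, if_true, mem_sdiff, true_and]
    simp
  · simp only [cc, if_true, cf, hv]
    simp

theorem cc_out {S : Finset Pt} {v : Pt} (hv : v ∉ D) : cc e D η S v = η v := by
  cases e <;> simp [cc, cf, hv]

theorem cc_congr {S S' : Finset Pt} {v : Pt} (h : v ∈ D → (v ∈ S ↔ v ∈ S')) :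
    cc e D η S v = cc e D η S' v := by
  by_cases hv : v ∈ D
  · have h1 := cc_in (e := e) (η := η) (S := S) hv
    have h2 := cc_in (e := e) (η := η) (S := S') hv
    rw [h hv, ← h2] at h1
    cases e <;> cases h3 : cc _ D η S v <;> cases h4 : cc _ D η S' v <;> simp_all
  · rw [cc_out hv, cc_out hv]

theorem Ex_cc (hQ : 0 < Q) (hη : Good η) (e : Bool) (D : Finset Pt) (F : Cfg → ℝ) :
    Ex Q D η F = GE (ea e) (eb e) (fun _ => Q) (Q ^ 2) D (r0 e D η) (fun S => F (cc e D η S)) := by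
  cases e
  · exact Ex_eq_GE_dual hQ hη D F
  · exact Ex_eq_GE hQ hη D F

theorem Pr_cc (hQ : 0 < Q) (hη : Good η) (e : Bool) (D : Finset Pt) (A : Set Cfg) :
    Pr Q D η A = GP (ea e) (eb e) (fun _ => Q) (Q ^ 2) D (r0 e D η)
      (fun S => cc e D η S ∈ A) := by
  cases e
  · exact Pr_eq_GP_dual hQ hη D A
  · exact Pr_eq_GP hQ hη D A

theorem con_cc {E S : Finset Pt} (hS : S ⊆ E) {u v : Pt} (hu : (u.1 + u.2) % 2 = pr e) :
    Pw (cs e (cc e E η S) ∩ ↑E) u v ↔ con (ea e) (eb e) ⊥ S u v := by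
  cases e
  · rw [cs_false]
    exact con_D hS (by rw [Int.odd_iff]; simpa [pr] using hu)
  · rw [cs_true]
    exact con_P hS (by rw [Int.even_iff]; simpa [pr] using hu)

theorem Jn_iff {E S : Finset Pt} {A B : Set Pt} (hA : ∀ u ∈ A, (u.1 + u.2) % 2 = pr e)
    (hS : S ⊆ E) : cc e E η S ∈ Jn e ↑E A B ↔ ¬ Sep (ea e) (eb e) ⊥ A B S := by
  unfold H816.Sep
  push Not
  constructor
  · rintro ⟨u, hu, v, hv, h⟩
    exact ⟨u, hu, v, hv, (con_cc hS (hA u hu)).1 h⟩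
  · rintro ⟨u, hu, v, hv, h⟩
    exact ⟨u, hu, v, hv, (con_cc hS (hA u hu)).2 h⟩

/-! ### Boundary sites -/

/-- The corners of the colour `e` of the squares outside of `T`. -/
def Bd (e : Bool) (T : Finset Pt) : Set Pt := {x | ∃ v, v ∉ T ∧ Cor e v x}

theorem Bd.par {x : Pt} (h : x ∈ Bd e T) : (x.1 + x.2) % 2 = pr e := by
  obtain ⟨v, -, hv⟩ := h
  exact hv.2.2

theorem Bd_anti {T T' : Finset Pt} (h : T ⊆ T') : Bd e T' ⊆ Bd e T := by
  rintro x ⟨v, hv, hx⟩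
  exact ⟨v, fun h' => hv (h h'), hx⟩

theorem r0_le (e : Bool) (D : Finset Pt) (η : Cfg) : r0 e D η ≤ wir (Bd e D) := by
  cases e
  · have h : r0 false D η ≤ ⊥ ⊔ wir (Db D) := DCs_le_wir
    rw [bot_sup_eq] at h
    refine h.trans ?_
    rintro x y (h | ⟨h1, h2⟩)
    · exact Or.inl h
    · obtain ⟨v, hv, h3⟩ := h1
      obtain ⟨v', hv', h4⟩ := h2
      exact Or.inr ⟨⟨v, hv, cor_iff.2 h3⟩, ⟨v', hv', cor_iff.2 h4⟩⟩
  · have h : r0 true D η ≤ ⊥ ⊔ wir (Pb D) := PCs_le_wir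
    rw [bot_sup_eq] at h
    refine h.trans ?_
    rintro x y (h | ⟨h1, h2⟩)
    · exact Or.inl h
    · obtain ⟨v, hv, h3⟩ := h1
      obtain ⟨v', hv', h4⟩ := h2
      exact Or.inr ⟨⟨v, hv, cor_iff.2 h3⟩, ⟨v', hv', cor_iff.2 h4⟩⟩

theorem wir_mono {X : Type*} {Z Z' : Set X} (h : Z ⊆ Z') : wir Z ≤ wir Z' := by
  rintro x y (k | ⟨k, k'⟩)
  · exact Or.inl k
  · exact Or.inr ⟨h k, h k'⟩

/-! ### Tubes -/

/-- The probability that `A` and `B` are joined by squares of `T` of the colour `e`, all the boundary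
sites of `T` being identified. -/
noncomputable def VT (Q : ℝ) (e : Bool) (T : Finset Pt) (A B : Set Pt) : ℝ :=
  VG (ea e) (eb e) (fun _ => Q) (Q ^ 2) T (Bd e T) A B

theorem VT_nonneg (hQ : 0 < Q) (e : Bool) (T : Finset Pt) (A B : Set Pt) : 0 ≤ VT Q e T A B :=
  GP_nonneg _ _ _ (fun _ => hQ.le) (pow_pos hQ 2) _

theorem VT_le_one (hQ : 0 < Q) (e : Bool) (T : Finset Pt) (A B : Set Pt) : VT Q e T A B ≤ 1 := by
  unfold VT VG
  rw [GP_not _ _ _ (fun _ => hQ.le) (pow_pos hQ 2)]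
  have := GP_nonneg (ea e) (eb e) T (w := fun _ => Q) (q := Q ^ 2) (r := wir (Bd e T))
    (fun _ => hQ.le) (pow_pos hQ 2) (Sep (ea e) (eb e) ⊥ A B)
  linarith

theorem VT_comm (hQ : 0 < Q) (e : Bool) (T : Finset Pt) (A B : Set Pt) :
    VT Q e T A B = VT Q e T B A := by
  refine GP_congr _ _ _ (pow_pos hQ 2) (fun _ _ _ _ => Iff.rfl) fun S _ => not_congr ?_
  exact ⟨fun h x hx y hy k => h y hy x hx ((con _ _ _ S).symm k),
    fun h x hx y hy k => h y hy x hx ((con _ _ _ S).symm k)⟩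

theorem VT_mono (hQ : 0 < Q) {A A' B B' : Set Pt} (hA : A ⊆ A') (hB : B ⊆ B') :
    VT Q e T A B ≤ VT Q e T A' B' := by
  refine GP_mono _ _ _ (fun _ => hQ.le) (pow_pos hQ 2) fun S _ h h' => h ?_
  intro u hu v hv k
  exact h' u (hA hu) v (hB hv) k

/-- **Rough boxes, arbitrary exterior relation.** -/
theorem rough_r (hQ : 0 < Q) (hQ1 : Q ≤ 1) {K₁ K₂ : Finset Pt} (h1 : K₁ ⊆ T) (h2 : K₂ ⊆ T)
    {A B : Set Pt} (hA : A ⊆ Bd e T) (hB : B ⊆ Bd e T) {r : Setoid Pt}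
    (hr : r ≤ wir (Bd e (T \ (K₁ ∪ K₂)))) :
    VT Q e T A B ≤ GP (ea e) (eb e) (fun _ => Q) (Q ^ 2) (T \ (K₁ ∪ K₂)) r
      (fun S => ¬ Sep (ea e) (eb e) ⊥ (A ∪ Vc e ↑K₁) (B ∪ Vc e ↑K₂) S) := by
  have hq : 0 < Q ^ 2 := pow_pos hQ 2
  have h := rough_GP (ea e) (eb e) (w := fun _ => Q) (q := Q ^ 2) (fun _ => hQ) hq
    (pow_le_one' hQ hQ1) h1 h2 hA hB (r := r) (hr.trans (wir_mono ?_))
  · rw [En_eq, En_eq] at h
    exact h
  · rintro x ⟨v, hv, hx⟩
    rw [En_eq, En_eq]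
    by_cases hvT : v ∈ T
    · have : v ∈ K₁ ∪ K₂ := by
        by_contra hcon
        exact hv (mem_sdiff.2 ⟨hvT, hcon⟩)
      rcases mem_union.1 this with h | h
      · exact Or.inl (Or.inr ⟨v, h, hx⟩)
      · exact Or.inr ⟨v, h, hx⟩
    · exact Or.inl (Or.inl ⟨v, hvT, hx⟩)

/-- **Rough boxes.** -/
theorem rough (hQ : 0 < Q) (hQ1 : Q ≤ 1) {K₁ K₂ : Finset Pt} (h1 : K₁ ⊆ T) (h2 : K₂ ⊆ T)
    {A B : Set Pt} (hA : A ⊆ Bd e T) (hB : B ⊆ Bd e T) (hη : Good η) :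
    VT Q e T A B ≤ Pr Q (T \ (K₁ ∪ K₂)) η
      (Jn e ↑(T \ (K₁ ∪ K₂)) (A ∪ Vc e ↑K₁) (B ∪ Vc e ↑K₂)) := by
  refine (rough_r hQ hQ1 h1 h2 hA hB (r0_le e _ η)).trans (le_of_eq ?_)
  rw [Pr_cc hQ hη e]
  refine GP_congr _ _ _ (pow_pos hQ 2) (fun _ _ _ _ => Iff.rfl) fun S hS => ?_
  rw [Jn_iff ?_ hS]
  rintro u (hu | ⟨v, -, hu⟩)
  · exact Bd.par (hA hu)
  · exact hu.2.2

/-- In a larger domain, with any configuration outside. -/
theorem VT_le (hQ : 0 < Q) (hQ1 : Q ≤ 1) (hT : T ⊆ D) {A B : Set Pt} (hA : A ⊆ Bd e T)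
    (hB : B ⊆ Bd e T) (hη : Good η) : VT Q e T A B ≤ Pr Q D η (Jn e ↑T A B) := by
  refine le_Pr_of_forall hQ hη hT fun S _ => ?_
  have h := rough (e := e) (K₁ := ∅) (K₂ := ∅) hQ hQ1 (empty_subset T) (empty_subset T) hA hB
    (good_cf D hη S)
  have e1 : T \ (∅ ∪ ∅) = T := by simp
  have e2 : ∀ A : Set Pt, A ∪ Vc e ↑(∅ : Finset Pt) = A := by
    intro A
    refine Set.union_eq_self_of_subset_right ?_
    rintro x ⟨v, hv, -⟩
    simp at hv
  rw [e1, e2, e2] at h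
  exact h

end Vale.Agent.P167.N.NET
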