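import Vale.Agent.P167.N.NET.Piv
import Vale.Agent.P167.E2.Pol

/-!
# P167, duality of quads: Stokes modulo 2 and potentials modulo 2

* `stokes`: for a function `f` on the sites with `(f v + f (v + (1, 1))) (f (v + (1, 0)) +
  f (v + (0, 1))) = 0` for the squares `v ∈ G`, the sum of `f s f t` over the boundary sides `st` of
  `G` vanishes.
* `exists_pot2`: a closed chain of squares is the coboundary of a function on the sites of the other
  colour.
* `fan`: the coboundary around a vertex of a polygon.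
-/

set_option autoImplicit false

namespace Vale.Agent.P167.N.NET

open Finset
open Vale.Agent.P145.FB Vale.Agent.P167 Vale.Agent.P167.H632
open Vale.Agent.P167.E6 (dir face IsPolygon Encloses)

/-! ### The sides of a square -/

/-- The first vertex of the side `r` of the square `F`. -/
def st (F : ℤ × ℤ) (r : Fin 4) : ℤ × ℤ := F + ![(0, 0), (1, 0), (1, 1), (0, 1)] r

/-- The square on the other side of the side `r` of the square `F`. -/
def rf (F : ℤ × ℤ) (r : Fin 4) : ℤ × ℤ := F + ![(0, -1), (1, 0), (0, 1), (-1, 0)] r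

theorem rf_rf (F : ℤ × ℤ) (r : Fin 4) : rf (rf F r) (r + 2) = F := by
  obtain ⟨x, y⟩ := F
  fin_cases r <;> simp [rf]

theorem st_rf (F : ℤ × ℤ) (r : Fin 4) : st (rf F r) (r + 2) = st F r + dir r := by
  obtain ⟨x, y⟩ := F
  fin_cases r <;> simp [rf, st, dir]

theorem st_dir (F : ℤ × ℤ) (r : Fin 4) : st (rf F r) (r + 2) + dir (r + 2) = st F r := by
  obtain ⟨x, y⟩ := F
  fin_cases r <;> simp [rf, st, dir]

theorem face_st (F : ℤ × ℤ) (r : Fin 4) : face (st F r) r = F := by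
  obtain ⟨x, y⟩ := F
  fin_cases r <;> simp [st, face]

theorem face_st' (F : ℤ × ℤ) (r : Fin 4) : face (st F r) (r - 1) = rf F r := by
  obtain ⟨x, y⟩ := F
  fin_cases r <;> simp [st, rf, face]

theorem st_face (v : ℤ × ℤ) (r : Fin 4) : st (face v r) r = v := by
  obtain ⟨x, y⟩ := v
  fin_cases r <;> simp [st, face]

theorem rf_face (v : ℤ × ℤ) (r : Fin 4) : rf (face v r) r = face v (r - 1) := by
  obtain ⟨x, y⟩ := v
  fin_cases r <;> simp [rf, face]

theorem z2_add_self (a : ZMod 2) : a + a = 0 := CharTwo.add_self_eq_zero a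

/-- **Stokes modulo 2.** -/
theorem stokes (G : Finset (ℤ × ℤ)) (f : ℤ × ℤ → ZMod 2)
    (h : ∀ v ∈ G, (f v + f (v + (1, 1))) * (f (v + (1, 0)) + f (v + (0, 1))) = 0) :
    ∑ p ∈ (G ×ˢ (univ : Finset (Fin 4))) with rf p.1 p.2 ∉ G,
      f (st p.1 p.2) * f (st p.1 p.2 + dir p.2) = 0 := by
  have h1 : ∑ p ∈ G ×ˢ (univ : Finset (Fin 4)), f (st p.1 p.2) * f (st p.1 p.2 + dir p.2) = 0 := by
    rw [sum_product]
    refine sum_eq_zero fun v hv => ?_
    rw [Fin.sum_univ_four]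
    have h2 := h v hv
    obtain ⟨x, y⟩ := v
    simp only [Prod.mk_add_mk, add_zero] at h2
    simp [st, dir]
    linear_combination h2
  have h2 : ∑ p ∈ (G ×ˢ (univ : Finset (Fin 4))) with rf p.1 p.2 ∈ G,
      f (st p.1 p.2) * f (st p.1 p.2 + dir p.2) = 0 := by
    refine sum_involution (fun p _ => (rf p.1 p.2, p.2 + 2)) ?_ ?_ ?_ ?_
    · rintro ⟨F, r⟩ _
      dsimp only
      rw [st_rf, ← st_rf, st_dir, st_rf, mul_comm, z2_add_self]
    · rintro ⟨F, r⟩ _ _ h3
      have h4 : r + 2 = r := (Prod.ext_iff.1 h3).2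
      revert h4
      fin_cases r <;> simp
    · rintro ⟨F, r⟩ h3
      simp only [mem_filter, mem_product, mem_univ, and_true] at h3 ⊢
      rw [rf_rf]
      exact ⟨h3.2, h3.1⟩
    · rintro ⟨F, r⟩ _
      dsimp only
      rw [rf_rf]
      have h4 : r + 2 + 2 = r := by fin_cases r <;> rfl
      rw [h4]
  have h3 := sum_filter_add_sum_filter_not (G ×ˢ (univ : Finset (Fin 4)))
    (fun p => rf p.1 p.2 ∈ G) (fun p => f (st p.1 p.2) * f (st p.1 p.2 + dir p.2))
  rw [h1, h2, zero_add] at h3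
  exact h3

/-! ### Potentials -/

/-- The first corner of colour `c`. -/
def c1 (c : Bool) (v : ℤ × ℤ) : ℤ × ℤ := if (v.1 + v.2) % 2 = pr c then v else v + (1, 0)

/-- The second corner of colour `c`. -/
def c2 (c : Bool) (v : ℤ × ℤ) : ℤ × ℤ := if (v.1 + v.2) % 2 = pr c then v + (1, 1) else v + (0, 1)

/-- Left sums. -/
def SL (ε : ℤ × ℤ → ZMod 2) (a x y : ℤ) : ZMod 2 := ∑ k ∈ range (x - a).toNat, ε (a + k, y)

theorem SL_succ {ε : ℤ × ℤ → ZMod 2} {a : ℤ} (h : ∀ v, v.1 < a → ε v = 0) (x y : ℤ) :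
    SL ε a (x + 1) y = SL ε a x y + ε (x, y) := by
  unfold SL
  rcases lt_or_ge x a with h1 | h1
  · rw [show (x + 1 - a).toNat = 0 by omega, show (x - a).toNat = 0 by omega, h (x, y) h1]
    simp
  · rw [show (x + 1 - a).toNat = (x - a).toNat + 1 by omega, sum_range_succ]
    congr 3
    omega

theorem SL_left {ε : ℤ × ℤ → ZMod 2} {a x : ℤ} (y : ℤ) (h : x ≤ a) : SL ε a x y = 0 := by
  unfold SL
  rw [show (x - a).toNat = 0 by omega]
  simp

theorem SL_row {ε : ℤ × ℤ → ZMod 2} {a y : ℤ} (x : ℤ) (h : ∀ m, ε (m, y) = 0) :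
    SL ε a x y = 0 := sum_eq_zero fun _ _ => h _

/-- A closed chain of squares: even degree at the sites of colour `!c`. -/
def Closed (c : Bool) (ε : ℤ × ℤ → ZMod 2) : Prop :=
  ∀ x y : ℤ, (x + y) % 2 = pr (!c) → ε (x, y) + ε (x - 1, y) + ε (x, y - 1) + ε (x - 1, y - 1) = 0

theorem SL_two {c : Bool} {ε : ℤ × ℤ → ZMod 2} (hc : Closed c ε) {a : ℤ}
    (h : ∀ v, v.1 < a → ε v = 0) (n : ℕ) : ∀ x y : ℤ, x + 1 - a ≤ n → (x + (y + 1)) % 2 = pr (!c) →
      SL ε a (x + 1) y + SL ε a (x + 1) (y + 1) = 0 := by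
  induction n using Nat.strong_induction_on with
  | _ n ih =>
    intro x y hx hp
    rcases le_or_gt (x + 1) a with h1 | h1
    · rw [SL_left _ h1, SL_left _ h1, add_zero]
    · have e1 := SL_succ h x y
      have e2 := SL_succ h x (y + 1)
      have e3 := SL_succ h (x - 1) y
      have e4 := SL_succ h (x - 1) (y + 1)
      rw [sub_add_cancel] at e3 e4
      have e5 := hc x (y + 1) hp
      rw [add_sub_cancel_right] at e5
      have e6 : SL ε a (x - 1) y + SL ε a (x - 1) (y + 1) = 0 := by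
        have e7 := ih (n - 2) (by omega) (x - 2) y (by omega) (by omega)
        rw [show x - 2 + 1 = x - 1 by ring] at e7
        exact e7
      rw [e1, e2, e3, e4]
      linear_combination e5 + e6

theorem SL_two' {c : Bool} {ε : ℤ × ℤ → ZMod 2} (hc : Closed c ε) {a : ℤ}
    (h : ∀ v, v.1 < a → ε v = 0) {x y : ℤ} (hp : (x + (y + 1)) % 2 = pr (!c)) :
    SL ε a (x + 1) y + SL ε a (x + 1) (y + 1) = 0 :=
  SL_two hc h (x + 1 - a).toNat x y (by omega) hp

/-- **Potentials.** -/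
theorem exists_pot2 {c : Bool} {ε : ℤ × ℤ → ZMod 2} (hc : Closed c ε) {a1 b1 a2 b2 : ℤ}
    (hs : ∀ v, ε v ≠ 0 → (a1 ≤ v.1 ∧ v.1 < b1) ∧ a2 ≤ v.2 ∧ v.2 < b2) :
    ∃ N : ℤ × ℤ → ZMod 2, (∀ v, N (c1 c v) + N (c2 c v) = ε v) ∧
      ∀ s : ℤ × ℤ, (s.1 + s.2) % 2 = pr c →
        (s.1 ≤ a1 ∨ b1 ≤ s.1 ∨ s.2 ≤ a2 ∨ b2 ≤ s.2) → N s = 0 := by
  have h0 : ∀ v : ℤ × ℤ, v.1 < a1 → ε v = 0 := fun v hv => by
    by_contra hne
    have := (hs v hne).1.1
    omega
  have hpr : ∀ k : ℤ, k % 2 ≠ pr c ↔ k % 2 = pr (!c) := by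
    intro k
    have := pr_not c
    have := pr_or c
    omega
  have rel : ∀ x y : ℤ, (x + (y + 1)) % 2 = pr (!c) → SL ε a1 x y + SL ε a1 (x + 1) (y + 1) =
      ε (x, y) := by
    intro x y h1
    have h2 := SL_two' hc h0 h1
    rw [SL_succ h0 x y] at h2
    linear_combination h2 - z2_add_self (ε (x, y))
  have rel' : ∀ x y : ℤ, (x + y) % 2 = pr (!c) → SL ε a1 (x + 1) y + SL ε a1 x (y + 1) =
      ε (x, y) := by
    intro x y h1
    have h2 := SL_two' hc h0 (x := x - 1) (y := y) (by omega)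
    rw [sub_add_cancel] at h2
    rw [SL_succ h0 x y]
    linear_combination h2
  have row : ∀ y : ℤ, y < a2 ∨ b2 ≤ y → ∀ m, ε (m, y) = 0 := by
    intro y hy m
    by_contra hne
    have := (hs _ hne).2
    dsimp only at this
    omega
  -- the right side
  have right : ∀ (k : ℕ) (x y : ℤ), y ≤ a2 + k → b1 ≤ x → SL ε a1 x y = 0 := by
    have hcon : ∀ (y : ℤ) (j : ℕ), SL ε a1 (b1 + j) y = SL ε a1 b1 y := by
      intro y j
      induction j with
      | zero => simp
      | succ j ih =>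
        rw [Nat.cast_succ, ← add_assoc, SL_succ h0, ih]
        have : ε (b1 + j, y) = 0 := by
          by_contra hne
          have := (hs _ hne).1.2
          dsimp only at this
          omega
        rw [this, add_zero]
    have hcon' : ∀ (x y : ℤ), b1 ≤ x → SL ε a1 x y = SL ε a1 b1 y := by
      intro x y hx
      have := hcon y (x - b1).toNat
      rwa [show b1 + ((x - b1).toNat : ℤ) = x by omega] at this
    have two : ∀ y : ℤ, SL ε a1 b1 y + SL ε a1 b1 (y + 1) = 0 := by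
      intro y
      by_cases hp : (b1 + (y + 1)) % 2 = pr (!c)
      · have := SL_two' hc h0 hp
        rwa [hcon' (b1 + 1) _ (by omega), hcon' (b1 + 1) _ (by omega)] at this
      · have hp' : (b1 + 1 + (y + 1)) % 2 = pr (!c) := by
          have := pr_or (!c)
          omega
        have := SL_two' hc h0 hp'
        rwa [hcon' (b1 + 1 + 1) _ (by omega), hcon' (b1 + 1 + 1) _ (by omega)] at this
    intro k
    induction k with
    | zero =>
      intro x y hy hx
      rw [hcon' x y hx]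
      rcases lt_or_eq_of_le (show y ≤ a2 by simpa using hy) with h1 | h1
      · exact SL_row _ (row y (Or.inl h1))
      · have h2 := two (y - 1)
        rw [SL_row _ (row (y - 1) (Or.inl (by omega))), zero_add, sub_add_cancel] at h2
        exact h2
    | succ k ih =>
      intro x y hy hx
      rw [hcon' x y hx]
      have h1 := ih b1 (y - 1) (by push_cast at hy; omega) le_rfl
      have h2 := two (y - 1)
      rw [h1, zero_add, sub_add_cancel] at h2
      exact h2
  refine ⟨fun s => SL ε a1 s.1 s.2, ?_, ?_⟩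
  · rintro ⟨x, y⟩
    unfold c1 c2
    by_cases hp : (x + y) % 2 = pr c
    · simp only [hp, if_true, Prod.mk_add_mk]
      exact rel x y ((hpr _).1 (by have := pr_or c; omega))
    · simp only [hp, if_false, Prod.mk_add_mk, add_zero]
      exact rel' x y ((hpr _).1 hp)
  · rintro ⟨x, y⟩ hp h1
    dsimp only at hp h1 ⊢
    rcases h1 with h1 | h1 | h1 | h1
    · exact SL_left _ h1
    · exact right (y - a2).toNat x y (by omega) h1
    · rcases lt_or_eq_of_le h1 with h2 | h2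
      · exact SL_row _ (row y (Or.inl h2))
      · have h3 := SL_two' hc h0 (x := x - 1) (y := y - 1) (by
          have := (hpr (x - 1 + (y - 1 + 1))).1 (by have := pr_or c; omega)
          exact this)
        rw [sub_add_cancel, sub_add_cancel, SL_row _ (row (y - 1) (Or.inl (by omega))),
          zero_add] at h3
        exact h3
    · exact SL_row _ (row y (Or.inr h1))

/-! ### Polygons -/

variable {n : ℕ} {q : ZMod n → ℤ × ℤ} {I : Finset (ℤ × ℤ)}

/-- The indicator of a square. -/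
def inI (I : Finset (ℤ × ℤ)) (v : ℤ × ℤ) : ZMod 2 := if v ∈ I then 1 else 0

theorem fan_aux (P : Fin 4 → Prop) [DecidablePred P] (G : Fin 4 → ZMod 2) (B : ZMod 2)
    (r : Fin 4) (hr : P r ∧ ¬ P (r - 1)) (h3 : ∀ r', P r' ∧ ¬ P (r' - 1) → r' = r)
    (hB : ∀ r', P (r' - 1) ∧ ¬ P r' → G r' = B) :
    ∑ r' : Fin 4, (if P r' then (1 : ZMod 2) else 0) * (G r' + G (r' + 1)) = G r + B := by
  have m0 : (0 : Fin 4) - 1 = 3 := rfl
  have m1 : (1 : Fin 4) - 1 = 0 := rfl
  have m2 : (2 : Fin 4) - 1 = 1 := rfl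
  have m3 : (3 : Fin 4) - 1 = 2 := rfl
  have p0 : (0 : Fin 4) + 1 = 1 := rfl
  have p1 : (1 : Fin 4) + 1 = 2 := rfl
  have p2 : (2 : Fin 4) + 1 = 3 := rfl
  have p3 : (3 : Fin 4) + 1 = 0 := rfl
  have t0 := h3 0
  have t1 := h3 1
  have t2 := h3 2
  have t3 := h3 3
  have b0 := hB 0
  have b1 := hB 1
  have b2 := hB 2
  have b3 := hB 3
  rw [m0] at t0 b0
  rw [m1] at t1 b1
  rw [m2] at t2 b2
  rw [m3] at t3 b3
  rw [Fin.sum_univ_four, p0, p1, p2, p3]
  have hr1 := hr.1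
  have hr2 := hr.2
  clear hr h3 hB
  have key : ∀ a b c d : ZMod 2, a + a = 0 ∧ b + b = 0 ∧ c + c = 0 ∧ d + d = 0 := fun a b c d =>
    ⟨z2_add_self a, z2_add_self b, z2_add_self c, z2_add_self d⟩
  obtain ⟨k0, k1, k2, k3⟩ := key (G 0) (G 1) (G 2) (G 3)
  obtain rfl | rfl | rfl | rfl : r = 0 ∨ r = 1 ∨ r = 2 ∨ r = 3 := by
    fin_cases r <;> simp
  · rw [m0] at hr2
    by_cases q1 : P 1 <;> by_cases q2 : P 2
    · rw [if_pos hr1, if_pos q1, if_pos q2, if_neg hr2, ← b3 ⟨q2, hr2⟩]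
      linear_combination k1 + k2
    · rw [if_pos hr1, if_pos q1, if_neg q2, if_neg hr2, ← b2 ⟨q1, q2⟩]
      linear_combination k1
    · exact absurd (t2 ⟨q2, q1⟩) (by decide)
    · rw [if_pos hr1, if_neg q1, if_neg q2, if_neg hr2, ← b1 ⟨hr1, q1⟩]
      ring
  · rw [m1] at hr2
    by_cases q1 : P 2 <;> by_cases q2 : P 3
    · rw [if_neg hr2, if_pos hr1, if_pos q1, if_pos q2, ← b0 ⟨q2, hr2⟩]
      linear_combination k2 + k3
    · rw [if_neg hr2, if_pos hr1, if_pos q1, if_neg q2, ← b3 ⟨q1, q2⟩]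
      linear_combination k2
    · exact absurd (t3 ⟨q2, q1⟩) (by decide)
    · rw [if_neg hr2, if_pos hr1, if_neg q1, if_neg q2, ← b2 ⟨hr1, q1⟩]
      ring
  · rw [m2] at hr2
    by_cases q1 : P 3 <;> by_cases q2 : P 0
    · rw [if_pos q2, if_neg hr2, if_pos hr1, if_pos q1, ← b1 ⟨q2, hr2⟩]
      linear_combination k3 + k0
    · rw [if_neg q2, if_neg hr2, if_pos hr1, if_pos q1, ← b0 ⟨q1, q2⟩]
      linear_combination k3
    · exact absurd (t0 ⟨q2, q1⟩) (by decide)
    · rw [if_neg q2, if_neg hr2, if_pos hr1, if_neg q1, ← b3 ⟨hr1, q1⟩]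
      ring
  · rw [m3] at hr2
    by_cases q1 : P 0 <;> by_cases q2 : P 1
    · rw [if_pos q1, if_pos q2, if_neg hr2, if_pos hr1, ← b2 ⟨q2, hr2⟩]
      linear_combination k0 + k1
    · rw [if_pos q1, if_neg q2, if_neg hr2, if_pos hr1, ← b1 ⟨q1, q2⟩]
      linear_combination k0
    · exact absurd (t1 ⟨q2, q1⟩) (by decide)
    · rw [if_neg q1, if_neg q2, if_neg hr2, if_pos hr1, ← b0 ⟨hr1, q1⟩]
      ring

/-- **The coboundary around a vertex.** -/
theorem fan (hq : IsPolygon q) (hI : Encloses q I) (g : ℤ × ℤ → ZMod 2) (k : ZMod n) :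
    ∑ r : Fin 4, inI I (face (q k) r) * (g (q k + dir r) + g (q k + dir (r + 1))) =
      g (q (k + 1)) + g (q (k - 1)) := by
  -- the outgoing and the incoming side
  obtain ⟨r, hr⟩ := hq.2.2 k
  obtain ⟨s, hs⟩ := hq.2.2 (k - 1)
  rw [sub_add_cancel] at hs
  have h1 := (hI (q k) r).1 ⟨k, rfl, hr⟩
  have h2 := (hI (q (k - 1)) s).1 ⟨k - 1, rfl, by rw [sub_add_cancel]; exact hs⟩
  have h3 : ∀ r', face (q k) r' ∈ I ∧ face (q k) (r' - 1) ∉ I → r' = r := by
    intro r' h
    obtain ⟨i, h4, h5⟩ := (hI (q k) r').2 h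
    have h6 : i = k := hq.2.1 h4
    subst h6
    rw [hr] at h5
    exact (E2.add_dir_inj h5).symm
  have h3' : ∀ r', face (q k) (r' - 1) ∈ I ∧ face (q k) r' ∉ I → q k + dir r' = q (k - 1) := by
    intro r' h
    have h7 : face (q k + dir r') (r' + 2) = face (q k) (r' - 1) := by
      obtain ⟨x, y⟩ := q k
      fin_cases r' <;> simp [face, dir]
    have h8 : face (q k + dir r') (r' + 2 - 1) = face (q k) r' := by
      obtain ⟨x, y⟩ := q k
      fin_cases r' <;> simp [face, dir]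
    have h9 : q k + dir r' + dir (r' + 2) = q k := by
      obtain ⟨x, y⟩ := q k
      fin_cases r' <;> simp [dir]
    obtain ⟨i, h4, h5⟩ := (hI (q k + dir r') (r' + 2)).2 (by rw [h7, h8]; exact h)
    rw [h9] at h5
    have h6 : i = k - 1 := eq_sub_of_add_eq (hq.2.1 h5)
    rw [← h4, h6]
  have h4 := fan_aux (fun r' => face (q k) r' ∈ I) (fun r' => g (q k + dir r')) (g (q (k - 1))) r h1
    h3 fun r' h => by rw [h3' r' h]
  rw [← hr] at h4
  exact h4

/-- A vertex off the polygon. -/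
theorem fan_off (hI : Encloses q I) {x : ℤ × ℤ} (hx : ∀ k, q k ≠ x) (g : ℤ × ℤ → ZMod 2) :
    ∑ r : Fin 4, inI I (face x r) * (g (x + dir r) + g (x + dir (r + 1))) = 0 := by
  have h1 : ∀ r, ¬ (face x r ∈ I ∧ face x (r - 1) ∉ I) := by
    intro r h
    obtain ⟨i, h2, -⟩ := (hI x r).2 h
    exact hx i h2
  have t0 := h1 0
  have t1 := h1 1
  have t2 := h1 2
  have t3 := h1 3
  rw [show (0 : Fin 4) - 1 = 3 from rfl] at t0
  rw [show (1 : Fin 4) - 1 = 0 from rfl] at t1
  rw [show (2 : Fin 4) - 1 = 1 from rfl] at t2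
  rw [show (3 : Fin 4) - 1 = 2 from rfl] at t3
  rw [Fin.sum_univ_four, show (0 : Fin 4) + 1 = 1 from rfl, show (1 : Fin 4) + 1 = 2 from rfl,
    show (2 : Fin 4) + 1 = 3 from rfl, show (3 : Fin 4) + 1 = 0 from rfl]
  unfold inI
  by_cases h : face x 0 ∈ I
  · have h3 : face x 3 ∈ I := by by_contra h'; exact t0 ⟨h, h'⟩
    have h2 : face x 2 ∈ I := by by_contra h'; exact t3 ⟨h3, h'⟩
    have h1 : face x 1 ∈ I := by by_contra h'; exact t2 ⟨h2, h'⟩
    rw [if_pos h, if_pos h1, if_pos h2, if_pos h3]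
    linear_combination z2_add_self (g (x + dir 0)) + z2_add_self (g (x + dir 1)) +
      z2_add_self (g (x + dir 2)) + z2_add_self (g (x + dir 3))
  · have h1 : face x 1 ∉ I := fun h' => t1 ⟨h', h⟩
    have h2 : face x 2 ∉ I := fun h' => t2 ⟨h', h1⟩
    have h3 : face x 3 ∉ I := fun h' => t3 ⟨h', h2⟩
    rw [if_neg h, if_neg h1, if_neg h2, if_neg h3]
    ring

end Vale.Agent.P167.N.NET
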